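import Vale.Agent.P095.NU.Defs
import Vale.Agent.P095.TensorAct
import Vale.Agent.P095.Central
import Vale.Agent.P101.Transfer

/-!
# P095 (T7, row G36): the half flip of `Z` by products of exponentials, if `U(Z)` is connected
-/

open Filter Topology TopologicalSpace
open scoped BoundedContinuousFunction TensorProduct

namespace Vale.Agent.P095.NU

open Vale.Agent.P101

universe u v w

namespace ExpFlip

/-- The norm of the image of the algebraic tensor product under a commuting pair is bounded by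
the norm in the ultrapower. -/
theorem norm_pair_le {A : Type u} {Z : Type v} {T : Type w} [CStarAlgebra A] [CStarAlgebra Z]
    [CStarAlgebra T] (π₁ : A →⋆ₐ[ℂ] T) (π₂ : Z →⋆ₐ[ℂ] T) (hc : ∀ a z, Commute (π₁ a) (π₂ z))
    (hflip : HasInnerHalfFlip.{v, w} Z) {ω : Ultrafilter ℕ} (ρ : Z →⋆ₐ[ℂ] centralSeq ω A)
    (t : A ⊗[ℂ] Z) :
    ‖Algebra.TensorProduct.lift (π₁ : A →ₐ[ℂ] T) (π₂ : Z →ₐ[ℂ] T) hc t‖ ≤
      ‖TensorAct.comp ρ t‖ := by
  classical
  obtain ⟨S, rfl⟩ := TensorProduct.exists_finset t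
  let σ₁ : Z →⋆ₐ[ℂ] Ultra ω T := (Ultra.diag ω).comp π₂
  let σ₂ : Z →⋆ₐ[ℂ] Ultra ω T := (ultraMap ω π₁).comp ((centralSeq ω A).subtype.comp ρ)
  have hcomm : ∀ x y, Commute (σ₁ x) (σ₂ y) := by
    intro x y
    obtain ⟨r, hr⟩ := Ultra.mk_surjective (ρ y : Ultra ω A)
    show Commute (Ultra.mk ω (Ultra.const (π₂ x))) (ultraMap ω π₁ (ρ y : Ultra ω A))
    rw [← hr, ultraMap_mk, commute_iff_eq, ← map_mul, ← map_mul]
    congr 1
    ext n
    exact (hc _ _).symm.eq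
  have hmapdiag : ∀ a, ultraMap ω π₁ (Ultra.diag ω a) = Ultra.diag ω (π₁ a) := by
    intro a
    rw [Ultra.diag_apply, Ultra.diag_apply, ultraMap_mk]
    rfl
  set K : ℝ := ∑ i ∈ S, ‖π₁ i.1‖ with hK
  have hK0 : 0 ≤ K := Finset.sum_nonneg fun _ _ => norm_nonneg _
  have key : ∀ ε : ℝ, 0 < ε →
      ‖∑ i ∈ S, π₁ i.1 * π₂ i.2‖ ≤
        ‖∑ i ∈ S, Ultra.diag ω i.1 * (ρ i.2 : Ultra ω A)‖ + K * ε := by
    intro ε hε
    obtain ⟨U, hUadj, hU, hUz⟩ := hflip (Ultra ω T) σ₁ σ₂ hcomm (S.image Prod.snd) ε hε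
    have hUA : ∀ a, Commute U (Ultra.diag ω (π₁ a)) := by
      intro a
      have h1 : (Algebra.adjoin ℂ (Set.range σ₁ ∪ Set.range σ₂)).topologicalClosure ≤
          Subalgebra.centralizer ℂ {Ultra.diag ω (π₁ a)} := by
        apply Subalgebra.topologicalClosure_minimal
        · apply Algebra.adjoin_le
          rintro _ (⟨z, rfl⟩ | ⟨z, rfl⟩)
          · rw [SetLike.mem_coe, Subalgebra.mem_centralizer_iff]
            rintro _ rfl
            show Ultra.mk ω (Ultra.const (π₁ a)) * Ultra.mk ω (Ultra.const (π₂ z)) =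
              Ultra.mk ω (Ultra.const (π₂ z)) * Ultra.mk ω (Ultra.const (π₁ a))
            rw [← map_mul, ← map_mul, ← map_mul, ← map_mul, (hc a z).eq]
          · rw [SetLike.mem_coe, Subalgebra.mem_centralizer_iff]
            rintro _ rfl
            rw [← hmapdiag]
            show _ * ultraMap ω π₁ (ρ z : Ultra ω A) = ultraMap ω π₁ (ρ z : Ultra ω A) * _
            rw [← map_mul, ← map_mul, (mem_centralSeq_iff.1 (ρ z).2 a).eq]
        · exact Set.isClosed_centralizer _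
      have h3 := h1 hUadj
      rw [Subalgebra.mem_centralizer_iff] at h3
      exact (h3 _ rfl).symm
    have e1 : ‖∑ i ∈ S, π₁ i.1 * π₂ i.2‖ =
        ‖U * (∑ i ∈ S, Ultra.diag ω (π₁ i.1) * σ₁ i.2) * star U‖ := by
      rw [ApproxEquiv.norm_conj_aux ⟨U, hU⟩, ← Ultra.norm_diag (ω := ω), map_sum]
      have e0 : ∑ i ∈ S, Ultra.diag ω (π₁ i.1 * π₂ i.2) =
          ∑ i ∈ S, Ultra.diag ω (π₁ i.1) * σ₁ i.2 :=
        Finset.sum_congr rfl fun i _ => map_mul _ _ _
      rw [e0]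
    have e2 : ‖∑ i ∈ S, Ultra.diag ω (π₁ i.1) * σ₂ i.2‖ ≤
        ‖∑ i ∈ S, Ultra.diag ω i.1 * (ρ i.2 : Ultra ω A)‖ := by
      have e4 : ∑ i ∈ S, Ultra.diag ω (π₁ i.1) * σ₂ i.2 =
          ultraMap ω π₁ (∑ i ∈ S, Ultra.diag ω i.1 * (ρ i.2 : Ultra ω A)) := by
        rw [map_sum]
        refine Finset.sum_congr rfl fun i _ => ?_
        rw [map_mul, hmapdiag]
        rfl
      rw [e4]
      exact NonUnitalStarAlgHom.norm_apply_le (ultraMap ω π₁) _
    have e3 : U * (∑ i ∈ S, Ultra.diag ω (π₁ i.1) * σ₁ i.2) * star U -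
        ∑ i ∈ S, Ultra.diag ω (π₁ i.1) * σ₂ i.2 =
        ∑ i ∈ S, Ultra.diag ω (π₁ i.1) * (U * σ₁ i.2 * star U - σ₂ i.2) := by
      rw [Finset.mul_sum, Finset.sum_mul, ← Finset.sum_sub_distrib]
      refine Finset.sum_congr rfl fun i _ => ?_
      rw [mul_sub, ← mul_assoc, ← mul_assoc, ← mul_assoc, (hUA i.1).eq]
    have e5 : ‖U * (∑ i ∈ S, Ultra.diag ω (π₁ i.1) * σ₁ i.2) * star U -
        ∑ i ∈ S, Ultra.diag ω (π₁ i.1) * σ₂ i.2‖ ≤ K * ε := by
      rw [e3]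
      calc _ ≤ ∑ i ∈ S, ‖π₁ i.1‖ * ε := by
            refine (norm_sum_le _ _).trans (Finset.sum_le_sum (fun i hi => ?_))
            refine (norm_mul_le _ _).trans ?_
            rw [Ultra.norm_diag]
            exact mul_le_mul_of_nonneg_left (hUz _ (Finset.mem_image_of_mem _ hi)).le
              (norm_nonneg _)
        _ = K * ε := by rw [Finset.sum_mul]
    rw [e1]
    have e6 := norm_le_insert' (U * (∑ i ∈ S, Ultra.diag ω (π₁ i.1) * σ₁ i.2) * star U)
      (∑ i ∈ S, Ultra.diag ω (π₁ i.1) * σ₂ i.2)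
    linarith
  have h1 : Algebra.TensorProduct.lift (π₁ : A →ₐ[ℂ] T) (π₂ : Z →ₐ[ℂ] T) hc
      (∑ i ∈ S, i.1 ⊗ₜ[ℂ] i.2) = ∑ i ∈ S, π₁ i.1 * π₂ i.2 := by
    rw [map_sum]
    exact Finset.sum_congr rfl fun i _ => by rw [Algebra.TensorProduct.lift_tmul]; rfl
  have h2 : TensorAct.comp ρ (∑ i ∈ S, i.1 ⊗ₜ[ℂ] i.2) =
      ∑ i ∈ S, Ultra.diag ω i.1 * (ρ i.2 : Ultra ω A) := by
    rw [map_sum]
    exact Finset.sum_congr rfl fun i _ => TensorAct.comp_tmul ρ _ _
  rw [h1, h2]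
  refine le_of_forall_pos_le_add fun ε hε => ?_
  refine (key (ε / (K + 1)) (by positivity)).trans ?_
  have h5 : K * (ε / (K + 1)) ≤ ε := by
    rw [mul_div_assoc', div_le_iff₀ (by positivity)]
    nlinarith
  linarith

/-- The universal property of the tensor product `W` for commuting pairs. -/
theorem exists_pair_hom {A : Type u} {Z : Type v} {W : Type w} {T : Type w} [CStarAlgebra A]
    [CStarAlgebra Z] [CStarAlgebra W] [CStarAlgebra T] {j₁ : A →⋆ₐ[ℂ] W} {j₂ : Z →⋆ₐ[ℂ] W}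
    (hW : IsCStarTensor A Z W j₁ j₂) (hflip : HasInnerHalfFlip.{v, w} Z) {ω : Ultrafilter ℕ}
    (ρ : Z →⋆ₐ[ℂ] centralSeq ω A) (π₁ : A →⋆ₐ[ℂ] T) (π₂ : Z →⋆ₐ[ℂ] T)
    (hc : ∀ a z, Commute (π₁ a) (π₂ z)) :
    ∃ J : W →⋆ₐ[ℂ] T, (∀ a, J (j₁ a) = π₁ a) ∧ ∀ z, J (j₂ z) = π₂ z := by
  set L : A ⊗[ℂ] Z →ₐ[ℂ] W :=
    Algebra.TensorProduct.lift (j₁ : A →ₐ[ℂ] W) (j₂ : Z →ₐ[ℂ] W) hW.commute with hL
  set Ψ : A ⊗[ℂ] Z →ₐ[ℂ] T :=
    Algebra.TensorProduct.lift (π₁ : A →ₐ[ℂ] T) (π₂ : Z →ₐ[ℂ] T) hc with hΨ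
  have hLt : ∀ a z, L (a ⊗ₜ[ℂ] z) = j₁ a * j₂ z := fun a z => by
    rw [hL, Algebra.TensorProduct.lift_tmul]
    rfl
  have hΨt : ∀ a z, Ψ (a ⊗ₜ[ℂ] z) = π₁ a * π₂ z := fun a z => by
    rw [hΨ, Algebra.TensorProduct.lift_tmul]
    rfl
  have h2 : ∀ t, ‖Ψ t‖ ≤ ‖L t‖ := by
    intro t
    rw [hL, TensorAct.norm_comp hW hflip ρ]
    exact norm_pair_le π₁ π₂ hc hflip ρ t
  have hst : ∀ t : A ⊗[ℂ] Z, ∃ t' : A ⊗[ℂ] Z, L t' = star (L t) ∧ Ψ t' = star (Ψ t) := by
    intro t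
    induction t using TensorProduct.induction_on with
    | zero => exact ⟨0, by simp, by simp⟩
    | tmul a z =>
      refine ⟨star a ⊗ₜ[ℂ] star z, ?_, ?_⟩
      · rw [hLt, hLt, star_mul, map_star, map_star]
        exact ((hW.commute a z).star_star).eq
      · rw [hΨt, hΨt, star_mul, map_star, map_star]
        exact ((hc a z).star_star).eq
    | add x y hx hy =>
      obtain ⟨x', hx1, hx2⟩ := hx
      obtain ⟨y', hy1, hy2⟩ := hy
      refine ⟨x' + y', ?_, ?_⟩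
      · rw [map_add, map_add, star_add, hx1, hy1]
      · rw [map_add, map_add, star_add, hx2, hy2]
  obtain ⟨J, hJ⟩ := TensorAct.exists_extension L hW.injective hW.dense Ψ h2 hst
  refine ⟨J, fun a => ?_, fun z => ?_⟩
  · have h3 := hJ (a ⊗ₜ[ℂ] 1)
    rw [hLt, map_one, mul_one, hΨt, map_one, mul_one] at h3
    exact h3
  · have h3 := hJ (1 ⊗ₜ[ℂ] z)
    rw [hLt, map_one, one_mul, hΨt, map_one, one_mul] at h3
    exact h3

/-- Homomorphisms preserve products of exponentials. -/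
theorem map_expUnitary {A : Type*} {B : Type*} [CStarAlgebra A] [CStarAlgebra B]
    (f : A →⋆ₐ[ℂ] B) (l : List (selfAdjoint A)) :
    f ((l.map selfAdjoint.expUnitary).prod : A) =
      (((l.map fun h : selfAdjoint A => (⟨f h, IsSelfAdjoint.map h.2 f⟩ : selfAdjoint B)).map
        selfAdjoint.expUnitary).prod : B) := by
  induction l with
  | nil => simp
  | cons h l ih =>
    rw [List.map_cons, List.prod_cons, List.map_cons, List.map_cons, List.prod_cons]
    have h1 : f ((selfAdjoint.expUnitary h : unitary A) : A) =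
        ((selfAdjoint.expUnitary (⟨f h, IsSelfAdjoint.map h.2 f⟩ : selfAdjoint B) : unitary B) : B) := by
      rw [selfAdjoint.expUnitary_coe, selfAdjoint.expUnitary_coe]
      let _ : NormedAlgebra ℚ A := NormedAlgebra.restrictScalars ℚ ℂ A
      let _ : NormedAlgebra ℚ B := NormedAlgebra.restrictScalars ℚ ℂ B
      rw [NormedSpace.map_exp f (continuous_starAlgHom f), map_smul]
    calc f (((selfAdjoint.expUnitary h * (l.map selfAdjoint.expUnitary).prod : unitary A)) : A)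
        = f (selfAdjoint.expUnitary h : A) * f ((l.map selfAdjoint.expUnitary).prod : A) := by
          rw [← map_mul]
          rfl
      _ = _ := by
          rw [h1, ih]
          rfl

end ExpFlip

theorem hasExpHalfFlip_of_connected {Z : Type u} [CStarAlgebra Z]
    (hZ : IsJiangSuAlgebra.{u, u} Z) (hZ' : StronglySelfAbsorbing Z)
    (hconn : PathConnectedSpace (unitary Z)) : HasExpHalfFlip.{u, u} Z := by
  have hZ1 : IsJiangSu.{u, u} Z := hZ.isJiangSu
  have := separableSpace_of_isDimDropLimit hZ1.limit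
  have hω : ((hyperfilter ℕ : Ultrafilter ℕ) : Filter ℕ) ≤ cofinite := hyperfilter_le_cofinite
  have hZZ : ZStable Z Z := by
    obtain ⟨W, _, j₁, j₂, hW, φ, -⟩ := hZ'
    exact ⟨W, _, j₁, j₂, hW, ⟨φ⟩⟩
  obtain ⟨ρ⟩ := exists_hom_of_zStable hZ' hZZ (hyperfilter ℕ) hω
  obtain ⟨W, _, j₁, j₂, hW', φ, -⟩ := hZ'
  have hW := hW'.isCStarTensor
  intro C _ π₁ π₂ hc F ε hε
  obtain ⟨J, hJ1, hJ2⟩ := ExpFlip.exists_pair_hom hW hZ1.halfFlip ρ π₁ π₂ hc
  obtain ⟨V, hVadj, hV, hVz⟩ := hZ1.halfFlip W j₁ j₂ hW.commute F ε hε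
  obtain ⟨l, hl⟩ : ∃ l : List (selfAdjoint Z),
      ((l.map selfAdjoint.expUnitary).prod : Z) = φ.symm V := by
    have hu : φ.symm V ∈ unitary Z := by
      rw [Unitary.mem_iff] at hV ⊢
      rw [← map_star, ← map_mul, ← map_mul, hV.1, hV.2, map_one]
      exact ⟨rfl, rfl⟩
    have h1 : (⟨φ.symm V, hu⟩ : unitary Z) ∈ pathComponent (1 : unitary Z) :=
      hconn.joined 1 _
    obtain ⟨l, hl⟩ := Unitary.mem_pathComponentOne_iff.1 h1
    exact ⟨l, congrArg Subtype.val hl⟩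
  let f : Z →⋆ₐ[ℂ] C := J.comp (φ : Z →⋆ₐ[ℂ] W)
  have hfV : f ((l.map selfAdjoint.expUnitary).prod : Z) = J V := by
    rw [hl]
    show J (φ (φ.symm V)) = J V
    rw [StarAlgEquiv.apply_symm_apply]
  refine ⟨l.map fun h : selfAdjoint Z => (⟨f h, IsSelfAdjoint.map h.2 f⟩ : selfAdjoint C), ?_, ?_⟩
  · intro h hh
    obtain ⟨k, -, rfl⟩ := List.mem_map.1 hh
    show J (φ k) ∈ _
    have h1 : ∀ x : W, J x ∈
        closure (Algebra.adjoin ℂ (Set.range π₁ ∪ Set.range π₂) : Set C) := by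
      intro x
      refine DenseRange.induction_on hW.dense x ?_ ?_
      · exact isClosed_closure.preimage (continuous_starAlgHom J)
      · intro t
        refine subset_closure ?_
        induction t using TensorProduct.induction_on with
        | zero =>
          rw [map_zero, map_zero]
          exact Subalgebra.zero_mem _
        | tmul a z =>
          rw [Algebra.TensorProduct.lift_tmul]
          show J (j₁ a * j₂ z) ∈ _
          rw [map_mul, hJ1, hJ2]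
          exact Subalgebra.mul_mem _ (Algebra.subset_adjoin (Or.inl ⟨a, rfl⟩))
            (Algebra.subset_adjoin (Or.inr ⟨z, rfl⟩))
        | add x y hx hy =>
          rw [map_add, map_add]
          exact Subalgebra.add_mem _ hx hy
    exact h1 _
  · intro z hz
    rw [← ExpFlip.map_expUnitary f l, hfV]
    have h1 : J V * π₁ z * star (J V) - π₂ z = J (V * j₁ z * star V - j₂ z) := by
      rw [map_sub, map_mul, map_mul, map_star, hJ1, hJ2]
    rw [h1]
    exact (NonUnitalStarAlgHom.norm_apply_le J _).trans_lt (hVz z hz)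

end Vale.Agent.P095.NU
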