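import Vale.Agent.P095.NU.Defs2

/-!
# P095, T7, row G37: nuclear dimension of the unitization
-/

open Filter Topology TopologicalSpace
open scoped BoundedContinuousFunction ComplexOrder

namespace Vale.Agent.P095.NU

open Vale.Agent.P101

universe u v w

namespace NucUnit

/-- Maps with `f (x* y) = (g x)* g y` preserve positivity of matrices. -/
theorem isPos_map_of {A B : Type*} [NonUnitalRing A] [StarRing A] [NonUnitalRing B] [StarRing B]
    (f : A →+ B) (g : A → B) (h : ∀ x y, f (star x * y) = star (g x) * g y) {n : ℕ}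
    {X : Matrix (Fin n) (Fin n) A} (hX : IsPos X) : IsPos (X.map f) := by
  obtain ⟨Y, rfl⟩ := hX
  refine ⟨Y.map g, ?_⟩
  ext i j
  rw [Matrix.map_apply, Matrix.mul_apply, Matrix.mul_apply, map_sum]
  refine Finset.sum_congr rfl fun k _ => ?_
  rw [Matrix.star_apply, Matrix.star_apply, h, Matrix.map_apply, Matrix.map_apply]

/-- Finite-dimensional algebras. -/
abbrev Fd {m : ℕ} (n : Fin m → ℕ) : Type := ∀ i, Matrix (Fin (n i)) (Fin (n i)) ℂ

/-- Adding a block of size zero. -/
def addB {m : ℕ} (n : Fin m → ℕ) : Fd n →ₗ[ℂ] Fd (Fin.cons 0 n : Fin (m + 1) → ℕ) :=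
  LinearMap.pi (Fin.cases
    (motive := fun i => Fd n →ₗ[ℂ] Matrix (Fin ((Fin.cons 0 n : Fin (m + 1) → ℕ) i))
      (Fin ((Fin.cons 0 n : Fin (m + 1) → ℕ) i)) ℂ) 0
    (fun i => (LinearMap.proj i : Fd n →ₗ[ℂ] Matrix (Fin (n i)) (Fin (n i)) ℂ)))

/-- Forgetting the first block. -/
def tl {m : ℕ} (n : Fin m → ℕ) : Fd (Fin.cons 0 n : Fin (m + 1) → ℕ) →ₗ[ℂ] Fd n where
  toFun y := fun i => y i.succ
  map_add' _ _ := rfl
  map_smul' _ _ := rfl

theorem tl_addB {m : ℕ} (n : Fin m → ℕ) (x : Fd n) : tl n (addB n x) = x := rfl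

theorem addB_mul {m : ℕ} (n : Fin m → ℕ) (x y : Fd n) :
    addB n (x * y) = addB n x * addB n y := by
  funext i
  refine Fin.cases ?_ (fun i => ?_) i
  · ext a
    exact Fin.elim0 a
  · rfl

theorem addB_one {m : ℕ} (n : Fin m → ℕ) : addB n (1 : Fd n) = 1 := by
  funext i
  refine Fin.cases ?_ (fun i => ?_) i
  · ext a
    exact Fin.elim0 a
  · rfl

theorem addB_star {m : ℕ} (n : Fin m → ℕ) (x : Fd n) : addB n (star x) = star (addB n x) := by
  funext i
  refine Fin.cases ?_ (fun i => ?_) i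
  · ext a
    exact Fin.elim0 a
  · rfl

/-- The entry of a matrix of size one. -/
def ent (X : Matrix (Fin 1) (Fin 1) ℂ) : ℂ := X 0 0

theorem ent_mul (X Y : Matrix (Fin 1) (Fin 1) ℂ) : ent (X * Y) = ent X * ent Y := by
  rw [ent, Matrix.mul_apply, Fin.sum_univ_one]
  rfl

theorem ent_one : ent 1 = 1 := by
  rw [ent, Matrix.one_apply_eq]

/-- The value of the first block (of size one). -/
def val (m : ℕ) : Fd (Fin.cons 1 (fun _ => 0) : Fin (m + 1) → ℕ) →ₗ[ℂ] ℂ where
  toFun x := ent (x 0)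
  map_add' _ _ := rfl
  map_smul' _ _ := rfl

theorem val_mul (m : ℕ) (x y : Fd (Fin.cons 1 (fun _ => 0) : Fin (m + 1) → ℕ)) :
    val m (x * y) = val m x * val m y := ent_mul (x 0) (y 0)

theorem val_one (m : ℕ) : val m 1 = 1 := ent_one

theorem val_star (m : ℕ) (x : Fd (Fin.cons 1 (fun _ => 0) : Fin (m + 1) → ℕ)) :
    val m (star x) = star (val m x) := rfl

section

variable {A : Type u} [NonUnitalCStarAlgebra A]

theorem exists_unit (S : Finset A) (δ : ℝ) (hδ : 0 < δ) :
    ∃ s : A, IsSelfAdjoint s ∧ ‖s‖ ≤ 1 ∧ ∀ a ∈ S, ‖s * a - a‖ < δ ∧ ‖a * s - a‖ < δ := by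
  letI : PartialOrder A := CStarAlgebra.spectralOrder A
  haveI : StarOrderedRing A := CStarAlgebra.spectralOrderedRing A
  have hu := CStarAlgebra.increasingApproximateUnit A
  have h1 : ∀ᶠ s in CStarAlgebra.approximateUnit A, ∀ a ∈ S,
      ‖s * a - a‖ < δ ∧ ‖a * s - a‖ < δ := by
    rw [Filter.eventually_all_finset]
    intro a _
    have h2 := (Metric.tendsto_nhds.1 (hu.tendsto_mul_right a)) δ hδ
    have h3 := (Metric.tendsto_nhds.1 (hu.tendsto_mul_left a)) δ hδ
    filter_upwards [h2, h3] with s h4 h5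
    rw [dist_eq_norm] at h4 h5
    exact ⟨h4, h5⟩
  obtain ⟨s, h2, h3, h4⟩ := (h1.and (hu.eventually_nonneg.and hu.eventually_norm)).exists
  exact ⟨s, h3.isSelfAdjoint, h4, h2⟩

theorem one_sub_pos {M : Type*} [CStarAlgebra M] {x : M} (hx : ‖x‖ ≤ 1) :
    IsPos (1 - star x * x) ∧ ‖1 - star x * x‖ ≤ 1 := by
  letI : PartialOrder M := CStarAlgebra.spectralOrder M
  haveI : StarOrderedRing M := CStarAlgebra.spectralOrderedRing M
  have h0 : 0 ≤ star x * x := star_mul_self_nonneg x
  have h1 : star x * x ≤ 1 := by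
    rw [← CStarAlgebra.norm_le_one_iff_of_nonneg _ h0, CStarRing.norm_star_mul_self]
    nlinarith [norm_nonneg x]
  have h2 : 0 ≤ 1 - star x * x := sub_nonneg.2 h1
  refine ⟨CStarAlgebra.nonneg_iff_eq_star_mul_self.1 h2, ?_⟩
  rw [CStarAlgebra.norm_le_one_iff_of_nonneg _ h2]
  exact sub_le_self _ h0

/-- The compression `m ↦ s m s`. -/
noncomputable def cmpr (s : A) : Unitization ℂ A →ₗ[ℂ] A where
  toFun m := m.fst • (s * s) + s * m.snd * s
  map_add' x y := by
    rw [Unitization.fst_add, Unitization.snd_add, add_smul, mul_add, add_mul]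
    abel
  map_smul' c x := by
    rw [Unitization.fst_smul, Unitization.snd_smul, RingHom.id_apply, smul_add, smul_eq_mul,
      mul_smul, mul_smul_comm, smul_mul_assoc]

theorem inr_cmpr (s : A) (x : Unitization ℂ A) :
    ((cmpr s x : A) : Unitization ℂ A) = (s : Unitization ℂ A) * x * (s : Unitization ℂ A) := by
  have h : x = Unitization.inl x.fst + (x.snd : Unitization ℂ A) :=
    (Unitization.inl_fst_add_inr_snd_eq x).symm
  conv_rhs => rw [h]
  ext
  · simp [cmpr]
  · simp [cmpr, mul_add, add_mul, smul_mul_assoc]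

theorem inr_snd_mul (x : Unitization ℂ A) (s : A) :
    (((x * (s : Unitization ℂ A)).snd : A) : Unitization ℂ A) = x * (s : Unitization ℂ A) := by
  ext
  · simp
  · simp

end

end NucUnit

open NucUnit

theorem hasNuclearDim_unitization {A : Type u} [NonUnitalCStarAlgebra A] {d : ℕ}
    (h : HasNuclearDimNU A d) : HasNuclearDim (Unitization ℂ A) (d + 1) := by
  classical
  intro S ε hε
  obtain ⟨s, hs, hs1, hsa⟩ := exists_unit (S.image fun m => m.snd) (ε / 4) (by positivity)
  obtain ⟨m, n, φ, ψ, h1, h2, h3, h4, h5, h6⟩ := h (S.image fun x => cmpr s x) (ε / 4)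
    (by positivity)
  -- the new colour
  let p : Unitization ℂ A := 1 - star (s : Unitization ℂ A) * (s : Unitization ℂ A)
  have hp : IsPos p ∧ ‖p‖ ≤ 1 := one_sub_pos (by rw [Unitization.norm_inr]; exact hs1)
  have hss : star (s : Unitization ℂ A) = (s : Unitization ℂ A) := by
    rw [← Unitization.inr_star, hs.star_eq]
  let N : Fin (d + 1 + 1) → Fin (m + 1) → ℕ := Fin.cons (Fin.cons 1 fun _ => 0)
    (fun c => Fin.cons 0 (n c))
  let φ0 : Unitization ℂ A →ₗ[ℂ] Fd (Fin.cons 1 (fun _ => 0) : Fin (m + 1) → ℕ) :=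
    (Unitization.fstHom ℂ A).toLinearMap.smulRight 1
  let φs : ∀ c : Fin (d + 1), Unitization ℂ A →ₗ[ℂ] Fd (Fin.cons 0 (n c) : Fin (m + 1) → ℕ) :=
    fun c => addB (n c) ∘ₗ φ c ∘ₗ cmpr s
  let inrL : A →ₗ[ℂ] Unitization ℂ A :=
    { toFun := fun a => (a : Unitization ℂ A)
      map_add' := fun a b => Unitization.inr_add ℂ a b
      map_smul' := fun c a => Unitization.inr_smul ℂ c a }
  let ψ0 : Fd (Fin.cons 1 (fun _ => 0) : Fin (m + 1) → ℕ) →ₗ[ℂ] Unitization ℂ A :=
    (val m).smulRight p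
  let ψs : ∀ c : Fin (d + 1), Fd (Fin.cons 0 (n c) : Fin (m + 1) → ℕ) →ₗ[ℂ] Unitization ℂ A :=
    fun c => inrL ∘ₗ ψ c ∘ₗ tl (n c)
  let Φ : ∀ c : Fin (d + 1 + 1), Unitization ℂ A →ₗ[ℂ] Fd (N c) :=
    Fin.cases (motive := fun c => Unitization ℂ A →ₗ[ℂ] Fd (N c)) φ0 φs
  let Ψ : ∀ c : Fin (d + 1 + 1), Fd (N c) →ₗ[ℂ] Unitization ℂ A :=
    Fin.cases (motive := fun c => Fd (N c) →ₗ[ℂ] Unitization ℂ A) ψ0 ψs
  have hφ0 : IsCP φ0 := by
    intro k X hX
    refine isPos_map_of φ0.toAddMonoidHom φ0 (fun x y => ?_) hX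
    change (star x * y).fst • (1 : Fd (Fin.cons 1 (fun _ => 0) : Fin (m + 1) → ℕ)) =
      star (x.fst • (1 : Fd (Fin.cons 1 (fun _ => 0) : Fin (m + 1) → ℕ))) * (y.fst • 1)
    rw [Unitization.fst_mul, Unitization.fst_star, star_smul, star_one, smul_mul_smul_comm, one_mul]
  have hφs : ∀ c, IsCP (φs c) := by
    intro c k X hX
    have e1 : IsPos (X.map (cmpr s)) := by
      obtain ⟨Y, rfl⟩ := hX
      refine ⟨Y.map fun y => (y * (s : Unitization ℂ A)).snd, ?_⟩
      ext i j
      apply Unitization.inr_injective (R := ℂ)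
      rw [Matrix.map_apply, inr_cmpr, Matrix.mul_apply, Matrix.mul_apply, Finset.mul_sum,
        Finset.sum_mul]
      have e2 : ((∑ k, star (Y.map fun y => (y * (s : Unitization ℂ A)).snd) i k *
          (Y.map fun y => (y * (s : Unitization ℂ A)).snd) k j : A) : Unitization ℂ A) =
          ∑ k, inrL (star (Y.map fun y => (y * (s : Unitization ℂ A)).snd) i k *
          (Y.map fun y => (y * (s : Unitization ℂ A)).snd) k j) := by
        rw [← map_sum]
        rfl
      rw [e2]
      refine Finset.sum_congr rfl fun k _ => ?_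
      change _ = ((star (Y.map fun y => (y * (s : Unitization ℂ A)).snd) i k *
          (Y.map fun y => (y * (s : Unitization ℂ A)).snd) k j : A) : Unitization ℂ A)
      rw [Unitization.inr_mul, Matrix.star_apply, Matrix.star_apply, Unitization.inr_star,
        Matrix.map_apply, Matrix.map_apply, inr_snd_mul, inr_snd_mul, star_mul, hss]
      simp only [mul_assoc]
    have e2 := h1 c k _ e1
    exact isPos_map_of (addB (n c)).toAddMonoidHom (addB (n c)) (fun x y => by
      change addB (n c) (star x * y) = _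
      rw [addB_mul, addB_star]) e2
  have hψ0 : IsOrderZero ψ0 := by
    refine ⟨?_, ?_, ?_⟩
    · obtain ⟨r, hr⟩ := hp.1
      intro k X hX
      refine isPos_map_of ψ0.toAddMonoidHom (fun x => val m x • r) (fun x y => ?_) hX
      change val m (star x * y) • p = _
      rw [val_mul, val_star, star_smul, smul_mul_smul_comm, ← hr]
    · intro x y
      change val m x • p * val m y • p = val m 1 • p * val m (x * y) • p
      rw [smul_mul_smul_comm, smul_mul_smul_comm, val_one, val_mul, one_mul]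
    · change ‖val m 1 • p‖ ≤ 1
      rw [val_one, one_smul]
      exact hp.2
  have hψs : ∀ c, IsOrderZero (ψs c) := by
    intro c
    refine ⟨?_, ?_, ?_⟩
    · intro k X hX
      have e1 : IsPos (X.map (tl (n c))) :=
        isPos_map_of (tl (n c)).toAddMonoidHom (tl (n c)) (fun x y => rfl) hX
      have e2 := h3 c k _ e1
      exact isPos_map_of inrL.toAddMonoidHom inrL (fun x y => by
        change ((star x * y : A) : Unitization ℂ A) = star (x : Unitization ℂ A) * (y : Unitization ℂ A)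
        rw [Unitization.inr_mul, Unitization.inr_star]) e2
    · intro x y
      have e1 := h4 c (tl (n c) x) (tl (n c) y)
      have e2 : (((ψ c (tl (n c) x) * ψ c (tl (n c) y) : A)) : Unitization ℂ A) =
          ((ψ c 1 * ψ c (tl (n c) x * tl (n c) y) : A) : Unitization ℂ A) := by rw [e1]
      rw [Unitization.inr_mul, Unitization.inr_mul] at e2
      exact e2
    · change ‖((ψ c 1 : A) : Unitization ℂ A)‖ ≤ 1
      rw [Unitization.norm_inr]
      exact h5 c
  refine ⟨m + 1, N, Φ, Ψ, ?_, ?_, ?_, ?_⟩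
  · intro c
    refine Fin.cases ?_ (fun c => ?_) c
    · exact hφ0
    · exact hφs c
  · intro c
    refine Fin.cases ?_ (fun c => ?_) c
    · refine ⟨0, ?_⟩
      change (1 : Fd (Fin.cons 1 (fun _ => 0) : Fin (m + 1) → ℕ)) -
        (1 : Unitization ℂ A).fst • 1 = star 0 * 0
      rw [Unitization.fst_one, one_smul, sub_self, mul_zero]
    · have e1 : cmpr s 1 = star s * s := by
        change (1 : Unitization ℂ A).fst • (s * s) + s * (1 : Unitization ℂ A).snd * s = _
        rw [Unitization.fst_one, Unitization.snd_one, one_smul, mul_zero, zero_mul, add_zero,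
          hs.star_eq]
      obtain ⟨w, hw⟩ := h2 c (star s * s) ⟨s, rfl⟩ (by
        rw [CStarRing.norm_star_mul_self]
        nlinarith [norm_nonneg s])
      refine ⟨addB (n c) w, ?_⟩
      change (1 : Fd (Fin.cons 0 (n c) : Fin (m + 1) → ℕ)) - addB (n c) (φ c (cmpr s 1)) =
        star (addB (n c) w) * addB (n c) w
      rw [e1, ← addB_star, ← addB_mul, ← hw, map_sub, addB_one]
  · intro c
    refine Fin.cases ?_ (fun c => ?_) c
    · exact hψ0
    · exact hψs c
  · intro x hx
    rw [Fin.sum_univ_succ]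
    have e1 : Ψ 0 (Φ 0 x) = x.fst • p := by
      change val m (x.fst • (1 : Fd (Fin.cons 1 (fun _ => 0) : Fin (m + 1) → ℕ))) • p = _
      rw [map_smul, val_one, smul_eq_mul, mul_one]
    have e2 : ∑ c : Fin (d + 1), Ψ c.succ (Φ c.succ x) =
        inrL (∑ c, ψ c (φ c (cmpr s x))) := by
      rw [map_sum]
      rfl
    have e3 : x.fst • p + inrL (∑ c, ψ c (φ c (cmpr s x))) - x =
        inrL (∑ c, ψ c (φ c (cmpr s x)) - cmpr s x) + inrL (s * x.snd * s - x.snd) := by
      rw [map_sub]
      have e4 : x.fst • p = x - inrL (cmpr s x) + inrL (s * x.snd * s - x.snd) := by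
        have f1 : ∀ a b : Unitization ℂ A, (a - b).fst = a.fst - b.fst := fun _ _ => rfl
        have f2 : ∀ a b : Unitization ℂ A, (a - b).snd = a.snd - b.snd := fun _ _ => rfl
        ext
        · simp [p, inrL, f1]
        · simp only [p, inrL, cmpr, hss, f2, LinearMap.coe_mk, AddHom.coe_mk,
            Unitization.snd_smul, Unitization.snd_one, Unitization.snd_add, Unitization.snd_mul,
            Unitization.snd_inr, Unitization.fst_inr, zero_smul, zero_sub, zero_add, add_zero,
            smul_neg]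
          abel
      rw [e4]
      abel
    rw [e1, e2, e3]
    have e5 : ‖inrL (∑ c, ψ c (φ c (cmpr s x)) - cmpr s x)‖ < ε / 4 := by
      change ‖((∑ c, ψ c (φ c (cmpr s x)) - cmpr s x : A) : Unitization ℂ A)‖ < ε / 4
      rw [Unitization.norm_inr]
      exact h6 _ (Finset.mem_image_of_mem _ hx)
    have e6 : ‖inrL (s * x.snd * s - x.snd)‖ < ε / 4 + ε / 4 := by
      change ‖((s * x.snd * s - x.snd : A) : Unitization ℂ A)‖ < _
      rw [Unitization.norm_inr]
      have h7 := hsa _ (Finset.mem_image_of_mem (fun m => m.snd) hx)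
      have e7 : s * x.snd * s - x.snd = s * (x.snd * s - x.snd) + (s * x.snd - x.snd) := by
        rw [mul_sub, mul_assoc]
        abel
      rw [e7]
      refine (norm_add_le _ _).trans_lt (add_lt_add ?_ h7.1)
      refine lt_of_le_of_lt (norm_mul_le _ _) ?_
      refine lt_of_le_of_lt (mul_le_mul_of_nonneg_right hs1 (norm_nonneg _)) ?_
      rw [one_mul]
      exact h7.2
    refine (norm_add_le _ _).trans_lt ?_
    linarith

end Vale.Agent.P095.NU
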