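import Mathlib

/-! P095 non-unital, row Q1: quotients of C*-algebras by closed two-sided ideals. -/

namespace Vale.Agent.P095.NU

open scoped ComplexOrder

universe u

noncomputable section

namespace Q1

section Cut

variable {C : Type u} [CStarAlgebra C]

/-- the cutting lemma -/
theorem cut (I : Ideal C) [I.IsTwoSided] (hs : ∀ x ∈ I, star x ∈ I) (x n : C) (hn : n ∈ I)
    {ε : ℝ} (he : 0 < ε) : ∃ m ∈ I, ‖x + m‖ * ‖x + m‖ ≤ ‖star x * x + n‖ + ε := by
  let _ := CStarAlgebra.spectralOrder C
  let _ := CStarAlgebra.spectralOrderedRing C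
  set r := ‖star x * x + n‖ with hr
  -- selfadjoint version
  set n' : C := (1 / 2 : ℝ) • (n + star n) with hn'
  have hn'I : n' ∈ I := by
    have h1 : n' = algebraMap ℝ C (1 / 2) * (n + star n) := by
      rw [hn', Algebra.smul_def]
    rw [h1]
    exact I.mul_mem_left _ (I.add_mem hn (hs n hn))
  have hn's : IsSelfAdjoint n' := by
    rw [hn', IsSelfAdjoint, star_smul, star_add, star_star, star_trivial, add_comm]
  have hsa : IsSelfAdjoint (star x * x + n') := (IsSelfAdjoint.star_mul_self x).add hn's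
  have hnorm : ‖star x * x + n'‖ ≤ r := by
    have h1 : star x * x + n' = (1 / 2 : ℝ) • ((star x * x + n) + star (star x * x + n)) := by
      rw [hn', star_add, star_mul, star_star]
      module
    rw [h1, norm_smul]
    have h2 := norm_add_le (star x * x + n) (star (star x * x + n))
    rw [norm_star] at h2
    have h3 : ‖(1 / 2 : ℝ)‖ = 1 / 2 := by norm_num
    rw [h3]
    linarith
  have hle1 : star x * x + n' ≤ algebraMap ℝ C r :=
    (hsa.le_algebraMap_norm_self).trans (algebraMap_mono C hnorm)
  -- the positive element of the ideal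
  set s := Real.sqrt ε with hsdef
  have hs0 : 0 < s := Real.sqrt_pos.mpr he
  have hss : s * s = ε := Real.mul_self_sqrt he.le
  set b : C := (1 / (2 * s) : ℝ) • n' with hb
  have hbs : IsSelfAdjoint b := by
    rw [hb, IsSelfAdjoint, star_smul, star_trivial, hn's.star_eq]
  have hbI : b ∈ I := by
    have h1 : b = algebraMap ℝ C (1 / (2 * s)) * n' := by rw [hb, Algebra.smul_def]
    rw [h1]
    exact I.mul_mem_left _ hn'I
  set a : C := b * b with ha
  have haI : a ∈ I := I.mul_mem_left _ hbI
  have ha0 : 0 ≤ a := by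
    have h1 : 0 ≤ star b * b := star_mul_self_nonneg b
    rwa [hbs.star_eq] at h1
  have hle2 : - n' ≤ algebraMap ℝ C ε + a := by
    set w : C := b + algebraMap ℝ C s with hw
    have hws : IsSelfAdjoint w := hbs.add (IsSelfAdjoint.algebraMap C (IsSelfAdjoint.all s))
    have h1 : 0 ≤ star w * w := star_mul_self_nonneg w
    rw [hws.star_eq] at h1
    have h2 : w * w = algebraMap ℝ C ε + a + n' := by
      rw [hw, add_mul, mul_add, mul_add, ← map_mul, hss, ← ha, Algebra.commutes s b]
      have h3 : b * algebraMap ℝ C s = (1 / 2 : ℝ) • n' := by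
        rw [← Algebra.commutes, ← Algebra.smul_def, hb, smul_smul]
        congr 1
        field_simp
      rw [← Algebra.commutes] 
      rw [← Algebra.commutes] at h3
      rw [h3]
      have h4 : (1 / 2 : ℝ) • n' + (1 / 2 : ℝ) • n' = n' := by
        rw [← add_smul]; norm_num
      nth_rewrite 3 [← h4]
      abel
    rw [h2] at h1
    have h5 := neg_le_iff_add_nonneg.mpr h1
    exact h5
  have hle : star x * x ≤ algebraMap ℝ C r + (algebraMap ℝ C ε + a) := by
    have h1 : star x * x = (star x * x + n') + (-n') := by abel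
    rw [h1]
    exact add_le_add hle1 hle2
  -- the cutting element
  set f : ℝ → ℝ := fun t => ε / (ε + t) with hf
  have hspec : ∀ t ∈ spectrum ℝ a, 0 ≤ t := fun t ht => spectrum_nonneg_of_nonneg ha0 ht
  have hsaa : IsSelfAdjoint a := IsSelfAdjoint.of_nonneg ha0
  have hfc : ContinuousOn f (spectrum ℝ a) := by
    apply ContinuousOn.div continuousOn_const (continuousOn_const.add continuousOn_id)
    intro t ht
    have h1 := hspec t ht
    have h2 : 0 < ε + t := by positivity
    exact h2.ne'
  set g : ℝ → ℝ := fun t => 1 / (ε + t) with hg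
  have hgc : ContinuousOn g (spectrum ℝ a) := by
    apply ContinuousOn.div continuousOn_const (continuousOn_const.add continuousOn_id)
    intro t ht
    have h1 := hspec t ht
    have h2 : 0 < ε + t := by positivity
    exact h2.ne'
  set p : C := cfc f a with hp
  have hps : IsSelfAdjoint p := cfc_predicate f a
  have hp1 : ‖p‖ ≤ 1 := by
    apply norm_cfc_le zero_le_one
    intro t ht
    have h0 := hspec t ht
    rw [hf, Real.norm_eq_abs, abs_of_nonneg (by positivity)]
    rw [div_le_one (by positivity)]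
    linarith
  have h1p : 1 - p = a * cfc g a := by
    have e1 : (1 : C) = cfc (fun _ : ℝ => (1 : ℝ)) a := (cfc_const_one ℝ a).symm
    have e2 : a * cfc g a = cfc (fun t : ℝ => t * g t) a := by
      rw [cfc_mul (fun t : ℝ => t) g a continuousOn_id hgc, cfc_id' ℝ a]
    rw [e1, hp, ← cfc_sub (fun _ : ℝ => (1 : ℝ)) f a continuousOn_const hfc, e2]
    apply cfc_congr
    intro t ht
    have h0 := hspec t ht
    have h3 : ε + t ≠ 0 := by positivity
    simp only [hf, hg]
    field_simp
    ring
  have hpap : p * (algebraMap ℝ C ε + a) * p = cfc (fun t : ℝ => ε * f t) a := by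
    have e1 : algebraMap ℝ C ε + a = cfc (fun t : ℝ => ε + t) a := by
      rw [cfc_add a (fun _ : ℝ => ε) (fun t : ℝ => t) continuousOn_const continuousOn_id,
        cfc_const ε a, cfc_id' ℝ a]
    rw [e1, hp, ← cfc_mul f (fun t : ℝ => ε + t) a hfc
      (continuousOn_const.add continuousOn_id),
      ← cfc_mul (fun t => f t * (ε + t)) f a (hfc.mul (continuousOn_const.add continuousOn_id))
      hfc]
    apply cfc_congr
    intro t ht
    have h0 := hspec t ht
    have h3 : ε + t ≠ 0 := by positivity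
    simp only [hf]
    field_simp
  have hpap' : ‖p * (algebraMap ℝ C ε + a) * p‖ ≤ ε := by
    rw [hpap]
    apply norm_cfc_le he.le
    intro t ht
    have h0 := hspec t ht
    rw [hf, Real.norm_eq_abs, abs_of_nonneg (by positivity)]
    have h4 : ε / (ε + t) ≤ 1 := by
      rw [div_le_one (by positivity)]
      linarith
    calc ε * (ε / (ε + t)) ≤ ε * 1 := mul_le_mul_of_nonneg_left h4 he.le
      _ = ε := mul_one ε
  refine ⟨-(x * (1 - p)), ?_, ?_⟩
  · apply I.neg_mem
    apply I.mul_mem_left
    rw [h1p]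
    exact I.mul_mem_right _ haI
  · have e1 : x + -(x * (1 - p)) = x * p := by
      rw [mul_sub, mul_one]; abel
    rw [e1, ← CStarRing.norm_star_mul_self]
    have e2 : star (x * p) * (x * p) = p * (star x * x) * p := by
      rw [star_mul, hps.star_eq]
      simp only [mul_assoc]
    rw [e2]
    have h1 : 0 ≤ p * (star x * x) * p := by
      have := star_mul_self_nonneg (x * p)
      rwa [e2] at this
    have h2 : p * (star x * x) * p ≤ p * (algebraMap ℝ C r + (algebraMap ℝ C ε + a)) * p := by
      exact hps.conjugate_le_conjugate hle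
    have h3 := CStarAlgebra.norm_le_norm_of_nonneg_of_le h1 h2
    refine h3.trans ?_
    rw [mul_add, add_mul]
    refine (norm_add_le _ _).trans ?_
    have h4 : ‖p * algebraMap ℝ C r * p‖ ≤ r := by
      have h5 : p * algebraMap ℝ C r * p = r • (p * p) := by
        rw [← Algebra.commutes, ← Algebra.smul_def, smul_mul_assoc]
      rw [h5, norm_smul, Real.norm_eq_abs, abs_of_nonneg (norm_nonneg _)]
      have h6 : ‖p * p‖ ≤ 1 := by
        refine (norm_mul_le _ _).trans ?_
        calc ‖p‖ * ‖p‖ ≤ 1 * 1 := mul_le_mul hp1 hp1 (norm_nonneg _) zero_le_one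
          _ = 1 := one_mul 1
      calc r * ‖p * p‖ ≤ r * 1 := mul_le_mul_of_nonneg_left h6 (norm_nonneg _)
        _ = r := mul_one r
    linarith

end Cut

section Quot

variable {C : Type u} [CStarAlgebra C] (I : Ideal C) [I.IsTwoSided]

theorem norm_mk_lt (x : C ⧸ I) {ε : ℝ} (hε : 0 < ε) :
    ∃ r : C, Ideal.Quotient.mk I r = x ∧ ‖r‖ < ‖x‖ + ε :=
  Submodule.Quotient.norm_mk_lt x hε

theorem norm_mk_le (r : C) : ‖Ideal.Quotient.mk I r‖ ≤ ‖r‖ := Submodule.Quotient.norm_mk_le I r

/-- submultiplicativity of the quotient norm -/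
theorem quot_mul_le (x y : C ⧸ I) : ‖x * y‖ ≤ ‖x‖ * ‖y‖ := by
  apply le_of_forall_pos_le_add
  intro ε hε
  set M := ‖x‖ + ‖y‖ + 1 with hM
  have hM0 : 0 < M := by positivity
  set d := min 1 (ε / M) with hd
  have hd0 : 0 < d := lt_min one_pos (by positivity)
  obtain ⟨a, ha, ha2⟩ := norm_mk_lt I x hd0
  obtain ⟨b, hb, hb2⟩ := norm_mk_lt I y hd0
  have h1 : ‖x * y‖ ≤ ‖a * b‖ := by
    rw [← ha, ← hb, ← map_mul]
    exact norm_mk_le I _
  have h2 : ‖a * b‖ ≤ (‖x‖ + d) * (‖y‖ + d) :=
    (norm_mul_le a b).trans (mul_le_mul ha2.le hb2.le (norm_nonneg _) (by positivity))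
  have h3 : d ≤ 1 := min_le_left _ _
  have h4 : d * M ≤ ε := by
    have : d ≤ ε / M := min_le_right _ _
    rwa [le_div_iff₀ hM0] at this
  have h5 : (‖x‖ + d) * (‖y‖ + d) ≤ ‖x‖ * ‖y‖ + d * M := by
    rw [hM]
    nlinarith [norm_nonneg x, norm_nonneg y]
  linarith

variable (hs : ∀ x ∈ I, star x ∈ I)

/-- the star operation on the quotient -/
def qstar (hs : ∀ x ∈ I, star x ∈ I) : C ⧸ I → C ⧸ I :=
  Quotient.map' star (by
    intro a b h
    rw [Submodule.quotientRel_def] at h ⊢
    rw [← star_sub]
    exact hs _ h)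

theorem qstar_mk (x : C) : qstar I hs (Ideal.Quotient.mk I x) = Ideal.Quotient.mk I (star x) := rfl

/-- the star ring structure -/
@[reducible] def qStarRing : StarRing (C ⧸ I) where
  star := qstar I hs
  star_involutive x := by
    obtain ⟨a, rfl⟩ := Ideal.Quotient.mk_surjective x
    rw [qstar_mk, qstar_mk, star_star]
  star_mul x y := by
    obtain ⟨a, rfl⟩ := Ideal.Quotient.mk_surjective x
    obtain ⟨b, rfl⟩ := Ideal.Quotient.mk_surjective y
    rw [qstar_mk, qstar_mk, ← map_mul, qstar_mk, star_mul, map_mul]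
  star_add x y := by
    obtain ⟨a, rfl⟩ := Ideal.Quotient.mk_surjective x
    obtain ⟨b, rfl⟩ := Ideal.Quotient.mk_surjective y
    rw [qstar_mk, qstar_mk, ← map_add, qstar_mk, star_add, map_add]

/-- the norm of the quotient is a C*-norm -/
theorem quot_cstar (x : C ⧸ I) : ‖x‖ * ‖x‖ ≤ ‖qstar I hs x * x‖ := by
  apply le_of_forall_pos_le_add
  intro ε hε
  obtain ⟨a, rfl⟩ := Ideal.Quotient.mk_surjective x
  obtain ⟨y, hy, hy2⟩ := norm_mk_lt I (qstar I hs (Ideal.Quotient.mk I a) *
    Ideal.Quotient.mk I a) (half_pos hε)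
  have hn : y - star a * a ∈ I := by
    rw [← Ideal.Quotient.mk_eq_mk_iff_sub_mem, hy, qstar_mk, map_mul]
  obtain ⟨m, hm, hm2⟩ := cut I hs a (y - star a * a) hn (half_pos hε)
  have h1 : star a * a + (y - star a * a) = y := by abel
  rw [h1] at hm2
  have h2 : Ideal.Quotient.mk I a = Ideal.Quotient.mk I (a + m) := by
    rw [map_add, Ideal.Quotient.eq_zero_iff_mem.mpr hm, add_zero]
  have h3 : ‖Ideal.Quotient.mk I a‖ ≤ ‖a + m‖ := by
    rw [h2]; exact norm_mk_le I _
  have h4 : ‖Ideal.Quotient.mk I a‖ * ‖Ideal.Quotient.mk I a‖ ≤ ‖a + m‖ * ‖a + m‖ :=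
    mul_le_mul h3 h3 (norm_nonneg _) (norm_nonneg _)
  linarith

/-- the quotient C*-algebra -/
@[reducible] def qCStar (hcl : IsClosed (I : Set C)) : CStarAlgebra (C ⧸ I) :=
  haveI := hcl
  letI nr : NormedRing (C ⧸ I) :=
    { Ideal.Quotient.ring I, Submodule.Quotient.normedAddCommGroup I with
      norm_mul_le := quot_mul_le I }
  letI na : NormedAlgebra ℂ (C ⧸ I) :=
    { Submodule.Quotient.normedSpace I ℂ, Ideal.Quotient.algebra ℂ with }
  letI sr : StarRing (C ⧸ I) := qStarRing I hs
  haveI cs : CompleteSpace (C ⧸ I) := Submodule.Quotient.completeSpace I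
  { nr, na, sr, cs with
    norm_mul_self_le := quot_cstar I hs
    star_smul := by
      intro z x
      obtain ⟨a, rfl⟩ := Ideal.Quotient.mk_surjective x
      show qstar I hs (z • Ideal.Quotient.mk I a) = star z • qstar I hs (Ideal.Quotient.mk I a)
      have e1 : z • Ideal.Quotient.mk I a = Ideal.Quotient.mk I (z • a) := rfl
      have e2 : star z • Ideal.Quotient.mk I (star a) = Ideal.Quotient.mk I (star z • star a) := rfl
      rw [e1, qstar_mk, qstar_mk, e2, star_smul] }

end Quot

section Lift

variable {C B : Type u} [CStarAlgebra C] [CStarAlgebra B]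

/-- exact lifting of norms -/
theorem lift (q : C →⋆ₐ[ℂ] B) (hq : Function.Surjective q) (hn : ∀ x, ‖q x‖ ≤ ‖x‖) (b : B) :
    ∃ x, q x = b ∧ ‖x‖ = ‖b‖ := by
  let _ := CStarAlgebra.spectralOrder C
  let _ := CStarAlgebra.spectralOrderedRing C
  let _ := CStarAlgebra.spectralOrder B
  let _ := CStarAlgebra.spectralOrderedRing B
  by_cases hb : b = 0
  · exact ⟨0, by rw [map_zero, hb], by rw [hb, norm_zero, norm_zero]⟩
  have hnt : Nontrivial B := ⟨b, 0, hb⟩
  set c := ‖b‖ with hc
  have hc0 : 0 < c := norm_pos_iff.mpr hb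
  obtain ⟨x, hx⟩ := hq b
  set a : C := star x * x with ha
  have ha0 : 0 ≤ a := star_mul_self_nonneg x
  set f : ℝ → ℝ := fun t => c / max c (Real.sqrt t) with hf
  have hmax : ∀ t : ℝ, 0 < max c (Real.sqrt t) := fun t => lt_max_of_lt_left hc0
  have hfc : Continuous f := by
    apply Continuous.div continuous_const (continuous_const.max Real.continuous_sqrt)
    intro t
    exact (hmax t).ne'
  have hspec : ∀ t ∈ spectrum ℝ a, 0 ≤ t := fun t ht => spectrum_nonneg_of_nonneg ha0 ht
  set p : C := cfc f a with hp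
  have hps : IsSelfAdjoint p := cfc_predicate f a
  have hqc : Continuous q := by
    refine AddMonoidHomClass.continuous_of_bound q 1 fun x => ?_
    rw [one_mul]
    exact hn x
  have hqa : q a = star b * b := by rw [ha, map_mul, map_star, hx]
  have hqp : q p = 1 := by
    have h1 : q p = cfc f (q a) := by
      rw [hp]
      exact StarAlgHomClass.map_cfc (S := ℂ) q f a hfc.continuousOn hqc
        (IsSelfAdjoint.of_nonneg ha0) (by rw [hqa]; exact IsSelfAdjoint.star_mul_self b)
    rw [h1, ← cfc_const_one ℝ (q a)]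
    apply cfc_congr
    intro t ht
    have h0 : IsSelfAdjoint (q a) := by rw [hqa]; exact IsSelfAdjoint.star_mul_self b
    have h2 : ‖t‖ ≤ ‖q a‖ := spectrum.norm_le_norm_of_mem ht
    rw [hqa, CStarRing.norm_star_mul_self, ← hc] at h2
    have h3 : Real.sqrt t ≤ c := by
      rw [Real.sqrt_le_left hc0.le, sq]
      exact (le_abs_self t).trans h2
    simp only [hf, max_eq_left h3]
    exact div_self hc0.ne'
  refine ⟨x * p, ?_, ?_⟩
  · rw [map_mul, hx, hqp, mul_one]
  · apply le_antisymm
    · have h1 : ‖x * p‖ * ‖x * p‖ ≤ c * c := by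
        rw [← CStarRing.norm_star_mul_self]
        have e2 : star (x * p) * (x * p) = p * a * p := by
          rw [star_mul, hps.star_eq, ha]
          simp only [mul_assoc]
        have e3 : p * a * p = cfc (fun t : ℝ => f t * t * f t) a := by
          rw [cfc_mul (fun t : ℝ => f t * t) f a (hfc.mul continuous_id).continuousOn
            hfc.continuousOn, cfc_mul f (fun t : ℝ => t) a hfc.continuousOn
            continuous_id.continuousOn, cfc_id' ℝ a]
        rw [e2, e3]
        apply norm_cfc_le (by positivity)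
        intro t ht
        have h0 := hspec t ht
        have h4 : 0 ≤ f t := div_nonneg hc0.le (hmax t).le
        rw [Real.norm_eq_abs, abs_of_nonneg (by positivity)]
        have h5 : f t * t * f t = c * c * (t / (max c (Real.sqrt t) * max c (Real.sqrt t))) := by
          simp only [hf]
          have := (hmax t).ne'
          field_simp
        rw [h5]
        have h6 : t / (max c (Real.sqrt t) * max c (Real.sqrt t)) ≤ 1 := by
          rw [div_le_one (mul_pos (hmax t) (hmax t))]
          calc t = Real.sqrt t * Real.sqrt t := (Real.mul_self_sqrt h0).symm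
            _ ≤ _ := mul_le_mul (le_max_right _ _) (le_max_right _ _) (Real.sqrt_nonneg _)
              (hmax t).le
        calc c * c * (t / (max c (Real.sqrt t) * max c (Real.sqrt t))) ≤ c * c * 1 :=
              mul_le_mul_of_nonneg_left h6 (by positivity)
          _ = c * c := mul_one _
      exact (mul_self_le_mul_self_iff (norm_nonneg _) hc0.le).mpr h1
    · have h1 := hn (x * p)
      rw [map_mul, hx, hqp, mul_one] at h1
      exact h1

end Lift

end Q1

/-- [Q1] quotients -/
theorem exists_quotient {C : Type u} [CStarAlgebra C] (N : Set C) (hcl : IsClosed N)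
    (h0 : 0 ∈ N) (hadd : ∀ x ∈ N, ∀ y ∈ N, x + y ∈ N) (hl : ∀ c, ∀ x ∈ N, c * x ∈ N)
    (hr : ∀ c, ∀ x ∈ N, x * c ∈ N) (hst : ∀ x ∈ N, star x ∈ N) :
    ∃ (B : Type u) (_ : CStarAlgebra B) (q : C →⋆ₐ[ℂ] B), Function.Surjective q ∧
      (∀ x, q x = 0 ↔ x ∈ N) ∧ ∀ b, ∃ x, q x = b ∧ ‖x‖ = ‖b‖ := by
  let I : Ideal C :=
    { carrier := N
      add_mem' := fun {x y} hx hy => hadd x hx y hy
      zero_mem' := h0
      smul_mem' := fun c x hx => hl c x hx }
  have hI : I.IsTwoSided := ⟨fun {a} b ha => hr b a ha⟩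
  have hs : ∀ x ∈ I, star x ∈ I := hst
  let iC : CStarAlgebra (C ⧸ I) := Q1.qCStar I hs hcl
  let q : C →⋆ₐ[ℂ] (C ⧸ I) :=
    { toFun := Ideal.Quotient.mk I
      map_one' := rfl
      map_mul' := fun _ _ => rfl
      map_zero' := rfl
      map_add' := fun _ _ => rfl
      commutes' := fun _ => rfl
      map_star' := fun _ => rfl }
  have hq : Function.Surjective q := Ideal.Quotient.mk_surjective
  refine ⟨C ⧸ I, iC, q, hq, ?_, ?_⟩
  · intro x
    exact Ideal.Quotient.eq_zero_iff_mem
  · intro b
    exact Q1.lift q hq (fun x => Q1.norm_mk_le I x) b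

end

end Vale.Agent.P095.NU
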