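import Vale.Agent.P095.NU.Defs
import Vale.Agent.P095.NU.QuotCStar

/-!
# P095, T7, row G4: the unitization and the quotient system
-/

open Filter Topology TopologicalSpace
open scoped BoundedContinuousFunction ComplexOrder

namespace Vale.Agent.P095.NU

open Vale.Agent.P101

universe u v w

theorem exists_unitAct {A : Type u} [NonUnitalCStarAlgebra A] {G : Type*} [Group G]
    (α : G →* (A ≃⋆ₐ[ℂ] A)) : ∃ α' : G →* (Unitization ℂ A ≃⋆ₐ[ℂ] Unitization ℂ A),
      ∀ g (a : A), α' g (a : Unitization ℂ A) = ((α g a : A) : Unitization ℂ A) := by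
  let J : G → Unitization ℂ A →⋆ₐ[ℂ] Unitization ℂ A := fun g =>
    Unitization.starMap (α g : A →⋆ₙₐ[ℂ] A)
  have hJ : ∀ g (c : ℂ) (a : A), J g (Unitization.inl c + (a : Unitization ℂ A)) =
      Unitization.inl c + ((α g a : A) : Unitization ℂ A) := fun g c a => by
    show Unitization.starMap (α g : A →⋆ₙₐ[ℂ] A) _ = _
    rw [map_add, Unitization.starMap_inl, Unitization.starMap_inr, Unitization.algebraMap_eq_inl]
    rfl
  have hind : ∀ x : Unitization ℂ A, ∃ (c : ℂ) (a : A),
      x = Unitization.inl c + (a : Unitization ℂ A) := fun x =>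
    ⟨x.fst, x.snd, (Unitization.inl_fst_add_inr_snd_eq x).symm⟩
  have hmul : ∀ g h x, J (g * h) x = J g (J h x) := by
    intro g h x
    obtain ⟨c, a, rfl⟩ := hind x
    rw [hJ, hJ, hJ, map_mul]
    rfl
  have hone : ∀ x, J 1 x = x := by
    intro x
    obtain ⟨c, a, rfl⟩ := hind x
    rw [hJ, map_one]
    rfl
  let e : G → (Unitization ℂ A ≃⋆ₐ[ℂ] Unitization ℂ A) := fun g =>
    { (J g : Unitization ℂ A →⋆ₐ[ℂ] Unitization ℂ A) with
      toFun := J g
      invFun := J g⁻¹
      left_inv := fun x => by rw [← hmul, inv_mul_cancel, hone]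
      right_inv := fun x => by rw [← hmul, mul_inv_cancel, hone]
      map_smul' := fun c x => map_smul (J g) c x }
  refine ⟨{ toFun := e
            map_one' := ?_
            map_mul' := ?_ }, fun g a => ?_⟩
  · ext1 x
    exact hone x
  · intro g h
    ext1 x
    exact hmul g h x
  · have := hJ g 0 a
    rw [Unitization.inl_zero, zero_add, zero_add] at this
    exact this

theorem isCore_range {A : Type u} [NonUnitalCStarAlgebra A] (hs : IsSimpleNU A)
    (hn : ¬ ∃ e : A, ∀ a, e * a = a) :
    IsCore (Set.range (Unitization.inr : A → Unitization ℂ A)) where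
  closed := (Unitization.isometry_inr (𝕜 := ℂ) (A := A)).isClosedEmbedding.isClosed_range
  zero := ⟨0, Unitization.inr_zero ℂ⟩
  add := by
    rintro _ ⟨x, rfl⟩ _ ⟨y, rfl⟩
    exact ⟨x + y, Unitization.inr_add ℂ x y⟩
  smul := by
    rintro c _ ⟨x, rfl⟩
    exact ⟨c • x, Unitization.inr_smul ℂ c x⟩
  star := by
    rintro _ ⟨x, rfl⟩
    exact ⟨star x, Unitization.inr_star x⟩
  left := by
    rintro m _ ⟨x, rfl⟩
    refine ⟨m.fst • x + m.snd * x, ?_⟩
    ext
    · simp
    · simp
  right := by
    rintro m _ ⟨x, rfl⟩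
    refine ⟨m.fst • x + x * m.snd, ?_⟩
    ext
    · simp
    · simp
  codim := by
    intro m
    refine ⟨m.fst, m.snd, ?_⟩
    rw [sub_eq_add_neg]
    ext
    · simp
    · simp
  one := by
    rintro ⟨x, hx⟩
    have h1 := congrArg (fun u : Unitization ℂ A => u.fst) hx
    simp at h1
  ess := by
    intro m hm
    have h1 : ∀ a : A, m.fst • a + m.snd * a = 0 := by
      intro a
      have h2 := congrArg (fun u : Unitization ℂ A => u.snd) (hm a ⟨a, rfl⟩)
      simpa using h2
    by_cases h0 : m.fst = 0
    · have h3 : m.snd = 0 := by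
        have h4 := h1 (star m.snd)
        rw [h0, zero_smul, zero_add] at h4
        exact CStarRing.mul_star_self_eq_zero_iff _ |>.1 h4
      ext
      · simpa using h0
      · simpa using h3
    · exfalso
      refine hn ⟨-(m.fst⁻¹ • m.snd), fun a => ?_⟩
      have h4 : m.snd * a = -(m.fst • a) := eq_neg_of_add_eq_zero_right (h1 a)
      rw [neg_mul, smul_mul_assoc, h4, smul_neg, neg_neg, smul_smul, inv_mul_cancel₀ h0, one_smul]
  simple := by
    rintro _ ⟨x, rfl⟩ hx0 _ ⟨y, rfl⟩ ε hε
    have hx : x ≠ 0 := fun h => hx0 (by rw [h, Unitization.inr_zero])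
    let W : Submodule ℂ A := Submodule.span ℂ {w | ∃ a b : A, w = a * x * b}
    have hWl : ∀ c, ∀ w ∈ W, c * w ∈ W := by
      intro c w hw
      induction hw using Submodule.span_induction with
      | mem w hw =>
        obtain ⟨a, b, rfl⟩ := hw
        exact Submodule.subset_span ⟨c * a, b, by simp only [mul_assoc]⟩
      | zero => rw [mul_zero]; exact W.zero_mem
      | add u v _ _ hu hv => rw [mul_add]; exact W.add_mem hu hv
      | smul r u _ hu => rw [mul_smul_comm]; exact W.smul_mem r hu
    have hWr : ∀ c, ∀ w ∈ W, w * c ∈ W := by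
      intro c w hw
      induction hw using Submodule.span_induction with
      | mem w hw =>
        obtain ⟨a, b, rfl⟩ := hw
        exact Submodule.subset_span ⟨a, b * c, by simp only [mul_assoc]⟩
      | zero => rw [zero_mul]; exact W.zero_mem
      | add u v _ _ hu hv => rw [add_mul]; exact W.add_mem hu hv
      | smul r u _ hu => rw [smul_mul_assoc]; exact W.smul_mem r hu
    have hI := hs.2 W.topologicalClosure W.isClosed_topologicalClosure (by
      intro c w hw
      have hw' : w ∈ closure (W : Set A) := hw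
      constructor
      · exact map_mem_closure (f := fun u => c * u) (continuous_const_mul c) hw'
          (fun u hu => hWl c u hu)
      · exact map_mem_closure (f := fun u => u * c) (continuous_mul_const c) hw'
          (fun u hu => hWr c u hu))
    rcases hI with hI | hI
    · exfalso
      have h1 : star x * x * star x ∈ W.topologicalClosure :=
        W.le_topologicalClosure (Submodule.subset_span ⟨star x, star x, rfl⟩)
      rw [hI, Submodule.mem_bot] at h1
      have h2 : star (star x * x) * (star x * x) = 0 := by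
        rw [star_mul, star_star, ← mul_assoc, h1, zero_mul]
      have h3 := CStarRing.star_mul_self_eq_zero_iff _ |>.1 h2
      exact hx (CStarRing.star_mul_self_eq_zero_iff _ |>.1 h3)
    · have hy : y ∈ closure (W : Set A) := by
        have : y ∈ W.topologicalClosure := by rw [hI]; trivial
        exact this
      obtain ⟨w, hw, hyw⟩ := Metric.mem_closure_iff.1 hy ε hε
      have key : ∀ w ∈ W, ∃ (n : ℕ) (u v : Fin n → A), w = ∑ i, u i * x * v i := by
        intro w hw
        induction hw using Submodule.span_induction with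
        | mem w hw =>
          obtain ⟨a, b, rfl⟩ := hw
          exact ⟨1, fun _ => a, fun _ => b, by simp⟩
        | zero => exact ⟨0, Fin.elim0, Fin.elim0, by simp⟩
        | add p r _ _ hp hr =>
          obtain ⟨n, u, v, rfl⟩ := hp
          obtain ⟨m, u', v', rfl⟩ := hr
          refine ⟨n + m, Fin.append u u', Fin.append v v', ?_⟩
          rw [Fin.sum_univ_add]
          simp
        | smul r p _ hp =>
          obtain ⟨n, u, v, rfl⟩ := hp
          refine ⟨n, fun i => r • u i, v, ?_⟩
          rw [Finset.smul_sum]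
          simp only [smul_mul_assoc]
      obtain ⟨n, a, b, hab⟩ := key w hw
      refine ⟨n, fun i => (a i : Unitization ℂ A), fun i => (b i : Unitization ℂ A), ?_⟩
      have h5 : (y : Unitization ℂ A) - ∑ i, (a i : Unitization ℂ A) * (x : Unitization ℂ A) *
          (b i : Unitization ℂ A) = ((y - w : A) : Unitization ℂ A) := by
        rw [hab, Unitization.inr_sub]
        congr 1
        have : ((∑ i, a i * x * b i : A) : Unitization ℂ A) =
            ∑ i, ((a i * x * b i : A) : Unitization ℂ A) :=
          map_sum (Unitization.inrHom ℂ ℂ A) _ _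
        rw [this]
        exact Finset.sum_congr rfl fun i _ => by rw [Unitization.inr_mul, Unitization.inr_mul]
      rw [h5, Unitization.norm_inr]
      rwa [dist_eq_norm] at hyw

/-- An action with invariant kernel descends along a surjection. -/
theorem exists_quotAct {G : Type*} [Group G] {C : Type u} [CStarAlgebra C] {B : Type u}
    [CStarAlgebra B] (q : C →⋆ₐ[ℂ] B) (hq : Function.Surjective q) (γ : G →* (C ≃⋆ₐ[ℂ] C))
    (hk : ∀ g x, q x = 0 → q (γ g x) = 0) :
    ∃ β : G →* (B ≃⋆ₐ[ℂ] B), ∀ g x, β g (q x) = q (γ g x) := by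
  let s : B → C := Function.surjInv hq
  have hs : ∀ b, q (s b) = b := Function.surjInv_eq hq
  have h1 : ∀ g x y, q x = q y → q (γ g x) = q (γ g y) := by
    intro g x y h
    have h2 := hk g (x - y) (by rw [map_sub, h, sub_self])
    rw [map_sub, map_sub, sub_eq_zero] at h2
    exact h2
  let f : G → B → B := fun g b => q (γ g (s b))
  have hf : ∀ g x, f g (q x) = q (γ g x) := fun g x => h1 g _ _ (hs (q x))
  have hfmul : ∀ g h b, f (g * h) b = f g (f h b) := by
    intro g h b
    obtain ⟨x, rfl⟩ := hq b
    rw [hf (g * h) x, hf h x, hf g (γ h x), map_mul]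
    rfl
  have hfone : ∀ b, f 1 b = b := by
    intro b
    obtain ⟨x, rfl⟩ := hq b
    rw [hf 1 x, map_one]
    rfl
  let e : G → (B ≃⋆ₐ[ℂ] B) := fun g =>
    { toFun := f g
      invFun := f g⁻¹
      left_inv := fun b => by rw [← hfmul, inv_mul_cancel, hfone]
      right_inv := fun b => by rw [← hfmul, mul_inv_cancel, hfone]
      map_mul' := fun a b => by
        obtain ⟨x, rfl⟩ := hq a
        obtain ⟨y, rfl⟩ := hq b
        rw [← map_mul, hf g (x * y), hf g x, hf g y, map_mul, map_mul]
      map_add' := fun a b => by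
        obtain ⟨x, rfl⟩ := hq a
        obtain ⟨y, rfl⟩ := hq b
        rw [← map_add, hf g (x + y), hf g x, hf g y, map_add, map_add]
      map_smul' := fun c a => by
        obtain ⟨x, rfl⟩ := hq a
        rw [← map_smul, hf g (c • x), hf g x, map_smul, map_smul]
      map_star' := fun a => by
        obtain ⟨x, rfl⟩ := hq a
        rw [← map_star, hf g (star x), hf g x, map_star, map_star] }
  refine ⟨{ toFun := e
            map_one' := ?_
            map_mul' := ?_ }, fun g x => hf g x⟩
  · ext1 x
    exact hfone x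
  · intro g h
    ext1 x
    exact hfmul g h x

theorem exists_relSys {G : Type*} [Group G] (ω : Ultrafilter ℕ) {M : Type u} [CStarAlgebra M]
    {A : Set M} (hA : IsCore A) (α : G →* (M ≃⋆ₐ[ℂ] M)) (hα : ∀ g, ∀ a ∈ A, α g a ∈ A) :
    ∃ (B : Type u) (_ : CStarAlgebra B) (q : centralSeq ω M →⋆ₐ[ℂ] B)
      (β : G →* (B ≃⋆ₐ[ℂ] B)), RelSys ω A α q β := by
  let N : Set (centralSeq ω M) := {x | ∀ a ∈ A, (x : Ultra ω M) * Ultra.diag ω a = 0}
  have hcomm : ∀ (x : centralSeq ω M) (a : M),
      (x : Ultra ω M) * Ultra.diag ω a = Ultra.diag ω a * (x : Ultra ω M) := fun x a =>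
    ((mem_centralSeq_iff.1 x.2 a).eq).symm
  have hcl : IsClosed N := by
    have h1 : N = ⋂ a ∈ A, {x : centralSeq ω M | (x : Ultra ω M) * Ultra.diag ω a = 0} := by
      ext x
      simp [N]
    rw [h1]
    exact isClosed_biInter fun a _ =>
      isClosed_eq (continuous_subtype_val.mul continuous_const) continuous_const
  obtain ⟨B, iB, q, hq, hker, hlift⟩ := exists_quotient (C := centralSeq ω M) N hcl
    (fun a _ => by show ((0 : centralSeq ω M) : Ultra ω M) * _ = 0; simp)
    (fun x hx y hy a ha => by
      show ((x : Ultra ω M) + (y : Ultra ω M)) * Ultra.diag ω a = 0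
      rw [add_mul, hx a ha, hy a ha, add_zero])
    (fun c x hx a ha => by
      show ((c : Ultra ω M) * (x : Ultra ω M)) * Ultra.diag ω a = 0
      rw [mul_assoc, hx a ha, mul_zero])
    (fun c x hx a ha => by
      show ((x : Ultra ω M) * (c : Ultra ω M)) * Ultra.diag ω a = 0
      rw [mul_assoc, hcomm c a, ← mul_assoc, hx a ha, zero_mul])
    (fun x hx a ha => by
      show star (x : Ultra ω M) * Ultra.diag ω a = 0
      have h1 := hx (star a) (hA.star a ha)
      rw [hcomm] at h1
      have h2 := congrArg star h1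
      rw [star_mul, star_zero, ← map_star, star_star] at h2
      exact h2)
  obtain ⟨β, hβ⟩ := exists_quotAct q hq (centralAct ω α) (by
    intro g x hx
    rw [hker] at hx ⊢
    intro a ha
    have h1 := hx (α g⁻¹ a) (hα g⁻¹ a ha)
    have h2 := congrArg (ultraAct ω α g) h1
    rw [map_mul, map_zero, ultraAct_diag] at h2
    have h3 : α g (α g⁻¹ a) = a := by
      rw [← StarAlgEquiv.mul_apply, ← map_mul, mul_inv_cancel, map_one]
      rfl
    rw [h3] at h2
    exact h2)
  exact ⟨B, iB, q, β, hA, hα, fun x => hker x, hβ, hlift⟩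

end Vale.Agent.P095.NU
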