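import Vale.Agent.P095.NU.UnitalCase1
import Vale.Agent.P095.NU.Sys
import Vale.Agent.P095.ResultD

/-!
# P095, target T7, row G38: the case of an algebra with unit
-/

open Filter Topology TopologicalSpace
open scoped BoundedContinuousFunction ComplexOrder TensorProduct

namespace Vale.Agent.P095.NU

open Vale.Agent.P101

universe u v w x

namespace UCopy

/-- the conjugated action -/
def conjAct {A B : Type*} [Add A] [Mul A] [SMul ℂ A] [Star A] [Add B] [Mul B] [SMul ℂ B] [Star B]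
    {G : Type*} [Group G] (φ : A ≃⋆ₐ[ℂ] B) (α : G →* (A ≃⋆ₐ[ℂ] A)) : G →* (B ≃⋆ₐ[ℂ] B) where
  toFun g := (φ.symm.trans (α g)).trans φ
  map_one' := by
    ext x
    show φ (α 1 (φ.symm x)) = x
    rw [map_one]
    exact φ.apply_symm_apply x
  map_mul' g h := by
    ext x
    show φ (α (g * h) (φ.symm x)) = φ (α g (φ.symm (φ (α h (φ.symm x)))))
    rw [map_mul, φ.symm_apply_apply]
    rfl

theorem conjAct_apply {A B : Type*} [Add A] [Mul A] [SMul ℂ A] [Star A] [Add B] [Mul B] [SMul ℂ B]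
    [Star B] {G : Type*} [Group G] (φ : A ≃⋆ₐ[ℂ] B) (α : G →* (A ≃⋆ₐ[ℂ] A)) (g : G) (x : B) :
    conjAct φ α g x = φ (α g (φ.symm x)) := rfl

section Lift

variable {T : Type w} [NonUnitalCStarAlgebra T] {U : Type w} [CStarAlgebra U] (ψ : T ≃⋆ₐ[ℂ] U)

/-- unitaries of the copy as unitaries of the unitization -/
noncomputable def lft (c : U) : Unitization ℂ T :=
  ((ψ.symm c : T) : Unitization ℂ T) + (1 - ((ψ.symm 1 : T) : Unitization ℂ T))

theorem inr_mul_compl (x : T) :
    (x : Unitization ℂ T) * (1 - ((ψ.symm 1 : T) : Unitization ℂ T)) = 0 := by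
  rw [mul_sub, mul_one, ← Unitization.inr_mul, right_unit (symm_one_mul ψ), sub_self]

theorem compl_mul_inr (x : T) :
    (1 - ((ψ.symm 1 : T) : Unitization ℂ T)) * (x : Unitization ℂ T) = 0 := by
  rw [sub_mul, one_mul, ← Unitization.inr_mul, symm_one_mul ψ, sub_self]

theorem compl_mul_compl :
    (1 - ((ψ.symm 1 : T) : Unitization ℂ T)) * (1 - ((ψ.symm 1 : T) : Unitization ℂ T)) =
      1 - ((ψ.symm 1 : T) : Unitization ℂ T) := by
  rw [mul_sub, mul_one, compl_mul_inr, sub_zero]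

theorem lft_mul (c d : U) : lft ψ (c * d) = lft ψ c * lft ψ d := by
  unfold lft
  rw [add_mul, mul_add, mul_add, inr_mul_compl, compl_mul_inr, compl_mul_compl, map_mul,
    Unitization.inr_mul, add_zero, zero_add]

theorem lft_one : lft ψ 1 = 1 := by
  unfold lft
  rw [add_sub_cancel]

theorem lft_star (c : U) : lft ψ (star c) = star (lft ψ c) := by
  unfold lft
  rw [star_add, star_sub, star_one, ← Unitization.inr_star, ← Unitization.inr_star,
    ← map_star ψ.symm, ← map_star ψ.symm, star_one]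

theorem lft_mul_inr (c : U) (x : T) :
    lft ψ c * (x : Unitization ℂ T) = ((ψ.symm c * x : T) : Unitization ℂ T) := by
  unfold lft
  rw [add_mul, compl_mul_inr, add_zero, Unitization.inr_mul]

theorem inr_mul_lft (c : U) (x : T) :
    (x : Unitization ℂ T) * lft ψ c = ((x * ψ.symm c : T) : Unitization ℂ T) := by
  unfold lft
  rw [mul_add, inr_mul_compl, add_zero, Unitization.inr_mul]

theorem lft_mem_unitary {c : U} (hc : c ∈ unitary U) : lft ψ c ∈ unitary (Unitization ℂ T) := by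
  rw [Unitary.mem_iff] at hc ⊢
  rw [← lft_star, ← lft_mul, ← lft_mul, hc.1, hc.2, lft_one]
  exact ⟨rfl, rfl⟩

end Lift

end UCopy

open UCopy

theorem unital_case {Z : Type v} [CStarAlgebra Z] (hZ : IsJiangSuAlgebra.{v, u} Z)
    (hZ' : StronglySelfAbsorbing Z) {A : Type u} [NonUnitalCStarAlgebra A] [SeparableSpace A]
    (hs : IsSimpleNU A) (he : ∃ e : A, ∀ a, e * a = a) {d : ℕ} (hd : HasNuclearDimNU A d)
    (hA : ZStableNU Z A) {G : Type w} [Group G] [Countable G] (hG : ReiterAmenable G)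
    (α : G →* (A ≃⋆ₐ[ℂ] A)) : EquivariantlyZStableNU Z α := by
  obtain ⟨e, he⟩ := he
  obtain ⟨B, _, ⟨φ⟩⟩ := exists_copy he
  have := separable φ
  have := UCopy.isSimpleRing φ hs
  have hB := nuclearDim_equivariantlyZStable hZ hZ' (UCopy.hasNuclearDim φ hd)
    (UCopy.zStable φ hA) hG (conjAct φ α)
  intro T _ t ht
  obtain ⟨U, _, ⟨ψ⟩⟩ := exists_copy (tensor_unit ht (symm_one_mul φ))
  obtain ⟨β, ⟨hβ1, hβ2⟩, Φ, c, hc1, hc2, hc3⟩ :=
    hB U (iotaB φ ψ ht) (iotaZ φ ψ ht) (UCopy.isTensor φ ψ ht)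
  refine ⟨conjAct ψ.symm β, fun g a z => ?_, ?_⟩
  · show ψ.symm (β g (ψ (t a z))) = t (α g a) z
    have h1 : ψ (t a z) = iotaB φ ψ ht (φ a) * iotaZ φ ψ ht z := by
      rw [iotaB_mul_iotaZ, φ.symm_apply_apply]
    rw [h1, map_mul, hβ1, hβ2, iotaB_mul_iotaZ, ψ.symm_apply_apply, conjAct_apply,
      φ.symm_apply_apply, φ.symm_apply_apply]
  · obtain ⟨β', hβ'⟩ := exists_unitAct (conjAct ψ.symm β)
    have hconj : ∀ g (d : U), conjAct ψ.symm β g (ψ.symm d) = ψ.symm (β g d) := by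
      intro g d
      show ψ.symm (β g (ψ (ψ.symm d))) = _
      rw [ψ.apply_symm_apply]
    have hlft : ∀ g (d : U), β' g (lft ψ d) = lft ψ (β g d) := by
      intro g d
      unfold lft
      rw [map_add, map_sub, map_one, hβ', hβ', hconj, hconj, map_one]
    refine ⟨(φ.trans Φ).trans ψ.symm, β', fun g => lft ψ (c g), hβ',
      fun g => lft_mem_unitary ψ (hc1 g), fun g h => ?_, fun g a => ?_⟩
    · show lft ψ (c (g * h)) = lft ψ (c g) * β' g (lft ψ (c h))
      rw [hlft, ← lft_mul, hc2]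
    · show ((ψ.symm (Φ (φ (α g a))) : T) : Unitization ℂ T) =
        lft ψ (c g) * ((conjAct ψ.symm β g (ψ.symm (Φ (φ a))) : T) : Unitization ℂ T) *
          star (lft ψ (c g))
      rw [hconj, ← lft_star, lft_mul_inr, inr_mul_lft, ← map_mul, ← map_mul, ← hc3,
        conjAct_apply, φ.symm_apply_apply]

end Vale.Agent.P095.NU
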