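import Vale.Agent.P095.NU.ResultE
import Vale.Agent.P095.NU.ExpFlip
import Vale.Agent.P095.NU.NucUnit
import Vale.Agent.P095.NU.UnitalCase

/-!
# P095: Conjecture A for algebras with or without unit
-/

open Filter Topology TopologicalSpace
open scoped BoundedContinuousFunction ComplexOrder

namespace Vale.Agent.P095.NU

open Vale.Agent.P101

universe u v w

/-- Every action of a countable amenable group on a simple separable `Z`-stable algebra of finite
nuclear dimension, with or without unit, is equivariantly `Z`-stable. -/
theorem conjectureA {Z : Type u} [CStarAlgebra Z] (hZ : IsJiangSuAlgebra.{u, u} Z)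
    (hZ' : StronglySelfAbsorbing Z) (hconn : PathConnectedSpace (unitary Z))
    {A : Type u} [NonUnitalCStarAlgebra A] [SeparableSpace A] (hs : IsSimpleNU A) {d : ℕ}
    (hd : HasNuclearDimNU A d) (hA : ZStableNU Z A)
    {G : Type w} [Group G] [Countable G] (hG : ReiterAmenable G) (α : G →* (A ≃⋆ₐ[ℂ] A)) :
    EquivariantlyZStableNU Z α := by
  by_cases he : ∃ e : A, ∀ a, e * a = a
  · exact unital_case hZ hZ' hs he hd hA hG α
  · exact nonunital_equivariantlyZStable hZ hZ' (hasExpHalfFlip_of_connected hZ hZ' hconn) hs he
      (hasNuclearDim_unitization hd) hA hG α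

end Vale.Agent.P095.NU
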