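import Vale.Agent.P095.NU.FDefs
import Vale.Agent.P095.NU.ResultF

/-!
# P095: the final statement of Conjecture A, in elementary terms
-/

open Filter Topology TopologicalSpace
open scoped BoundedContinuousFunction ComplexOrder TensorProduct

namespace Vale.Agent.P095.NU

open Vale.Agent.P101

universe u v w

theorem isSimpleNU_of {A : Type u} [NonUnitalCStarAlgebra A] (h : SimpleCStar A) :
    IsSimpleNU A := by
  refine ⟨h.1, fun I hI hm => ?_⟩
  rcases h.2 (I : Set A) hI I.zero_mem (fun x hx y hy => I.add_mem hx hy)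
    (fun x hx a => hm a x hx) with h1 | h1
  · exact Or.inl ((Submodule.eq_bot_iff I).2 h1)
  · exact Or.inr ((Submodule.eq_top_iff').2 h1)

theorem exists_bilinear {A : Type u} {Z : Type v} {T : Type w} [NonUnitalCStarAlgebra A]
    [CStarAlgebra Z] [NonUnitalCStarAlgebra T] {t : A → Z → T} (ht : IsTensorE t) :
    ∃ t' : A →ₗ[ℂ] Z →ₗ[ℂ] T, (∀ a z, t' a z = t a z) ∧ IsTensorNU t' := by
  classical
  let t' : A →ₗ[ℂ] Z →ₗ[ℂ] T := LinearMap.mk₂ ℂ t ht.add_left ht.smul_left ht.add_right
    ht.smul_right
  have ht' : ∀ a z, t' a z = t a z := fun a z => rfl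
  have hsum : ∀ (n : ℕ) (a : Fin n → A) (z : Fin n → Z),
      TensorProduct.lift t' (∑ i, a i ⊗ₜ[ℂ] z i) = ∑ i, t (a i) (z i) := by
    intro n a z
    rw [map_sum]
    exact Finset.sum_congr rfl fun i _ => TensorProduct.lift.tmul _ _
  refine ⟨t', ht', ⟨ht.mul, ht.star, ?_, ?_⟩⟩
  · rw [injective_iff_map_eq_zero]
    intro x hx
    -- write `x` with linearly independent second factors
    let b := Module.Basis.ofVectorSpace ℂ Z
    obtain ⟨f, rfl⟩ := TensorProduct.eq_repr_basis_right b x
    let e := f.support.equivFin.symm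
    have h1 : (f.sum fun i m => m ⊗ₜ[ℂ] b i) =
        ∑ i, f (e i : _) ⊗ₜ[ℂ] b (e i : _) := by
      rw [Finsupp.sum, ← Finset.sum_coe_sort f.support (fun i => f i ⊗ₜ[ℂ] b i)]
      exact (Equiv.sum_comp e fun i : f.support => f (i : _) ⊗ₜ[ℂ] b (i : _)).symm
    rw [h1, hsum] at hx
    have h2 := ht.injective _ (fun i => f (e i : _)) (fun i => b (e i : _)) (by
      have h3 := b.linearIndependent.comp (fun i => (e i : _))
        (Subtype.val_injective.comp e.injective)
      exact fun c hc => Fintype.linearIndependent_iff.1 h3 c hc) hx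
    rw [h1]
    refine Finset.sum_eq_zero fun i _ => ?_
    rw [h2 i, TensorProduct.zero_tmul]
  · rw [Metric.denseRange_iff]
    intro x r hr
    obtain ⟨n, a, z, h⟩ := ht.dense x r hr
    refine ⟨∑ i, a i ⊗ₜ[ℂ] z i, ?_⟩
    rw [hsum, dist_comm, dist_eq_norm]
    exact h

theorem zStableNU_of {Z : Type v} [CStarAlgebra Z] {A : Type u} [NonUnitalCStarAlgebra A]
    (h : ZStableE Z A) : ZStableNU Z A := by
  obtain ⟨T, _, t, ht, hn⟩ := h
  obtain ⟨t', -, ht'⟩ := exists_bilinear ht
  exact ⟨T, _, t', ht', hn⟩

theorem cocycleConjugateE_of {G : Type*} [Group G] {A : Type u} {T : Type w}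
    [NonUnitalCStarAlgebra A] [NonUnitalCStarAlgebra T] {α : G →* (A ≃⋆ₐ[ℂ] A)}
    {β : G →* (T ≃⋆ₐ[ℂ] T)} (h : CocycleConjugateNU α β) : CocycleConjugateE α β := by
  obtain ⟨Φ, β', u, h1, h2, h3, h4⟩ := h
  -- scalar parts
  have hfst : ∀ x y : Unitization ℂ T, (x * y).fst = x.fst * y.fst := fun x y => rfl
  have hstar : ∀ x : Unitization ℂ T, (star x).fst = star x.fst := fun x => rfl
  have hβ : ∀ g (x : Unitization ℂ T), (β' g x).fst = x.fst := by
    intro g x
    have h0 : (Unitization.inl x.fst : Unitization ℂ T) = algebraMap ℂ _ x.fst := rfl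
    conv_lhs => rw [← Unitization.inl_fst_add_inr_snd_eq x]
    rw [map_add, h1, h0, AlgHomClass.commutes (β' g) x.fst]
    show x.fst + 0 = x.fst
    rw [add_zero]
  have hu : ∀ g, star (u g).fst * (u g).fst = 1 := by
    intro g
    have := congrArg (fun w : Unitization ℂ T => w.fst) (Unitary.star_mul_self_of_mem (h2 g))
    simpa using this
  let v : G → Unitization ℂ T := fun g => algebraMap ℂ _ (star (u g).fst) * u g
  have hv0 : ∀ g, v g = 1 + (((v g).snd : T) : Unitization ℂ T) := by
    intro g
    have e1 : (v g).fst = 1 := by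
      show star (u g).fst * (u g).fst = 1
      exact hu g
    conv_lhs => rw [← Unitization.inl_fst_add_inr_snd_eq (v g)]
    rw [e1]
    rfl
  have hc : ∀ (z : ℂ) (x : Unitization ℂ T), algebraMap ℂ (Unitization ℂ T) z * x =
      x * algebraMap ℂ _ z := fun z x => Algebra.commutes z x
  have hs : ∀ z : ℂ, star (algebraMap ℂ (Unitization ℂ T) z) = algebraMap ℂ _ (star z) :=
    fun z => (algebraMap_star_comm z).symm
  have hzz : ∀ g, algebraMap ℂ (Unitization ℂ T) (u g).fst * algebraMap ℂ _ (star (u g).fst) =
      1 := by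
    intro g
    rw [← map_mul, mul_comm, hu, map_one]
  have hv1 : ∀ g, star (v g) * v g = 1 := by
    intro g
    show star (algebraMap ℂ _ (star (u g).fst) * u g) * (algebraMap ℂ _ (star (u g).fst) * u g) = 1
    rw [star_mul, hs, star_star]
    calc star (u g) * algebraMap ℂ _ (u g).fst * (algebraMap ℂ _ (star (u g).fst) * u g)
        = star (u g) * (algebraMap ℂ _ (u g).fst * algebraMap ℂ _ (star (u g).fst)) * u g := by
          simp only [mul_assoc]
      _ = 1 := by rw [hzz, mul_one, Unitary.star_mul_self_of_mem (h2 g)]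
  have hv2 : ∀ g, v g * star (v g) = 1 := by
    intro g
    show (algebraMap ℂ _ (star (u g).fst) * u g) * star (algebraMap ℂ _ (star (u g).fst) * u g) = 1
    rw [star_mul, hs, star_star, hc]
    calc u g * algebraMap ℂ _ (star (u g).fst) * (star (u g) * algebraMap ℂ _ (u g).fst)
        = u g * star (u g) * (algebraMap ℂ _ (u g).fst * algebraMap ℂ _ (star (u g).fst)) := by
          rw [mul_assoc, ← mul_assoc (algebraMap ℂ _ (star (u g).fst)) (star (u g)), hc,
            mul_assoc (star (u g)), ← hc, ← mul_assoc]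
      _ = 1 := by rw [hzz, mul_one, Unitary.mul_star_self_of_mem (h2 g)]
  have hv3 : ∀ g k, v (g * k) = v g * β' g (v k) := by
    intro g k
    show algebraMap ℂ _ (star (u (g * k)).fst) * u (g * k) =
      algebraMap ℂ _ (star (u g).fst) * u g * β' g (algebraMap ℂ _ (star (u k).fst) * u k)
    rw [h3, map_mul, AlgHomClass.commutes (β' g), hfst, hβ, star_mul, map_mul]
    calc algebraMap ℂ _ (star (u k).fst) * algebraMap ℂ _ (star (u g).fst) * (u g * β' g (u k))
        = algebraMap ℂ _ (star (u g).fst) * (algebraMap ℂ _ (star (u k).fst) * u g) *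
          β' g (u k) := by rw [hc]; simp only [mul_assoc]
      _ = _ := by rw [hc (star (u k).fst) (u g)]; simp only [mul_assoc]
  have hv4 : ∀ g a, ((Φ (α g a) : T) : Unitization ℂ T) =
      v g * ((β g (Φ a) : T) : Unitization ℂ T) * star (v g) := by
    intro g a
    rw [h4]
    show _ = (algebraMap ℂ _ (star (u g).fst) * u g) * _ *
      star (algebraMap ℂ _ (star (u g).fst) * u g)
    rw [star_mul, hs, star_star]
    generalize ((β g (Φ a) : T) : Unitization ℂ T) = y
    calc u g * y * star (u g) = u g * y * star (u g) *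
          (algebraMap ℂ _ (u g).fst * algebraMap ℂ _ (star (u g).fst)) := by rw [hzz, mul_one]
      _ = algebraMap ℂ _ (star (u g).fst) * (u g * y * star (u g) * algebraMap ℂ _ (u g).fst) := by
          rw [← mul_assoc, ← hc]
      _ = _ := by simp only [mul_assoc]
  have hin : Function.Injective (Unitization.inr : T → Unitization ℂ T) :=
    Unitization.inr_injective
  clear_value v
  refine ⟨Φ, fun g => (v g).snd, fun g => ?_, fun g => ?_, fun g k => ?_, fun g a => ?_⟩
  · apply hin
    have := hv1 g
    rw [hv0 g, star_add, star_one] at this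
    have e : (1 + star (((v g).snd : T) : Unitization ℂ T)) * (1 + ((v g).snd : T)) =
        1 + ((((v g).snd : T) : Unitization ℂ T) + star (((v g).snd : T) : Unitization ℂ T) +
          star (((v g).snd : T) : Unitization ℂ T) * ((v g).snd : T)) := by noncomm_ring
    rw [e, add_eq_left] at this
    simpa using this
  · apply hin
    have := hv2 g
    rw [hv0 g, star_add, star_one] at this
    have e : (1 + (((v g).snd : T) : Unitization ℂ T)) *
        (1 + star (((v g).snd : T) : Unitization ℂ T)) =
        1 + ((((v g).snd : T) : Unitization ℂ T) + star (((v g).snd : T) : Unitization ℂ T) +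
          (((v g).snd : T) : Unitization ℂ T) * star (((v g).snd : T) : Unitization ℂ T)) := by
      noncomm_ring
    rw [e, add_eq_left] at this
    simpa using this
  · apply hin
    have := hv3 g k
    rw [hv0 (g * k), hv0 g, hv0 k, map_add, map_one, h1] at this
    have e : (1 + (((v g).snd : T) : Unitization ℂ T)) *
        (1 + ((β g (v k).snd : T) : Unitization ℂ T)) =
        1 + ((((v g).snd : T) : Unitization ℂ T) + ((β g (v k).snd : T) : Unitization ℂ T) +
          (((v g).snd : T) : Unitization ℂ T) * ((β g (v k).snd : T) : Unitization ℂ T)) := by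
      noncomm_ring
    rw [e, add_right_inj] at this
    simpa using this
  · apply hin
    have := hv4 g a
    rw [hv0 g, star_add, star_one] at this
    have e : (1 + (((v g).snd : T) : Unitization ℂ T)) * ((β g (Φ a) : T) : Unitization ℂ T) *
        (1 + star (((v g).snd : T) : Unitization ℂ T)) =
        ((β g (Φ a) : T) : Unitization ℂ T) +
          (((v g).snd : T) : Unitization ℂ T) * ((β g (Φ a) : T) : Unitization ℂ T) +
          ((β g (Φ a) : T) : Unitization ℂ T) * star (((v g).snd : T) : Unitization ℂ T) +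
          (((v g).snd : T) : Unitization ℂ T) * ((β g (Φ a) : T) : Unitization ℂ T) *
            star (((v g).snd : T) : Unitization ℂ T) := by noncomm_ring
    rw [e] at this
    simpa using this

theorem equivariantlyZStableE_of {Z : Type v} [CStarAlgebra Z] {G : Type*} [Group G]
    {A : Type u} [NonUnitalCStarAlgebra A] {α : G →* (A ≃⋆ₐ[ℂ] A)}
    (h : EquivariantlyZStableNU Z α) : EquivariantlyZStableE Z α := by
  intro T _ t ht
  obtain ⟨t', h1, ht'⟩ := exists_bilinear ht
  obtain ⟨β, h2, h3⟩ := h T t' ht'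
  exact ⟨β, fun g a z => by rw [← h1, h2, h1], cocycleConjugateE_of h3⟩

/-- Conjecture A: every action of a countable amenable group on a simple separable `Z`-stable
algebra of finite nuclear dimension, with or without unit, is equivariantly `Z`-stable. -/
theorem conjectureA_final {Z : Type u} [CStarAlgebra Z] (hZ : IsJiangSuAlgebra.{u, u} Z)
    (hZ' : StronglySelfAbsorbing Z) (hconn : PathConnectedSpace (unitary Z))
    {A : Type u} [NonUnitalCStarAlgebra A] [SeparableSpace A] (hs : SimpleCStar A) {d : ℕ}
    (hd : NuclearDimLE A d) (hA : ZStableE Z A)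
    {G : Type w} [Group G] [Countable G] (hG : ReiterAmenable G) (α : G →* (A ≃⋆ₐ[ℂ] A)) :
    EquivariantlyZStableE Z α :=
  equivariantlyZStableE_of
    (conjectureA hZ hZ' hconn (isSimpleNU_of hs) hd (zStableNU_of hA) hG α)

end Vale.Agent.P095.NU
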