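import Vale.Agent.P095.NU.Defs

/-!
# P095, target T7: chains
-/

open Filter Topology TopologicalSpace
open scoped BoundedContinuousFunction ComplexOrder

namespace Vale.Agent.P095.NU.C47

open Vale.Agent.P101

universe u v w

section Chain

variable {M : Type u} [CStarAlgebra M] {A : Set M} {k : ℕ → M}

theorem saOfPos {x : M} (hx : IsPos x) : IsSelfAdjoint x := by
  obtain ⟨y, rfl⟩ := hx
  exact IsSelfAdjoint.star_mul_self y

theorem sa (hk : IsCh A k) (i : ℕ) : IsSelfAdjoint (k i) := saOfPos (hk.pos i)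

theorem unit' (hk : IsCh A k) (i : ℕ) : k (i + 1) * k i = k (i + 1) := by
  have h := congrArg star (hk.unit i)
  rwa [star_mul, (sa hk i).star_eq, (sa hk (i + 1)).star_eq] at h

theorem unit_lt (hk : IsCh A k) {i j : ℕ} (h : i < j) : k i * k j = k j := by
  obtain ⟨d, rfl⟩ := Nat.exists_eq_add_of_lt h
  clear h
  induction d with
  | zero => exact hk.unit i
  | succ d ih =>
    calc k i * k (i + (d + 1) + 1) = k i * (k (i + d + 1) * k (i + (d + 1) + 1)) := by
          rw [show i + (d + 1) + 1 = i + d + 1 + 1 by omega, hk.unit]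
      _ = k (i + (d + 1) + 1) := by
          rw [← mul_assoc, ih, show i + (d + 1) + 1 = i + d + 1 + 1 by omega, hk.unit]

theorem mem_LU (hk : IsCh A k) {i j : ℕ} (h : i < j) : k j ∈ LU (k i) := by
  have h1 := unit_lt hk h
  refine ⟨h1, ?_⟩
  have h2 := congrArg star h1
  rwa [star_mul, (sa hk i).star_eq, (sa hk j).star_eq] at h2

end Chain

end Vale.Agent.P095.NU.C47
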