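import Vale.Agent.P095.NU.Defs
import Vale.Agent.P095.Act

/-!
# P095, target T7, row G2: a countable invariant family of chains
-/

open Filter Topology TopologicalSpace
open scoped BoundedContinuousFunction ComplexOrder

namespace Vale.Agent.P095.NU

open Vale.Agent.P101

universe u v w

namespace Chains

/-- the levels -/
noncomputable def lev (c : ℝ) (i : ℕ) : ℝ := c * ((i + 1) / (i + 2))

theorem lev_pos {c : ℝ} (hc : 0 < c) (i : ℕ) : 0 < lev c i := by
  unfold lev; positivity

theorem lev_lt {c : ℝ} (hc : 0 < c) (i : ℕ) : lev c i < lev c (i + 1) := by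
  unfold lev
  refine mul_lt_mul_of_pos_left ?_ hc
  rw [div_lt_div_iff₀ (by positivity) (by positivity)]
  push_cast
  nlinarith

theorem lev_lt_c {c : ℝ} (hc : 0 < c) (i : ℕ) : lev c i < c := by
  unfold lev
  have h : ((i : ℝ) + 1) / (i + 2) < 1 := by
    rw [div_lt_one (by positivity)]; linarith
  nlinarith

/-- the ramp from `lev c i` to `lev c (i + 1)` -/
noncomputable def rmp (c : ℝ) (i : ℕ) (t : ℝ) : ℝ :=
  max 0 (min 1 ((t - lev c i) / (lev c (i + 1) - lev c i)))

theorem continuous_rmp (c : ℝ) (i : ℕ) : Continuous (rmp c i) := by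
  unfold rmp; fun_prop

theorem rmp_nonneg (c : ℝ) (i : ℕ) (t : ℝ) : 0 ≤ rmp c i t := le_max_left _ _

theorem rmp_le_one (c : ℝ) (i : ℕ) (t : ℝ) : rmp c i t ≤ 1 :=
  max_le zero_le_one (min_le_left _ _)

theorem rmp_eq_zero {c : ℝ} (hc : 0 < c) {i : ℕ} {t : ℝ} (h : t ≤ lev c i) : rmp c i t = 0 := by
  unfold rmp
  refine max_eq_left ((min_le_right _ _).trans ?_)
  exact div_nonpos_of_nonpos_of_nonneg (by linarith) (by linarith [lev_lt hc i])

theorem rmp_eq_one {c : ℝ} (hc : 0 < c) {i : ℕ} {t : ℝ} (h : lev c (i + 1) ≤ t) :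
    rmp c i t = 1 := by
  unfold rmp
  have h1 : 1 ≤ (t - lev c i) / (lev c (i + 1) - lev c i) := by
    rw [le_div_iff₀ (by linarith [lev_lt hc i])]
    linarith
  rw [min_eq_left h1]
  exact max_eq_right zero_le_one

theorem rmp_mul {c : ℝ} (hc : 0 < c) (i : ℕ) (t : ℝ) :
    rmp c i t * rmp c (i + 1) t = rmp c (i + 1) t := by
  rcases le_total t (lev c (i + 1)) with h | h
  · rw [rmp_eq_zero hc h, mul_zero]
  · rw [rmp_eq_one hc h, one_mul]

theorem rmp_factor {c : ℝ} (hc : 0 < c) (i : ℕ) (t : ℝ) :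
    rmp c i t / max t (lev c i) * t = rmp c i t := by
  rcases le_total t (lev c i) with h | h
  · rw [rmp_eq_zero hc h, zero_div, zero_mul]
  · rw [max_eq_left h, div_mul_cancel₀]
    exact ((lev_pos hc i).trans_le h).ne'

theorem rmp_est {c : ℝ} (hc : 0 < c) (i : ℕ) {t : ℝ} (ht : 0 ≤ t) :
    |(1 - rmp c i t) * t * (1 - rmp c i t)| ≤ c := by
  have h1 := rmp_le_one c i t
  have h0 := rmp_nonneg c i t
  rcases le_total t c with h | h
  · rw [abs_of_nonneg (by positivity)]
    have h2 : 0 ≤ 1 - rmp c i t := by linarith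
    have h3 : 1 - rmp c i t ≤ 1 := by linarith
    calc (1 - rmp c i t) * t * (1 - rmp c i t) ≤ 1 * t * 1 := by gcongr
      _ ≤ c := by linarith
  · rw [rmp_eq_one hc ((lev_lt_c hc (i + 1)).le.trans h), sub_self, mul_zero, abs_zero]
    exact hc.le

variable {M : Type u} [CStarAlgebra M] {A : Set M}

theorem sum_mem (hA : IsCore A) {ι : Type*} (s : Finset ι) (f : ι → M) (h : ∀ i ∈ s, f i ∈ A) :
    ∑ i ∈ s, f i ∈ A := by
  classical
  induction s using Finset.induction_on with
  | empty => simpa using hA.zero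
  | insert i s hi ih =>
    rw [Finset.sum_insert hi]
    exact hA.add _ (h i (Finset.mem_insert_self _ _)) _
      (ih fun j hj => h j (Finset.mem_insert_of_mem hj))

theorem exists_ne (hA : IsCore A) : ∃ a ∈ A, a ≠ 0 := by
  by_contra hcon
  push Not at hcon
  have h1 : (1 : M) = 0 := hA.ess 1 fun a ha => by rw [hcon a ha, mul_zero]
  exact hA.one (h1 ▸ hA.zero)

theorem exists_chain (hA : IsCore A) (S : Finset M) (hS : ∀ a ∈ S, a ∈ A) (ε : ℝ) (hε : 0 < ε) :
    ∃ k : ℕ → M, IsCh A k ∧ ∀ i, ∀ a ∈ S, ‖k i * a - a‖ < ε ∧ ‖a * k i - a‖ < ε := by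
  classical
  let _ := CStarAlgebra.spectralOrder M
  have _ := CStarAlgebra.spectralOrderedRing M
  obtain ⟨a₀, ha₀, ha₀'⟩ := exists_ne hA
  set S' := insert a₀ S with hS'
  have hS'A : ∀ a ∈ S', a ∈ A := by
    intro a ha
    rcases Finset.mem_insert.1 ha with rfl | ha
    · exact ha₀
    · exact hS a ha
  set h := ∑ a ∈ S', (a * star a + star a * a) with hh
  have hpos : ∀ a ∈ S', (0 : M) ≤ a * star a + star a * a := fun a _ =>
    add_nonneg (mul_star_self_nonneg a) (star_mul_self_nonneg a)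
  have h0 : 0 ≤ h := Finset.sum_nonneg hpos
  have hle : ∀ a ∈ S', a * star a + star a * a ≤ h := fun a ha =>
    Finset.single_le_sum hpos ha
  have hle1 : ∀ a ∈ S', a * star a ≤ h := fun a ha =>
    (le_add_of_nonneg_right (star_mul_self_nonneg a)).trans (hle a ha)
  have hle2 : ∀ a ∈ S', star a * a ≤ h := fun a ha =>
    (le_add_of_nonneg_left (mul_star_self_nonneg a)).trans (hle a ha)
  have hmem : h ∈ A := sum_mem hA _ _ fun a ha =>
    hA.add _ (hA.right _ _ (hS'A a ha)) _ (hA.left _ _ (hS'A a ha))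
  have hsa : IsSelfAdjoint h := IsSelfAdjoint.of_nonneg h0
  have hne : h ≠ 0 := by
    intro hcon
    have h1 := hle2 a₀ (Finset.mem_insert_self _ _)
    rw [hcon] at h1
    have h2 : star a₀ * a₀ = 0 := le_antisymm h1 (star_mul_self_nonneg a₀)
    exact ha₀' ((CStarRing.star_mul_self_eq_zero_iff _).1 h2)
  have hnpos : 0 < ‖h‖ := norm_pos_iff.2 hne
  set c := min (ε ^ 2 / 4) (‖h‖ / 2) with hcdef
  have hc : 0 < c := lt_min (by positivity) (by positivity)
  have hcε : c < ε ^ 2 := (min_le_left _ _).trans_lt (by nlinarith [sq_pos_of_pos hε])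
  have hch : c < ‖h‖ := (min_le_right _ _).trans_lt (by linarith)
  have hcont : ∀ i, ContinuousOn (rmp c i) (spectrum ℝ h) :=
    fun i => (continuous_rmp c i).continuousOn
  refine ⟨fun i => cfc (rmp c i) h, ⟨?_, ?_, ?_, ?_, ?_⟩, ?_⟩
  · intro i
    have hg : Continuous fun t : ℝ => rmp c i t / max t (lev c i) := by
      refine (continuous_rmp c i).div (by fun_prop) fun t => ?_
      exact ((lev_pos hc i).trans_le (le_max_right _ _)).ne'
    have h1 : cfc (rmp c i) h = cfc (fun t : ℝ => rmp c i t / max t (lev c i)) h * h := by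
      have h2 : cfc (fun t : ℝ => rmp c i t / max t (lev c i)) h * h =
          cfc (fun t : ℝ => rmp c i t / max t (lev c i) * t) h := by
        rw [cfc_mul (fun t : ℝ => rmp c i t / max t (lev c i)) (fun t => t) h hg.continuousOn
          continuousOn_id, cfc_id' ℝ h hsa]
      rw [h2]
      exact cfc_congr fun t _ => (rmp_factor hc i t).symm
    rw [h1]
    exact hA.left _ _ hmem
  · intro i
    have h1 : 0 ≤ cfc (rmp c i) h := cfc_nonneg fun t _ => rmp_nonneg c i t
    exact CStarAlgebra.nonneg_iff_eq_star_mul_self.1 h1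
  · intro i
    refine norm_cfc_le zero_le_one fun t _ => ?_
    rw [Real.norm_eq_abs, abs_of_nonneg (rmp_nonneg c i t)]
    exact rmp_le_one c i t
  · intro i hcon
    have h1 : cfc (rmp c i) h = cfc (fun _ : ℝ => (0 : ℝ)) h := by rw [hcon, cfc_const_zero]
    rw [cfc_eq_cfc_iff_eqOn (ha := hsa) (hf := hcont i) (hg := continuousOn_const)] at h1
    have h2 : ‖cfc (fun t : ℝ => t) h‖ ≤ c := by
      refine norm_cfc_le hc.le fun t ht => ?_
      have h3 := h1 ht
      simp only at h3
      have h4 : 0 ≤ t := spectrum_nonneg_of_nonneg h0 ht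
      rw [Real.norm_eq_abs, abs_of_nonneg h4]
      by_contra hcon
      push Not at hcon
      rw [rmp_eq_one hc ((lev_lt_c hc (i + 1)).le.trans hcon.le)] at h3
      exact one_ne_zero h3
    rw [cfc_id' ℝ h hsa] at h2
    linarith
  · intro i
    change cfc (rmp c i) h * cfc (rmp c (i + 1)) h = cfc (rmp c (i + 1)) h
    rw [← cfc_mul (rmp c i) (rmp c (i + 1)) h (hcont i) (hcont (i + 1))]
    exact cfc_congr fun t _ => rmp_mul hc i t
  · intro i a ha
    have ha' : a ∈ S' := Finset.mem_insert_of_mem ha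
    change ‖cfc (rmp c i) h * a - a‖ < ε ∧ ‖a * cfc (rmp c i) h - a‖ < ε
    set k := cfc (rmp c i) h with hk
    have hks : IsSelfAdjoint k := IsSelfAdjoint.of_nonneg (cfc_nonneg fun t _ => rmp_nonneg c i t)
    have e1 : (1 - k) * h * (1 - k) =
        cfc (fun t : ℝ => (1 - rmp c i t) * t * (1 - rmp c i t)) h := by
      have e2 : 1 - k = cfc (fun t : ℝ => 1 - rmp c i t) h := by
        rw [cfc_sub (fun _ : ℝ => (1 : ℝ)) (rmp c i) h continuousOn_const (hcont i),
          cfc_const_one ℝ h]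
      have hcs : ContinuousOn (fun t : ℝ => 1 - rmp c i t) (spectrum ℝ h) :=
        continuousOn_const.sub (hcont i)
      have e3 : (1 - k) * h = cfc (fun t : ℝ => (1 - rmp c i t) * t) h := by
        rw [cfc_mul (fun t : ℝ => 1 - rmp c i t) (fun t => t) h hcs continuousOn_id,
          cfc_id' ℝ h hsa, e2]
      rw [e3, e2]
      exact (cfc_mul (fun t : ℝ => (1 - rmp c i t) * t) (fun t : ℝ => 1 - rmp c i t) h
        (hcs.mul continuousOn_id) hcs).symm
    have e4 : ‖(1 - k) * h * (1 - k)‖ ≤ c := by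
      rw [e1]
      refine norm_cfc_le hc.le fun t ht => ?_
      rw [Real.norm_eq_abs]
      exact rmp_est hc i (spectrum_nonneg_of_nonneg h0 ht)
    have hs1 : star (1 - k) = 1 - k := by rw [star_sub, star_one, hks.star_eq]
    have key : ∀ b : M, b * star b ≤ h → ‖(1 - k) * b‖ < ε := by
      intro b hb
      have f1 : (1 - k) * (b * star b) * (1 - k) ≤ (1 - k) * h * (1 - k) := by
        have := star_left_conjugate_le_conjugate hb (1 - k)
        rwa [hs1] at this
      have f2 : 0 ≤ (1 - k) * (b * star b) * (1 - k) := by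
        have := star_left_conjugate_nonneg (mul_star_self_nonneg b) (1 - k)
        rwa [hs1] at this
      have f3 := (CStarAlgebra.norm_le_norm_of_nonneg_of_le f2 f1).trans e4
      have f4 : (1 - k) * (b * star b) * (1 - k) = ((1 - k) * b) * star ((1 - k) * b) := by
        rw [star_mul, hs1]; noncomm_ring
      rw [f4, CStarRing.norm_self_mul_star] at f3
      have f5 : ‖(1 - k) * b‖ * ‖(1 - k) * b‖ < ε * ε := by nlinarith
      exact lt_of_mul_self_lt_mul_self₀ hε.le f5
    constructor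
    · have g1 := key a (hle1 a ha')
      rw [← norm_neg]
      have g2 : -(k * a - a) = (1 - k) * a := by noncomm_ring
      rw [g2]
      exact g1
    · have g1 := key (star a) (by rw [star_star]; exact hle2 a ha')
      rw [← norm_star]
      have g2 : star (a * k - a) = -((1 - k) * star a) := by
        rw [star_sub, star_mul, hks.star_eq]; noncomm_ring
      rw [g2, norm_neg]
      exact g1

theorem exists_dense (hA : IsCore A) [SeparableSpace M] :
    ∃ b : ℕ → M, (∀ n, b n ∈ A) ∧ ∀ a ∈ A, ∀ ε : ℝ, 0 < ε → ∃ n, ‖a - b n‖ < ε := by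
  have : Nonempty A := ⟨⟨0, hA.zero⟩⟩
  have : SeparableSpace A := (IsSeparable.of_separableSpace A).separableSpace
  obtain ⟨d, hd⟩ := TopologicalSpace.exists_dense_seq A
  refine ⟨fun n => (d n : M), fun n => (d n).2, fun a ha ε hε => ?_⟩
  obtain ⟨n, hn⟩ := hd.exists_dist_lt (⟨a, ha⟩ : A) hε
  refine ⟨n, ?_⟩
  rw [← dist_eq_norm]
  exact hn

theorem IsCh.map {G : Type*} [Group G] {α : G →* (M ≃⋆ₐ[ℂ] M)}
    (hα : ∀ g, ∀ a ∈ A, α g a ∈ A) (g : G) {k : ℕ → M} (hk : IsCh A k) :
    IsCh A fun i => α g (k i) where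
  mem i := hα g _ (hk.mem i)
  pos i := by
    obtain ⟨y, hy⟩ := hk.pos i
    exact ⟨α g y, by rw [hy, map_mul, map_star]⟩
  le i := by
    rw [norm_act α g]
    exact hk.le i
  ne i := by
    intro h
    refine hk.ne i ?_
    have h1 : α g (k i) = α g 0 := by rw [h, map_zero]
    exact (α g).injective h1
  unit i := by rw [← map_mul, hk.unit i]

end Chains

open Chains

theorem exists_chFam {G : Type*} [Group G] [Countable G] {M : Type u} [CStarAlgebra M]
    [SeparableSpace M] {A : Set M} (hA : IsCore A) (α : G →* (M ≃⋆ₐ[ℂ] M))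
    (hα : ∀ g, ∀ a ∈ A, α g a ∈ A) : ∃ κ : ℕ → ℕ → M, ChFam A α κ := by
  classical
  obtain ⟨b, hb, hbd⟩ := exists_dense hA
  have hK : ∀ p : Finset ℕ × ℕ, ∃ k : ℕ → M, IsCh A k ∧
      ∀ i, ∀ a ∈ p.1.image b, ‖k i * a - a‖ < 1 / ((p.2 : ℝ) + 1) ∧
        ‖a * k i - a‖ < 1 / ((p.2 : ℝ) + 1) := fun p =>
    exists_chain hA (p.1.image b) (by
      intro a ha
      obtain ⟨n, -, rfl⟩ := Finset.mem_image.1 ha
      exact hb n) _ (by positivity)
  choose K hK1 hK2 using hK
  obtain ⟨e, he⟩ := exists_surjective_nat ((Finset ℕ × ℕ) × G)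
  refine ⟨fun j i => α (e j).2 (K (e j).1 i), ?_, ?_, ?_⟩
  · intro j
    exact IsCh.map hα (e j).2 (hK1 (e j).1)
  · intro g j
    obtain ⟨j', hj'⟩ := he ((e j).1, g * (e j).2)
    refine ⟨j', fun i => ?_⟩
    rw [hj', map_mul]
    rfl
  · intro F hF ε hε
    have hn : ∀ a : M, ∃ n, a ∈ F → ‖a - b n‖ < ε / 4 := by
      intro a
      by_cases ha : a ∈ F
      · obtain ⟨n, hn⟩ := hbd a (hF a ha) (ε / 4) (by positivity)
        exact ⟨n, fun _ => hn⟩
      · exact ⟨0, fun h => absurd h ha⟩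
    choose n hn using hn
    obtain ⟨m, hm⟩ := exists_nat_one_div_lt (show (0 : ℝ) < ε / 4 by positivity)
    obtain ⟨j, hj⟩ := he ((F.image n, m), 1)
    refine ⟨j, fun i a ha => ?_⟩
    rw [hj, map_one]
    change ‖K (F.image n, m) i * a - a‖ < ε ∧ ‖a * K (F.image n, m) i - a‖ < ε
    have h1 := hK2 (F.image n, m) i (b (n a))
      (Finset.mem_image_of_mem _ (Finset.mem_image_of_mem _ ha))
    have h2 := hn a ha
    have h3 := (hK1 (F.image n, m)).le i
    generalize K (F.image n, m) i = k at h1 h3 ⊢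
    generalize b (n a) = c at h1 h2
    simp only at h1
    constructor
    · have e1 : k * a - a = k * (a - c) + (k * c - c) - (a - c) := by noncomm_ring
      rw [e1]
      have h4 : ‖k * (a - c)‖ ≤ 1 * ‖a - c‖ := (norm_mul_le _ _).trans (by gcongr)
      have h5 := norm_sub_le (k * (a - c) + (k * c - c)) (a - c)
      have h6 := norm_add_le (k * (a - c)) (k * c - c)
      linarith [h1.1]
    · have e1 : a * k - a = (a - c) * k + (c * k - c) - (a - c) := by noncomm_ring
      rw [e1]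
      have h4 : ‖(a - c) * k‖ ≤ ‖a - c‖ * 1 := (norm_mul_le _ _).trans (by gcongr)
      have h5 := norm_sub_le ((a - c) * k + (c * k - c)) (a - c)
      have h6 := norm_add_le ((a - c) * k) (c * k - c)
      linarith [h1.2]

end Vale.Agent.P095.NU
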