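import Vale.Agent.P095.NucDim
import Vale.Agent.P095.Defs
import Vale.Agent.P095.TDefs

/-!
# P095, target T7 (algebras without unit): definitions

`M` is a unital `C⋆`-algebra (the unitization of the simple algebra), `A` its simple essential
ideal of codimension one, `B` the central sequence algebra relative to `A`.
-/

open Filter Topology TopologicalSpace
open scoped BoundedContinuousFunction ComplexOrder

namespace Vale.Agent.P095.NU

open Vale.Agent.P101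

universe u v w

/-- A simple, essential, closed ideal of codimension one. -/
structure IsCore {M : Type u} [CStarAlgebra M] (A : Set M) : Prop where
  closed : IsClosed A
  zero : (0 : M) ∈ A
  add : ∀ x ∈ A, ∀ y ∈ A, x + y ∈ A
  smul : ∀ c : ℂ, ∀ x ∈ A, c • x ∈ A
  star : ∀ x ∈ A, star x ∈ A
  left : ∀ m, ∀ x ∈ A, m * x ∈ A
  right : ∀ m, ∀ x ∈ A, x * m ∈ A
  codim : ∀ m, ∃ c : ℂ, m - c • (1 : M) ∈ A
  one : (1 : M) ∉ A
  ess : ∀ m, (∀ a ∈ A, m * a = 0) → m = 0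
  simple : ∀ x ∈ A, x ≠ 0 → ∀ y ∈ A, ∀ ε : ℝ, 0 < ε →
    ∃ (n : ℕ) (u v : Fin n → M), ‖y - ∑ i, u i * x * v i‖ < ε

/-- `B` with the action `β` is the central sequence algebra of `A` (modulo the annihilator). -/
structure RelSys {G : Type*} [Group G] (ω : Ultrafilter ℕ) {M : Type u} [CStarAlgebra M]
    (A : Set M) (α : G →* (M ≃⋆ₐ[ℂ] M)) {B : Type u} [CStarAlgebra B]
    (q : centralSeq ω M →⋆ₐ[ℂ] B) (β : G →* (B ≃⋆ₐ[ℂ] B)) : Prop where
  core : IsCore A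
  inv : ∀ g, ∀ a ∈ A, α g a ∈ A
  ker : ∀ x, q x = 0 ↔ ∀ a ∈ A, (x : Ultra ω M) * Ultra.diag ω a = 0
  act : ∀ g x, β g (q x) = q (centralAct ω α g x)
  lift : ∀ b, ∃ x, q x = b ∧ ‖x‖ = ‖b‖

/-- The elements for which `k` is a local unit. -/
def LU {M : Type u} [CStarAlgebra M] (k : M) : Set M := {x | k * x = x ∧ x * k = x}

/-- Positive traces on `LU k`. -/
structure IsLTrace {M : Type u} [CStarAlgebra M] (k : M) (τ : M →ₗ[ℂ] ℂ) : Prop where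
  nonneg : ∀ x ∈ LU k, 0 ≤ τ (star x * x)
  trace : ∀ x ∈ LU k, ∀ y ∈ LU k, τ (x * y) = τ (y * x)

/-- A decreasing chain of nonzero positive contractions of `A`, each a unit for the next. -/
structure IsCh {M : Type u} [CStarAlgebra M] (A : Set M) (k : ℕ → M) : Prop where
  mem : ∀ i, k i ∈ A
  pos : ∀ i, IsPos (k i)
  le : ∀ i, ‖k i‖ ≤ 1
  ne : ∀ i, k i ≠ 0
  unit : ∀ i, k i * k (i + 1) = k (i + 1)

/-- A countable invariant family of chains containing approximate units. -/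
structure ChFam {G : Type*} [Group G] {M : Type u} [CStarAlgebra M] (A : Set M)
    (α : G →* (M ≃⋆ₐ[ℂ] M)) (κ : ℕ → ℕ → M) : Prop where
  ch : ∀ j, IsCh A (κ j)
  inv : ∀ g j, ∃ j', ∀ i, κ j' i = α g (κ j i)
  unit : ∀ F : Finset M, (∀ a ∈ F, a ∈ A) → ∀ ε : ℝ, 0 < ε →
    ∃ j, ∀ i, ∀ a ∈ F, ‖κ j i * a - a‖ < ε ∧ ‖a * κ j i - a‖ < ε

/-- The tracial states of `B` which are limits of traces on `A`. -/
def relT (ω : Ultrafilter ℕ) {M : Type u} [CStarAlgebra M] (κ : ℕ → ℕ → M) {B : Type u}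
    [CStarAlgebra B] (q : centralSeq ω M →⋆ₐ[ℂ] B) : Set (B →ₗ[ℂ] ℂ) :=
  {τ | ∃ (j : ℕ) (σ : ℕ → M →ₗ[ℂ] ℂ),
    (∀ n, IsLTrace (κ j 1) (σ n) ∧ σ n (κ j 3 * κ j 3) = 1) ∧
    ∀ (y : ℕ →ᵇ M) (hy : Ultra.mk ω y ∈ centralSeq ω M),
      Tendsto (fun n => σ n (κ j 3 * y n * κ j 3)) ω (𝓝 (τ (q ⟨Ultra.mk ω y, hy⟩)))}

/-- The null ideal. -/
def relNull (ω : Ultrafilter ℕ) {M : Type u} [CStarAlgebra M] (κ : ℕ → ℕ → M) {B : Type u}
    [CStarAlgebra B] (q : centralSeq ω M →⋆ₐ[ℂ] B) : Set B :=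
  {b | ∀ τ ∈ relT ω κ q, τ (star b * b) = 0}

/-- The supremum of `τ (k₃ x* x k₃)` over the normalised traces. -/
noncomputable def chSup {M : Type u} [CStarAlgebra M] (k : ℕ → M) (x : M) : ℝ :=
  ⨆ τ : {τ : M →ₗ[ℂ] ℂ // IsLTrace (k 1) τ ∧ τ (k 3 * k 3) = 1},
    (τ.1 (k 3 * (star x * x) * k 3)).re

/-- Excisable by elements of `A`. -/
def ExcisableIn {M : Type u} [CStarAlgebra M] (A : Set M) (lam : M →ₗ[ℂ] ℂ) : Prop :=
  ∀ (F : Finset M) (δ : ℝ), 0 < δ → ∃ x ∈ A, IsPos x ∧ ‖x‖ = 1 ∧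
    ∀ a ∈ F, ‖x * a * x - lam a • (x * x)‖ ≤ δ

/-- Approximation of the identity by functionals excisable in `A`. -/
def ExcApproxIn {M : Type u} [CStarAlgebra M] (A : Set M) : Prop :=
  ∀ (F : Finset M) (ε : ℝ), 0 < ε → ∃ (m k : ℕ) (lam : Fin m → M →ₗ[ℂ] ℂ)
    (b c : Fin m → Fin k → M), (∀ p, ExcisableIn A (lam p)) ∧
    ∀ a ∈ F, ‖∑ p, ∑ i, ∑ j, lam p (star (b p i) * a * b p j) • (star (c p i) * c p j) - a‖ < ε

/-- Very weak comparison relative to the ideal `A`. -/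
def RelVWComp {M : Type u} [CStarAlgebra M] (A : Set M) : Prop :=
  ∀ k : ℕ → M, IsCh A k → ∀ x ∈ A, IsPos x → x ≠ 0 → ∀ ε : ℝ, 0 < ε → ∃ η : ℝ, 0 < η ∧
    ∀ E : M, IsPos E → ‖E‖ ≤ 1 →
    (∀ τ : M →ₗ[ℂ] ℂ, IsLTrace (k 1) τ →
      (τ (k 3 * E * k 3)).re ≤ η * (τ (k 3 * k 3)).re) →
    ∃ r : M, ‖r‖ ≤ 2 ∧ (∀ y, y * x = x → y * r = r) ∧
      ‖star r * r - k 4 * E * k 4 * (k 4 * E * k 4)‖ ≤ ε

/-- A simple algebra, possibly without unit. -/
def IsSimpleNU (A : Type u) [NonUnitalCStarAlgebra A] : Prop :=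
  (∃ a : A, a ≠ 0) ∧ ∀ I : Submodule ℂ A, IsClosed (I : Set A) →
    (∀ a, ∀ x ∈ I, a * x ∈ I ∧ x * a ∈ I) → I = ⊥ ∨ I = ⊤

/-- `T`, with the bilinear map `t a z = a ⊗ z`, is a `C⋆`-completion of the algebraic tensor
product of `A` and `Z` (`A` need not have a unit). -/
structure IsTensorNU {A : Type u} {Z : Type v} {T : Type w} [NonUnitalCStarAlgebra A]
    [CStarAlgebra Z] [NonUnitalCStarAlgebra T] (t : A →ₗ[ℂ] Z →ₗ[ℂ] T) : Prop where
  mul : ∀ a b x y, t a x * t b y = t (a * b) (x * y)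
  star : ∀ a x, star (t a x) = t (star a) (star x)
  injective : Function.Injective (TensorProduct.lift t)
  dense : DenseRange (TensorProduct.lift t)

/-- `A` (possibly without unit) is `Z`-stable. -/
def ZStableNU (Z : Type v) [CStarAlgebra Z] (A : Type u) [NonUnitalCStarAlgebra A] : Prop :=
  ∃ (T : Type u) (_ : NonUnitalCStarAlgebra T) (t : A →ₗ[ℂ] Z →ₗ[ℂ] T),
    IsTensorNU t ∧ Nonempty (A ≃⋆ₐ[ℂ] T)

/-- Cocycle conjugacy; the cocycle consists of unitaries of the unitization of `T` (a subalgebra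
of the multiplier algebra). -/
def CocycleConjugateNU {G : Type*} [Group G] {A : Type u} {T : Type w} [NonUnitalCStarAlgebra A]
    [NonUnitalCStarAlgebra T] (α : G →* (A ≃⋆ₐ[ℂ] A)) (β : G →* (T ≃⋆ₐ[ℂ] T)) : Prop :=
  ∃ (Φ : A ≃⋆ₐ[ℂ] T) (β' : G →* (Unitization ℂ T ≃⋆ₐ[ℂ] Unitization ℂ T))
    (c : G → Unitization ℂ T),
    (∀ g (x : T), β' g (x : Unitization ℂ T) = ((β g x : T) : Unitization ℂ T)) ∧
    (∀ g, c g ∈ unitary (Unitization ℂ T)) ∧ (∀ g h, c (g * h) = c g * β' g (c h)) ∧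
    ∀ g a, ((Φ (α g a) : T) : Unitization ℂ T) =
      c g * ((β g (Φ a) : T) : Unitization ℂ T) * star (c g)

/-- `α` is equivariantly `Z`-stable: on every tensor product `T` of `A` and `Z` there is the
action `α ⊗ id`, and `α` is cocycle conjugate to it. -/
def EquivariantlyZStableNU (Z : Type v) [CStarAlgebra Z] {G : Type*} [Group G] {A : Type u}
    [NonUnitalCStarAlgebra A] (α : G →* (A ≃⋆ₐ[ℂ] A)) : Prop :=
  ∀ (T : Type u) [NonUnitalCStarAlgebra T] (t : A →ₗ[ℂ] Z →ₗ[ℂ] T), IsTensorNU t →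
    ∃ β : G →* (T ≃⋆ₐ[ℂ] T), (∀ g a z, β g (t a z) = t (α g a) z) ∧ CocycleConjugateNU α β

/-- The half flip of `Z` is approximately inner, by products of exponentials (the unitary group of
the Jiang-Su algebra `Z`, which is isomorphic to `Z ⊗ Z`, is connected). -/
def HasExpHalfFlip (Z : Type u) [CStarAlgebra Z] : Prop :=
  ∀ (C : Type v) [CStarAlgebra C] (π₁ π₂ : Z →⋆ₐ[ℂ] C),
    (∀ x y, Commute (π₁ x) (π₂ y)) → ∀ (F : Finset Z) (ε : ℝ), 0 < ε →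
      ∃ l : List (selfAdjoint C),
        (∀ h ∈ l, (h : C) ∈ closure (Algebra.adjoin ℂ (Set.range π₁ ∪ Set.range π₂) : Set C)) ∧
        ∀ z ∈ F, ‖((l.map selfAdjoint.expUnitary).prod : C) * π₁ z *
          star ((l.map selfAdjoint.expUnitary).prod : C) - π₂ z‖ < ε

end Vale.Agent.P095.NU
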