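import Vale.Agent.P095.NU.Defs

/-!
# P095, target T7: nuclear dimension of algebras without unit
-/

open Filter Topology TopologicalSpace
open scoped BoundedContinuousFunction ComplexOrder

namespace Vale.Agent.P095.NU

open Vale.Agent.P101

universe u v w

/-- Completely positive maps between `C⋆`-algebras which need not have a unit: all matrix
amplifications preserve the elements `Y* Y`. -/
def IsCPNU {A B : Type*} [NonUnitalRing A] [StarRing A] [Module ℂ A] [NonUnitalRing B]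
    [StarRing B] [Module ℂ B] (φ : A →ₗ[ℂ] B) : Prop :=
  ∀ (n : ℕ) (X : Matrix (Fin n) (Fin n) A), IsPos X → IsPos (X.map φ)

/-- `A` (possibly without unit) has nuclear dimension at most `d`: the identity is approximated by
sums of `d + 1` composites `ψ_c φ_c` of completely positive contractions `φ_c` into
finite-dimensional algebras and contractive order zero maps `ψ_c` (`ψ(x) ψ(y) = ψ(1) ψ(xy)`) back
to `A`. -/
def HasNuclearDimNU (A : Type*) [NonUnitalCStarAlgebra A] (d : ℕ) : Prop :=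
  ∀ (S : Finset A) (ε : ℝ), 0 < ε → ∃ (m : ℕ) (n : Fin (d + 1) → Fin m → ℕ)
    (φ : ∀ c, A →ₗ[ℂ] (∀ i, Matrix (Fin (n c i)) (Fin (n c i)) ℂ))
    (ψ : ∀ c, (∀ i, Matrix (Fin (n c i)) (Fin (n c i)) ℂ) →ₗ[ℂ] A),
    (∀ c, IsCPNU (φ c)) ∧ (∀ c a, IsPos a → ‖a‖ ≤ 1 → IsPos (1 - φ c a)) ∧
    (∀ c, IsCPNU (ψ c)) ∧ (∀ c x y, ψ c x * ψ c y = ψ c 1 * ψ c (x * y)) ∧
    (∀ c, ‖ψ c 1‖ ≤ 1) ∧ ∀ a ∈ S, ‖∑ c, ψ c (φ c a) - a‖ < ε

end Vale.Agent.P095.NU
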