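import Vale.Agent.P095.EqApprox

/-!
# P095, non-unital case: equivariant approximate intertwining relative to an ideal
-/

open Filter Topology
open scoped BoundedContinuousFunction

namespace Vale.Agent.P095.NU

open Vale.Agent.P101 Vale.Agent.P101.ApproxEquiv Vale.Agent.P095 Vale.Agent.P095.EqApprox

universe u v w

section

variable {G : Type w} [Group G] {A : Type u} {T : Type v} [CStarAlgebra A] [CStarAlgebra T]

/-- Equivariant approximate intertwining, with the additional information that the isomorphism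
respects all closed sets that are invariant under unitary conjugation. -/
theorem exists_cocycle_of_approx_inv [Countable G]
    [TopologicalSpace.SeparableSpace A] [TopologicalSpace.SeparableSpace T]
    (α : G →* (A ≃⋆ₐ[ℂ] A)) (β : G →* (T ≃⋆ₐ[ℂ] T))
    (ι : A →⋆ₐ[ℂ] T) (hι : Function.Injective ι) (heq : ∀ g a, ι (α g a) = β g (ι a))
    (h : ∀ (F : Finset A) (E : Finset T) (K : Finset G) (ε : ℝ), 0 < ε → ∃ U ∈ unitary T,
      (∀ a ∈ F, ‖U * ι a - ι a * U‖ < ε) ∧ (∀ b ∈ E, ∃ a : A, ‖star U * b * U - ι a‖ < ε) ∧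
      ∀ k ∈ K, ‖β k U - U‖ < ε) :
    ∃ (Φ : A ≃⋆ₐ[ℂ] T) (u : G → T), (∀ g, u g ∈ unitary T) ∧
      (∀ g k, u (g * k) = u g * β g (u k)) ∧
      (∀ g a, Φ (α g a) = u g * β g (Φ a) * star (u g)) ∧
      ∀ I : Set T, IsClosed I → (∀ x ∈ I, ∀ V ∈ unitary T, V * x * star V ∈ I) →
        ∀ a, Φ a ∈ I ↔ ι a ∈ I := by
  classical
  obtain ⟨e, he⟩ := exists_surjective_nat G
  set αs : ℕ → A := TopologicalSpace.denseSeq A with hα
  set βs : ℕ → T := TopologicalSpace.denseSeq T with hβ
  have hstep : ∀ (p : unitary T × Finset A) (n : ℕ), ∃ q : unitary T × Finset A,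
      p.2 ⊆ q.2 ∧ αs n ∈ q.2 ∧
      (∀ a ∈ p.2, ‖conj ι q.1 a - conj ι p.1 a‖ < (1 / 2 : ℝ) ^ n) ∧
      (∀ b ∈ (Finset.range (n + 1)).image βs, ∃ a ∈ q.2, ‖conj ι q.1 a - b‖ < (1 / 2 : ℝ) ^ n) ∧
      ∀ k ∈ (Finset.range (n + 1)).image e,
        ‖(q.1 : T) * β k (star (q.1 : T)) - (p.1 : T) * β k (star (p.1 : T))‖ < (1 / 2 : ℝ) ^ n := by
    intro p n
    obtain ⟨V', F', h1, h2, h3, h4, h5⟩ := step_equi β ι h p.1 p.2 (αs n)
      ((Finset.range (n + 1)).image βs) ((Finset.range (n + 1)).image e)
      (ε := (1 / 2 : ℝ) ^ n) (by positivity)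
    exact ⟨(V', F'), h1, h2, h3, h4, h5⟩
  choose nxt hn1 hn2 hn3 hn4 hn5 using hstep
  let s : ℕ → unitary T × Finset A := fun n => Nat.rec (1, ∅) (fun n p => nxt p n) n
  have hs : ∀ n, s (n + 1) = nxt (s n) n := fun n => rfl
  have hmono : Monotone fun n => (s n).2 := by
    refine monotone_nat_of_le_succ fun n => ?_
    show (s n).2 ⊆ (s (n + 1)).2
    rw [hs]
    exact hn1 _ _
  have hdist : ∀ N, ∀ a ∈ (s N).2, ∀ n, N ≤ n →
      ‖conj ι (s (n + 1)).1 a - conj ι (s n).1 a‖ < (1 / 2 : ℝ) ^ n := by
    intro N a ha n hn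
    rw [hs]
    exact hn3 (s n) n a (hmono hn ha)
  -- limit on the finite stages
  have hgeo : ∀ N, ∀ a ∈ (s N).2, ∀ n, N ≤ n → ∀ k,
      ‖conj ι (s (n + k)).1 a - conj ι (s n).1 a‖ ≤ 2 * (1 / 2 : ℝ) ^ n := by
    intro N a ha n hn k
    have key : ∀ k, ‖conj ι (s (n + k)).1 a - conj ι (s n).1 a‖ ≤
        2 * (1 / 2 : ℝ) ^ n - 2 * (1 / 2 : ℝ) ^ (n + k) := by
      intro k
      induction k with
      | zero => simp
      | succ k ih =>
        have h1 := hdist N a ha (n + k) (by omega)
        have h2 : ‖conj ι (s (n + (k + 1))).1 a - conj ι (s n).1 a‖ ≤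
            ‖conj ι (s (n + k + 1)).1 a - conj ι (s (n + k)).1 a‖ +
              ‖conj ι (s (n + k)).1 a - conj ι (s n).1 a‖ := by
          refine le_trans (le_of_eq ?_) (norm_add_le _ _)
          rw [show n + (k + 1) = n + k + 1 by ring]
          congr 1
          abel
        have h3 : (1 / 2 : ℝ) ^ (n + (k + 1)) = (1 / 2 : ℝ) ^ (n + k) / 2 := by
          rw [show n + (k + 1) = n + k + 1 by ring, pow_succ]
          ring
        rw [h3]
        linarith
    have h1 := key k
    have h2 : (0 : ℝ) ≤ 2 * (1 / 2 : ℝ) ^ (n + k) := by positivity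
    linarith
  have hhalf : Tendsto (fun n : ℕ => 2 * (1 / 2 : ℝ) ^ n) atTop (𝓝 0) := by
    have := (tendsto_pow_atTop_nhds_zero_of_lt_one (r := (1 / 2 : ℝ)) (by norm_num)
      (by norm_num)).const_mul 2
    simpa using this
  have hdense : ∀ (a : A) (ε : ℝ), 0 < ε → ∃ N, ∃ a' ∈ (s N).2, ‖a - a'‖ < ε := by
    intro a ε hε
    obtain ⟨n, hn⟩ := (TopologicalSpace.denseRange_denseSeq A).exists_dist_lt a hε
    refine ⟨n + 1, αs n, ?_, ?_⟩
    · rw [hs]
      exact hn2 _ _
    · rw [dist_eq_norm] at hn
      exact hn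
  have hcauchy : ∀ a, CauchySeq fun n => conj ι (s n).1 a := by
    intro a
    rw [Metric.cauchySeq_iff']
    intro ε hε
    obtain ⟨N, a', ha', haa'⟩ := hdense a (ε / 4) (by linarith)
    obtain ⟨M, hM⟩ := ((tendsto_order.1 hhalf).2 (ε / 4) (by linarith)).exists_forall_of_atTop
    refine ⟨max N M, fun n hn => ?_⟩
    obtain ⟨k, rfl⟩ := Nat.exists_eq_add_of_le hn
    rw [dist_eq_norm]
    have h1 := hgeo N a' ha' (max N M) (le_max_left _ _) k
    have h2 := hM (max N M) (le_max_right _ _)
    have h3 : ‖conj ι (s (max N M + k)).1 a - conj ι (s (max N M + k)).1 a'‖ < ε / 4 := by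
      rw [conj_sub, norm_conj ι hι]
      exact haa'
    have h4 : ‖conj ι (s (max N M)).1 a' - conj ι (s (max N M)).1 a‖ < ε / 4 := by
      rw [conj_sub, norm_conj ι hι, norm_sub_rev]
      exact haa'
    calc ‖conj ι (s (max N M + k)).1 a - conj ι (s (max N M)).1 a‖
        = ‖(conj ι (s (max N M + k)).1 a - conj ι (s (max N M + k)).1 a') +
            ((conj ι (s (max N M + k)).1 a' - conj ι (s (max N M)).1 a') +
            (conj ι (s (max N M)).1 a' - conj ι (s (max N M)).1 a))‖ := by
          congr 1; abel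
      _ ≤ ‖conj ι (s (max N M + k)).1 a - conj ι (s (max N M + k)).1 a'‖ +
            (‖conj ι (s (max N M + k)).1 a' - conj ι (s (max N M)).1 a'‖ +
            ‖conj ι (s (max N M)).1 a' - conj ι (s (max N M)).1 a‖) :=
          (norm_add_le _ _).trans (add_le_add le_rfl (norm_add_le _ _))
      _ < ε := by linarith
  have hlim : ∀ a, ∃ t, Tendsto (fun n => conj ι (s n).1 a) atTop (𝓝 t) := fun a =>
    cauchySeq_tendsto_of_complete (hcauchy a)
  choose ψ hψ using hlim
  let Ψ : A →⋆ₐ[ℂ] T :=
    { toFun := ψ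
      map_one' := by
        refine tendsto_nhds_unique (hψ 1) ?_
        simp_rw [conj_one]
        exact tendsto_const_nhds
      map_mul' := by
        intro a b
        refine tendsto_nhds_unique (hψ (a * b)) ?_
        simp_rw [ApproxEquiv.conj_mul]
        exact (hψ a).mul (hψ b)
      map_zero' := by
        refine tendsto_nhds_unique (hψ 0) ?_
        have : ∀ n, conj ι (s n).1 (0 : A) = 0 := by
          intro n
          unfold conj
          rw [map_zero, mul_zero, zero_mul]
        simp_rw [this]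
        exact tendsto_const_nhds
      map_add' := by
        intro a b
        refine tendsto_nhds_unique (hψ (a + b)) ?_
        simp_rw [conj_add]
        exact (hψ a).add (hψ b)
      commutes' := by
        intro c
        refine tendsto_nhds_unique (hψ (algebraMap ℂ A c)) ?_
        simp_rw [conj_algebraMap]
        exact tendsto_const_nhds
      map_star' := by
        intro a
        refine tendsto_nhds_unique (hψ (star a)) ?_
        simp_rw [conj_star]
        exact (hψ a).star }
  have hΨ : ∀ a, Ψ a = ψ a := fun a => rfl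
  have hnorm : ∀ a, ‖Ψ a‖ = ‖a‖ := by
    intro a
    have h1 := (hψ a).norm
    simp_rw [norm_conj ι hι] at h1
    exact tendsto_nhds_unique h1 tendsto_const_nhds
  have hiso : Isometry Ψ := AddMonoidHomClass.isometry_of_norm Ψ hnorm
  have hclosed : IsClosed (Set.range Ψ) := hiso.isClosedEmbedding.isClosed_range
  have hψ_close : ∀ N, ∀ a ∈ (s N).2, ‖ψ a - conj ι (s N).1 a‖ ≤ 2 * (1 / 2 : ℝ) ^ N := by
    intro N a ha
    have h1 : Tendsto (fun k => ‖conj ι (s (N + k)).1 a - conj ι (s N).1 a‖) atTop
        (𝓝 ‖ψ a - conj ι (s N).1 a‖) := by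
      have h2 : Tendsto (fun k => conj ι (s (N + k)).1 a) atTop (𝓝 (ψ a)) := by
        have := (hψ a).comp (tendsto_add_atTop_nat N)
        refine this.congr fun k => ?_
        show conj ι (s (k + N)).1 a = _
        rw [add_comm]
      exact (h2.sub_const _).norm
    exact le_of_tendsto' h1 fun k => hgeo N a ha N le_rfl k
  have hsurj : Function.Surjective Ψ := by
    intro t
    have : t ∈ closure (Set.range Ψ) := by
      rw [Metric.mem_closure_iff]
      intro ε hε
      obtain ⟨j, hj⟩ := (TopologicalSpace.denseRange_denseSeq T).exists_dist_lt t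
        (show (0 : ℝ) < ε / 4 by linarith)
      obtain ⟨M, hM⟩ := ((tendsto_order.1 hhalf).2 (ε / 4) (by linarith)).exists_forall_of_atTop
      set n := max j M with hn
      have hβmem : βs j ∈ (Finset.range (n + 1)).image βs := by
        apply Finset.mem_image_of_mem
        rw [Finset.mem_range]
        have := le_max_left j M
        omega
      obtain ⟨a, ha, hab⟩ := hn4 (s n) n (βs j) hβmem
      rw [← hs] at ha hab
      have h1 := hψ_close (n + 1) a ha
      have h2 := hM (n + 1) (by have := le_max_right j M; omega)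
      have h3 := hM n (le_max_right j M)
      have h4 : (1 / 2 : ℝ) ^ n ≤ 2 * (1 / 2 : ℝ) ^ n := by
        have : (0 : ℝ) ≤ (1 / 2 : ℝ) ^ n := by positivity
        linarith
      refine ⟨Ψ a, ⟨a, rfl⟩, ?_⟩
      rw [dist_comm, dist_eq_norm, hΨ]
      rw [dist_comm, dist_eq_norm] at hj
      calc ‖ψ a - t‖ = ‖(ψ a - conj ι (s (n + 1)).1 a) +
            ((conj ι (s (n + 1)).1 a - βs j) + (βs j - t))‖ := by
            congr 1; abel
        _ ≤ ‖ψ a - conj ι (s (n + 1)).1 a‖ +
            (‖conj ι (s (n + 1)).1 a - βs j‖ + ‖βs j - t‖) :=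
            (norm_add_le _ _).trans (add_le_add le_rfl (norm_add_le _ _))
        _ < ε := by linarith
    rw [hclosed.closure_eq] at this
    exact this
  -- the cocycle
  let c : ℕ → G → T := fun n g => ((s n).1 : T) * β g (star ((s n).1 : T))
  have hclim : ∀ g, ∃ t, Tendsto (fun n => c n g) atTop (𝓝 t) := by
    intro g
    obtain ⟨i, rfl⟩ := he g
    have hC : CauchySeq fun n => c (n + i) (e i) := by
      refine cauchySeq_of_le_geometric (1 / 2) 1 (by norm_num) fun n => ?_
      rw [dist_comm, dist_eq_norm, one_mul]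
      have h1 := hn5 (s (n + i)) (n + i) (e i) (by
        apply Finset.mem_image_of_mem
        rw [Finset.mem_range]
        omega)
      rw [← hs] at h1
      have h2 : (1 / 2 : ℝ) ^ (n + i) ≤ (1 / 2 : ℝ) ^ n :=
        pow_le_pow_of_le_one (by norm_num) (by norm_num) (by omega)
      have e5 : n + 1 + i = n + i + 1 := by omega
      rw [e5]
      exact h1.le.trans h2
    obtain ⟨t, ht⟩ := cauchySeq_tendsto_of_complete hC
    exact ⟨t, (tendsto_add_atTop_iff_nat i).1 ht⟩
  choose u hu using hclim
  have hcU : ∀ n g, c n g ∈ unitary T := fun n g =>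
    mul_mem (s n).1.2 (map_mem_unitary _ (Unitary.star_mem (s n).1.2))
  have huU : ∀ g, u g ∈ unitary T := by
    intro g
    rw [Unitary.mem_iff]
    constructor
    · refine tendsto_nhds_unique ((hu g).star.mul (hu g)) ?_
      simp_rw [(Unitary.mem_iff.1 (hcU _ g)).1]
      exact tendsto_const_nhds
    · refine tendsto_nhds_unique ((hu g).mul (hu g).star) ?_
      simp_rw [(Unitary.mem_iff.1 (hcU _ g)).2]
      exact tendsto_const_nhds
  refine ⟨StarAlgEquiv.ofBijective Ψ ⟨hiso.injective, hsurj⟩, u, huU, ?_, ?_, ?_⟩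
  · intro g k
    refine tendsto_nhds_unique (hu (g * k)) ?_
    have h1 : Tendsto (fun n => c n g * β g (c n k)) atTop (𝓝 (u g * β g (u k))) :=
      (hu g).mul (((continuous_equiv (β g)).tendsto _).comp (hu k))
    refine h1.congr fun n => ?_
    show ((s n).1 : T) * β g (star ((s n).1 : T)) * β g (((s n).1 : T) * β k (star ((s n).1 : T)))
      = ((s n).1 : T) * β (g * k) (star ((s n).1 : T))
    rw [mul_assoc, ← map_mul, ← mul_assoc, Unitary.coe_star_mul_self, one_mul, map_mul β g k,
      StarAlgEquiv.mul_apply]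
  · intro g a
    show ψ (α g a) = u g * β g (ψ a) * star (u g)
    refine tendsto_nhds_unique (hψ (α g a)) ?_
    have h1 : Tendsto (fun n => c n g * β g (conj ι (s n).1 a) * star (c n g)) atTop
        (𝓝 (u g * β g (ψ a) * star (u g))) :=
      ((hu g).mul (((continuous_equiv (β g)).tendsto _).comp (hψ a))).mul (hu g).star
    refine h1.congr fun n => ?_
    show ((s n).1 : T) * β g (star ((s n).1 : T)) * β g (((s n).1 : T) * ι a * star ((s n).1 : T))
      * star (((s n).1 : T) * β g (star ((s n).1 : T))) =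
      ((s n).1 : T) * ι (α g a) * star ((s n).1 : T)
    have hVV : star ((s n).1 : T) * ((s n).1 : T) = 1 := Unitary.coe_star_mul_self _
    rw [heq, star_mul, ← map_star, star_star]
    calc ((s n).1 : T) * β g (star ((s n).1 : T)) * β g (((s n).1 : T) * ι a * star ((s n).1 : T))
        * (β g ((s n).1 : T) * star ((s n).1 : T))
        = ((s n).1 : T) * (β g (star ((s n).1 : T)) * β g (((s n).1 : T) * ι a * star ((s n).1 : T))
          * β g ((s n).1 : T)) * star ((s n).1 : T) := by noncomm_ring
      _ = ((s n).1 : T) * β g (ι a) * star ((s n).1 : T) := by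
          rw [← map_mul, ← map_mul]
          congr 3
          calc star ((s n).1 : T) * (((s n).1 : T) * ι a * star ((s n).1 : T)) * ((s n).1 : T)
              = (star ((s n).1 : T) * ((s n).1 : T)) * ι a *
                (star ((s n).1 : T) * ((s n).1 : T)) := by noncomm_ring
            _ = ι a := by rw [hVV, one_mul, mul_one]
  · intro I hI hinv a
    show ψ a ∈ I ↔ ι a ∈ I
    constructor
    · intro ha
      have h1 : Tendsto (fun n => star ((s n).1 : T) * ψ a * ((s n).1 : T)) atTop (𝓝 (ι a)) := by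
        rw [tendsto_iff_norm_sub_tendsto_zero]
        have h2 : Tendsto (fun n => ‖ψ a - conj ι (s n).1 a‖) atTop (𝓝 0) := by
          have := (tendsto_const_nhds (x := ψ a)).sub (hψ a)
          rw [sub_self] at this
          simpa using this.norm
        refine h2.congr fun n => ?_
        have hVV : star ((s n).1 : T) * ((s n).1 : T) = 1 := Unitary.coe_star_mul_self _
        have h3 : star ((s n).1 : T) * ψ a * ((s n).1 : T) - ι a =
            star ((s n).1 : T) * (ψ a - conj ι (s n).1 a) * star (star ((s n).1 : T)) := by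
          unfold conj
          rw [star_star, mul_sub, sub_mul]
          congr 1
          calc ι a = (star ((s n).1 : T) * ((s n).1 : T)) * ι a *
                (star ((s n).1 : T) * ((s n).1 : T)) := by rw [hVV, one_mul, mul_one]
            _ = star ((s n).1 : T) * (((s n).1 : T) * ι a * star ((s n).1 : T)) *
                ((s n).1 : T) := by noncomm_ring
        rw [h3]
        exact (norm_conj_aux (star (s n).1) (ψ a - conj ι (s n).1 a)).symm
      refine hI.mem_of_tendsto h1 (Eventually.of_forall fun n => ?_)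
      have := hinv _ ha (star ((s n).1 : T)) (Unitary.star_mem (s n).1.2)
      rwa [star_star] at this
    · intro ha
      exact hI.mem_of_tendsto (hψ a) (Eventually.of_forall fun n => hinv _ ha _ (s n).1.2)

end

end Vale.Agent.P095.NU
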