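import Vale.Agent.P095.Defs
import Vale.Agent.P095.NucDim

/-!
# P095: definitions for the final statement (algebras with or without unit)
-/

open Filter Topology TopologicalSpace
open scoped BoundedContinuousFunction ComplexOrder

namespace Vale.Agent.P095.NU

open Vale.Agent.P101

universe u v w

/-- A simple `C⋆`-algebra, with or without unit: it is not zero and the only closed two-sided
ideals are zero and the whole algebra. -/
def SimpleCStar (A : Type u) [NonUnitalCStarAlgebra A] : Prop :=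
  (∃ a : A, a ≠ 0) ∧ ∀ I : Set A, IsClosed I → (0 : A) ∈ I → (∀ x ∈ I, ∀ y ∈ I, x + y ∈ I) →
    (∀ x ∈ I, ∀ a : A, a * x ∈ I ∧ x * a ∈ I) → (∀ x ∈ I, x = 0) ∨ ∀ x, x ∈ I

/-- `T`, with the bilinear map `t a z = a ⊗ z`, is a `C⋆`-completion of the algebraic tensor
product of `A` (with or without unit) and `Z`. -/
structure IsTensorE {A : Type u} {Z : Type v} {T : Type w} [NonUnitalCStarAlgebra A]
    [CStarAlgebra Z] [NonUnitalCStarAlgebra T] (t : A → Z → T) : Prop where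
  add_left : ∀ a b z, t (a + b) z = t a z + t b z
  add_right : ∀ a y z, t a (y + z) = t a y + t a z
  smul_left : ∀ (c : ℂ) a z, t (c • a) z = c • t a z
  smul_right : ∀ (c : ℂ) a z, t a (c • z) = c • t a z
  mul : ∀ a b x y, t a x * t b y = t (a * b) (x * y)
  star : ∀ a x, star (t a x) = t (star a) (star x)
  injective : ∀ (n : ℕ) (a : Fin n → A) (z : Fin n → Z),
    (∀ c : Fin n → ℂ, ∑ i, c i • z i = 0 → ∀ i, c i = 0) → ∑ i, t (a i) (z i) = 0 →
      ∀ i, a i = 0
  dense : ∀ (x : T) (ε : ℝ), 0 < ε → ∃ (n : ℕ) (a : Fin n → A) (z : Fin n → Z),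
    ‖∑ i, t (a i) (z i) - x‖ < ε

/-- `A` (with or without unit) is `Z`-stable: isomorphic to a tensor product of `A` and `Z`. -/
def ZStableE (Z : Type v) [CStarAlgebra Z] (A : Type u) [NonUnitalCStarAlgebra A] : Prop :=
  ∃ (T : Type u) (_ : NonUnitalCStarAlgebra T) (t : A → Z → T),
    IsTensorE t ∧ Nonempty (A ≃⋆ₐ[ℂ] T)

/-- Cocycle conjugacy. The cocycle consists of the unitaries `u g = 1 + c g` with `c g` in `T`
(elements of the unitization of `T`, a subalgebra of the multiplier algebra): the conditions say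
`u* u = u u* = 1`, `u (g h) = u g β_g(u h)` and `Φ (α_g a) = u g β_g(Φ a) (u g)*`. -/
def CocycleConjugateE {G : Type*} [Group G] {A : Type u} {T : Type w} [NonUnitalCStarAlgebra A]
    [NonUnitalCStarAlgebra T] (α : G →* (A ≃⋆ₐ[ℂ] A)) (β : G →* (T ≃⋆ₐ[ℂ] T)) : Prop :=
  ∃ (Φ : A ≃⋆ₐ[ℂ] T) (c : G → T),
    (∀ g, c g + star (c g) + star (c g) * c g = 0) ∧
    (∀ g, c g + star (c g) + c g * star (c g) = 0) ∧
    (∀ g h, c (g * h) = c g + β g (c h) + c g * β g (c h)) ∧
    ∀ g a, Φ (α g a) = β g (Φ a) + c g * β g (Φ a) + β g (Φ a) * star (c g) +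
      c g * β g (Φ a) * star (c g)

/-- For a tensor product `T` of `A` and `Z` (with `t a z = a ⊗ z`): the action `β = α ⊗ id` of `G`
on `T` exists, and `α` is cocycle conjugate to it. -/
def ConjugateToTensor {Z : Type v} [CStarAlgebra Z] {G : Type*} [Group G] {A : Type u}
    [NonUnitalCStarAlgebra A] {T : Type w} [NonUnitalCStarAlgebra T]
    (α : G →* (A ≃⋆ₐ[ℂ] A)) (t : A → Z → T) : Prop :=
  ∃ β : G →* (T ≃⋆ₐ[ℂ] T), (∀ g a z, β g (t a z) = t (α g a) z) ∧ CocycleConjugateE α β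

/-- `α` is equivariantly `Z`-stable: on every tensor product `T` of `A` and `Z` there is the
action `α ⊗ id`, and `α` is cocycle conjugate to it. -/
def EquivariantlyZStableE (Z : Type v) [CStarAlgebra Z] {G : Type*} [Group G] {A : Type u}
    [NonUnitalCStarAlgebra A] (α : G →* (A ≃⋆ₐ[ℂ] A)) : Prop :=
  ∀ (T : Type u) [NonUnitalCStarAlgebra T] (t : A → Z → T), IsTensorE t → ConjugateToTensor α t

/-- Completely positive maps from a `C⋆`-algebra without unit to a finite-dimensional algebra or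
back: all matrix amplifications preserve the elements `Y* Y`. -/
def IsCPE {A B : Type*} [NonUnitalRing A] [StarRing A] [Module ℂ A] [NonUnitalRing B]
    [StarRing B] [Module ℂ B] (φ : A →ₗ[ℂ] B) : Prop :=
  ∀ (n : ℕ) (X : Matrix (Fin n) (Fin n) A), IsPos X → IsPos (X.map φ)

/-- `A` (with or without unit) has nuclear dimension at most `d`: the identity is approximated by
sums of `d + 1` composites `ψ_c φ_c` of completely positive contractions `φ_c` into
finite-dimensional algebras and contractive order zero maps `ψ_c` (`ψ(x) ψ(y) = ψ(1) ψ(xy)`) back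
to `A`. -/
def NuclearDimLE (A : Type*) [NonUnitalCStarAlgebra A] (d : ℕ) : Prop :=
  ∀ (S : Finset A) (ε : ℝ), 0 < ε → ∃ (m : ℕ) (n : Fin (d + 1) → Fin m → ℕ)
    (φ : ∀ c, A →ₗ[ℂ] (∀ i, Matrix (Fin (n c i)) (Fin (n c i)) ℂ))
    (ψ : ∀ c, (∀ i, Matrix (Fin (n c i)) (Fin (n c i)) ℂ) →ₗ[ℂ] A),
    (∀ c, IsCPE (φ c)) ∧ (∀ c a, IsPos a → ‖a‖ ≤ 1 → IsPos (1 - φ c a)) ∧
    (∀ c, IsCPE (ψ c)) ∧ (∀ c x y, ψ c x * ψ c y = ψ c 1 * ψ c (x * y)) ∧
    (∀ c, ‖ψ c 1‖ ≤ 1) ∧ ∀ a ∈ S, ‖∑ c, ψ c (φ c a) - a‖ < ε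

end Vale.Agent.P095.NU
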