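import Vale.Agent.P095.NU.Bridge
import Vale.Agent.P095.UZ.Main

/-!
# P095: Conjecture A, final form (the unitary group of the Jiang-Su algebra is connected)
-/

open Filter Topology TopologicalSpace
open scoped BoundedContinuousFunction ComplexOrder TensorProduct

namespace Vale.Agent.P095.NU

open Vale.Agent.P101

universe u v w

/-- Conjecture A: every action of a countable amenable group on a simple separable `Z`-stable
algebra of finite nuclear dimension, with or without unit, is equivariantly `Z`-stable. -/
theorem conjectureA_main {Z : Type u} [CStarAlgebra Z] (hZ : IsJiangSuAlgebra.{u, u} Z)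
    (hZ' : StronglySelfAbsorbing Z)
    {A : Type u} [NonUnitalCStarAlgebra A] [SeparableSpace A] (hs : SimpleCStar A) {d : ℕ}
    (hd : NuclearDimLE A d) (hA : ZStableE Z A)
    {G : Type w} [Group G] [Countable G] (hG : ReiterAmenable G) (α : G →* (A ≃⋆ₐ[ℂ] A)) :
    EquivariantlyZStableE Z α :=
  conjectureA_final hZ hZ' (UZ.pathConnectedSpace_unitary hZ.limit) hs hd hA hG α

end Vale.Agent.P095.NU
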