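import Vale.Agent.P095.NU.Defs
import Vale.Agent.P095.PureExt

/-!
# P095, target T7: basic facts on traces on `LU k`
-/

open Filter Topology TopologicalSpace
open scoped BoundedContinuousFunction ComplexOrder

namespace Vale.Agent.P095.NU

open Vale.Agent.P101

universe u v w

section LTr

variable {M : Type u} [CStarAlgebra M] {k : M} {τ : M →ₗ[ℂ] ℂ}

theorem LU_sandwich {d : M} (hk : IsSelfAdjoint k) (hd : d ∈ LU k) {d' : M} (hd' : d' ∈ LU k)
    (z : M) : d * z * d' ∈ LU k := by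
  refine ⟨?_, ?_⟩
  · rw [← mul_assoc, ← mul_assoc, hd.1]
  · rw [mul_assoc, hd'.2]

theorem LU_star (hk : IsSelfAdjoint k) {x : M} (hx : x ∈ LU k) : star x ∈ LU k := by
  refine ⟨?_, ?_⟩
  · have h := congrArg star hx.2
    rwa [star_mul, hk.star_eq] at h
  · have h := congrArg star hx.1
    rwa [star_mul, hk.star_eq] at h

theorem LU_add {x y : M} (hx : x ∈ LU k) (hy : y ∈ LU k) : x + y ∈ LU k :=
  ⟨by rw [mul_add, hx.1, hy.1], by rw [add_mul, hx.2, hy.2]⟩

theorem LU_sub {x y : M} (hx : x ∈ LU k) (hy : y ∈ LU k) : x - y ∈ LU k :=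
  ⟨by rw [mul_sub, hx.1, hy.1], by rw [sub_mul, hx.2, hy.2]⟩

theorem LU_smul (c : ℂ) {x : M} (hx : x ∈ LU k) : c • x ∈ LU k :=
  ⟨by rw [mul_smul_comm, hx.1], by rw [smul_mul_assoc, hx.2]⟩

theorem LU_mul {x y : M} (hx : x ∈ LU k) (hy : y ∈ LU k) : x * y ∈ LU k :=
  ⟨by rw [← mul_assoc, hx.1], by rw [mul_assoc, hy.2]⟩

/-- A self-adjoint element whose square is in `LU k` is in `LU k`. -/
theorem LU_of_sq (hk : IsSelfAdjoint k) {s : M} (hs : IsSelfAdjoint s) (h : k * (s * s) = s * s) :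
    s ∈ LU k := by
  have h1 : (s - k * s) * star (s - k * s) = 0 := by
    rw [star_sub, star_mul, hs.star_eq, hk.star_eq]
    have e : (s - k * s) * (s - s * k) = (s * s - k * (s * s)) - (s * s - k * (s * s)) * k := by
      noncomm_ring
    rw [e, h, sub_self, zero_mul, sub_self]
  rw [CStarRing.mul_star_self_eq_zero_iff] at h1
  have h2 : k * s = s := (sub_eq_zero.1 h1).symm
  refine ⟨h2, ?_⟩
  have h3 := congrArg star h2
  rwa [star_mul, hs.star_eq, hk.star_eq] at h3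

/-- Positive elements of `LU k` have square roots in `LU k`. -/
theorem LU_exists_sqrt (hk : IsSelfAdjoint k) {z : M} (hz : z ∈ LU k) (hp : IsPos z) :
    ∃ s ∈ LU k, IsSelfAdjoint s ∧ IsPos s ∧ s * s = z := by
  let _ := CStarAlgebra.spectralOrder M
  have _ := CStarAlgebra.spectralOrderedRing M
  have h0 : 0 ≤ z := by
    obtain ⟨y, rfl⟩ := hp
    exact star_mul_self_nonneg y
  have h1 : CFC.sqrt z * CFC.sqrt z = z := CFC.sqrt_mul_sqrt_self z h0
  have h2 : 0 ≤ CFC.sqrt z := CFC.sqrt_nonneg z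
  have h3 : IsSelfAdjoint (CFC.sqrt z) := IsSelfAdjoint.of_nonneg h2
  refine ⟨CFC.sqrt z, LU_of_sq hk h3 ?_, h3, ?_, h1⟩
  · rw [h1, hz.1]
  · exact CStarAlgebra.nonneg_iff_eq_star_mul_self.1 h2

theorem IsLTrace.nonneg_of_isPos (h : IsLTrace k τ) (hk : IsSelfAdjoint k) {z : M}
    (hz : z ∈ LU k) (hp : IsPos z) : 0 ≤ τ z := by
  obtain ⟨s, hs, hsa, -, rfl⟩ := LU_exists_sqrt hk hz hp
  have h1 := h.nonneg s hs
  rwa [hsa.star_eq] at h1

/-- The positive and the negative part of a self-adjoint element of `LU k` are in `LU k`. -/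
theorem LU_exists_parts (hk : IsSelfAdjoint k) {x : M} (hx : x ∈ LU k) (hs : IsSelfAdjoint x) :
    ∃ a ∈ LU k, ∃ b ∈ LU k, IsPos a ∧ IsPos b ∧ x = a - b := by
  let _ := CStarAlgebra.spectralOrder M
  have _ := CStarAlgebra.spectralOrderedRing M
  have h1 : x⁺ - x⁻ = x := CFC.posPart_sub_negPart x hs
  have h2 : x⁻ * x⁺ = 0 := CFC.negPart_mul_posPart x
  have h3 : 0 ≤ x⁺ := CFC.posPart_nonneg x
  have h4 : 0 ≤ x⁻ := CFC.negPart_nonneg x
  have h5 : x⁺ * x⁺ = x * x⁺ := by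
    have e : x * x⁺ = (x⁺ - x⁻) * x⁺ := by rw [h1]
    rw [e, sub_mul, h2, sub_zero]
  have h6 : x⁺ ∈ LU k := by
    refine LU_of_sq hk (IsSelfAdjoint.of_nonneg h3) ?_
    rw [h5, ← mul_assoc, hx.1]
  have h7 : x⁻ ∈ LU k := by
    have e : x⁻ = x⁺ - x := by
      rw [eq_sub_iff_add_eq, add_comm, ← eq_sub_iff_add_eq]
      exact h1.symm
    rw [e]
    exact LU_sub h6 hx
  exact ⟨x⁺, h6, x⁻, h7, CStarAlgebra.nonneg_iff_eq_star_mul_self.1 h3,
    CStarAlgebra.nonneg_iff_eq_star_mul_self.1 h4, h1.symm⟩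

theorem IsLTrace.star_of_selfAdjoint (h : IsLTrace k τ) (hk : IsSelfAdjoint k) {x : M}
    (hx : x ∈ LU k) (hs : IsSelfAdjoint x) : star (τ x) = τ x := by
  obtain ⟨a, ha, b, hb, hpa, hpb, rfl⟩ := LU_exists_parts hk hx hs
  have h1 := h.nonneg_of_isPos hk ha hpa
  have h2 := h.nonneg_of_isPos hk hb hpb
  rw [map_sub, ← PureExt.ofReal_re_of_nonneg h1, ← PureExt.ofReal_re_of_nonneg h2]
  simp

theorem IsLTrace.map_star (h : IsLTrace k τ) (hk : IsSelfAdjoint k) {x : M} (hx : x ∈ LU k) :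
    τ (star x) = star (τ x) := by
  have hxs := LU_star hk hx
  have h1 := h.star_of_selfAdjoint hk (LU_add hx hxs) (IsSelfAdjoint.add_star_self x)
  have h2 : IsSelfAdjoint (Complex.I • (star x - x)) := by
    rw [IsSelfAdjoint, star_smul, star_sub, star_star, Complex.star_def, Complex.conj_I, neg_smul,
      ← smul_neg, neg_sub]
  have h3 := h.star_of_selfAdjoint hk (LU_smul Complex.I (LU_sub hxs hx)) h2
  rw [map_smul, map_sub, smul_eq_mul] at h3
  rw [map_add] at h1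
  have i1 := congrArg Complex.im h1
  have i3 := congrArg Complex.im h3
  simp only [Complex.star_def, map_mul, map_add, map_sub, Complex.conj_I, Complex.conj_im,
    Complex.conj_re, Complex.add_im, Complex.mul_im, Complex.neg_im, Complex.neg_re, Complex.I_re,
    Complex.I_im, Complex.sub_re, Complex.sub_im] at i1 i3
  apply Complex.ext
  · simp only [Complex.star_def, Complex.conj_re]
    linarith
  · simp only [Complex.star_def, Complex.conj_im]
    linarith

/-- Positive functionals on a unital algebra are bounded by their value at `1`. -/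
theorem norm_le_of_nonneg {φ : M →ₗ[ℂ] ℂ} (hφ : ∀ x, 0 ≤ φ (star x * x)) (a : M) :
    ‖φ a‖ ≤ ‖a‖ * (φ 1).re := by
  let _ := CStarAlgebra.spectralOrder M
  have _ := CStarAlgebra.spectralOrderedRing M
  have h1 : 0 ≤ (φ 1).re := by
    have := hφ 1
    rw [star_one, one_mul] at this
    exact (Complex.nonneg_iff.1 this).1
  rcases eq_or_ne (φ a) 0 with h0 | h0
  · rw [h0, norm_zero]
    exact mul_nonneg (norm_nonneg _) h1
  obtain ⟨μ, hμ, hμ2⟩ : ∃ μ : ℂ, ‖μ‖ = 1 ∧ μ * φ a = (‖φ a‖ : ℂ) := by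
    have h2 : (‖φ a‖ : ℂ) ≠ 0 := by
      rw [Ne, Complex.ofReal_eq_zero]
      exact norm_ne_zero_iff.2 h0
    refine ⟨(starRingEnd ℂ) (φ a) / (‖φ a‖ : ℂ), ?_, ?_⟩
    · rw [norm_div, RCLike.norm_conj, Complex.norm_real, norm_norm,
        div_self (norm_ne_zero_iff.2 h0)]
    · rw [div_mul_eq_mul_div, mul_comm ((starRingEnd ℂ) (φ a)), Complex.mul_conj,
        Complex.normSq_eq_norm_sq, div_eq_iff h2]
      push_cast
      ring
  have hs : IsSelfAdjoint (μ • a + star (μ • a)) := IsSelfAdjoint.add_star_self _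
  have h2 := IsSelfAdjoint.le_algebraMap_norm_self hs
  have h3 : ‖μ • a + star (μ • a)‖ ≤ 2 * ‖a‖ := by
    refine (norm_add_le _ _).trans ?_
    rw [norm_star, norm_smul, hμ, one_mul]
    linarith
  have h4 : μ • a + star (μ • a) ≤ algebraMap ℝ M (2 * ‖a‖) :=
    h2.trans (algebraMap_mono M h3)
  rw [← sub_nonneg, CStarAlgebra.nonneg_iff_eq_star_mul_self] at h4
  obtain ⟨y, hy⟩ := h4
  have h5 := (Complex.nonneg_iff.1 (hφ y)).1
  rw [← hy, map_sub, map_add, PureExt.IsPos.map_star hφ, map_smul, smul_eq_mul, hμ2] at h5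
  have h6 : algebraMap ℝ M (2 * ‖a‖) = ((2 * ‖a‖ : ℝ) : ℂ) • (1 : M) := by
    rw [Algebra.algebraMap_eq_smul_one, Complex.coe_smul]
  rw [h6, map_smul, smul_eq_mul, Complex.sub_re, Complex.re_ofReal_mul, Complex.add_re,
    Complex.star_def, Complex.conj_re, Complex.ofReal_re] at h5
  linarith

theorem isPos_sandwich {z d : M} (hp : IsPos z) (hds : IsSelfAdjoint d) : IsPos (d * z * d) := by
  obtain ⟨y, rfl⟩ := hp
  refine ⟨y * d, ?_⟩
  rw [star_mul, hds.star_eq]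
  noncomm_ring

theorem IsLTrace.norm_le (h : IsLTrace k τ) (hk : IsSelfAdjoint k) {d : M} (hd : d ∈ LU k)
    (hds : IsSelfAdjoint d) (z : M) : ‖τ (d * z * d)‖ ≤ ‖z‖ * (τ (d * d)).re := by
  have h1 := norm_le_of_nonneg (φ := τ ∘ₗ (LinearMap.mulRight ℂ d) ∘ₗ (LinearMap.mulLeft ℂ d))
    (fun x => h.nonneg_of_isPos hk (LU_sandwich hk hd hd _) (isPos_sandwich ⟨x, rfl⟩ hds)) z
  simpa using h1

theorem IsLTrace.re_le (h : IsLTrace k τ) (hk : IsSelfAdjoint k) {z : M} (hz : z ∈ LU k)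
    (hp : IsPos z) {d : M} (hd : d ∈ LU k) (hds : IsSelfAdjoint d) (hd1 : ‖d‖ ≤ 1) :
    0 ≤ (τ (d * z * d)).re ∧ (τ (d * z * d)).re ≤ (τ z).re := by
  refine ⟨(Complex.nonneg_iff.1 (h.nonneg_of_isPos hk (LU_sandwich hk hd hd _)
    (isPos_sandwich hp hds))).1, ?_⟩
  obtain ⟨s, hs, hsa, -, rfl⟩ := LU_exists_sqrt hk hz hp
  let _ := CStarAlgebra.spectralOrder M
  have _ := CStarAlgebra.spectralOrderedRing M
  have e1 : τ (d * (s * s) * d) = τ (s * d * (d * s)) := by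
    have e2 : d * (s * s) * d = (d * s) * (s * d) := by noncomm_ring
    rw [e2, h.trace _ (LU_mul hd hs) _ (LU_mul hs hd)]
  have h2 : d * d ≤ 1 := by
    have h3 := CStarAlgebra.star_mul_le_algebraMap_norm_sq (a := d)
    rw [hds.star_eq] at h3
    refine h3.trans ?_
    rw [← map_one (algebraMap ℝ M)]
    exact algebraMap_mono M (by nlinarith [norm_nonneg d])
  have h4 : IsPos (s * (1 - d * d) * s) :=
    isPos_sandwich (CStarAlgebra.nonneg_iff_eq_star_mul_self.1 (sub_nonneg.2 h2)) hsa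
  have h5 : s * (1 - d * d) * s = s * s - s * d * (d * s) := by noncomm_ring
  have h6 := (Complex.nonneg_iff.1 (h.nonneg_of_isPos hk (LU_sandwich hk hs hs _) h4)).1
  rw [h5, map_sub, Complex.sub_re] at h6
  rw [e1]
  linarith

end LTr

end Vale.Agent.P095.NU
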