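import Vale.Agent.P095.NU.Defs
import Vale.Agent.P095.SimpleNorm

/-!
# P095, target T7, row G3: the norm of `x * diag a` is `‖q x‖ * ‖a‖`
-/

open Filter Topology TopologicalSpace
open scoped BoundedContinuousFunction ComplexOrder

namespace Vale.Agent.P095.NU

open Vale.Agent.P101 SimpleNorm

universe u v w

namespace NDiag

/-- the main estimate for selfadjoint elements -/
theorem mul_le_norm {K : Type*} [CStarAlgebra K] {a b : K}
    (sa : IsSelfAdjoint a) (sb : IsSelfAdjoint b) (hab : Commute a b) {c d : ℝ} (hc0 : 0 < c)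
    (hd0 : 0 < d) (hpq : cfc (fcut c) a * cfc (fcut d) b ≠ 0) : c * d ≤ ‖a * b‖ := by
  have e1 : cfc (hcut c) a * a * cfc (fcut c) a = cfc (fcut c) a := by
    have h1 : cfc (hcut c) a * a = cfc (fun t => hcut c t * t) a := by
      rw [cfc_mul (hcut c) (fun t => t) a (continuous_hcut hc0).continuousOn
        continuousOn_id, cfc_id' ℝ a sa]
    rw [h1, ← cfc_mul (fun t => hcut c t * t) (fcut c) a
      ((continuous_hcut hc0).mul continuous_id).continuousOn (continuous_fcut c).continuousOn]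
    exact cfc_congr fun t _ => hcut_mul hc0 t
  have e2 : cfc (hcut d) b * b * cfc (fcut d) b = cfc (fcut d) b := by
    have h1 : cfc (hcut d) b * b = cfc (fun t => hcut d t * t) b := by
      rw [cfc_mul (hcut d) (fun t => t) b (continuous_hcut hd0).continuousOn
        continuousOn_id, cfc_id' ℝ b sb]
    rw [h1, ← cfc_mul (fun t => hcut d t * t) (fcut d) b
      ((continuous_hcut hd0).mul continuous_id).continuousOn (continuous_fcut d).continuousOn]
    exact cfc_congr fun t _ => hcut_mul hd0 t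
  have k1 : Commute a (cfc (hcut d) b) := (sb.commute_cfc hab.symm (hcut d)).symm
  have k2 : Commute (cfc (fcut c) a) b := sa.commute_cfc hab (fcut c)
  have k3 : Commute (cfc (fcut c) a) (cfc (hcut d) b) := sa.commute_cfc k1 (fcut c)
  set p := cfc (fcut c) a with hpdef
  set q := cfc (fcut d) b with hqdef
  set r := cfc (hcut c) a with hrdef
  set s := cfc (hcut d) b with hsdef
  have key : p * q = (r * s) * (a * b) * (p * q) := by
    have c1 : a * s = s * a := k1.eq
    have c2 : p * b = b * p := k2.eq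
    have c3 : p * s = s * p := k3.eq
    calc p * q = (r * a * p) * (s * b * q) := by rw [e1, e2]
      _ = r * a * (p * s) * b * q := by noncomm_ring
      _ = r * (a * s) * (p * b) * q := by rw [c3]; noncomm_ring
      _ = (r * s) * (a * b) * (p * q) := by rw [c1, c2]; noncomm_ring
  have nr : ‖r‖ ≤ 1 / c := norm_cfc_le (by positivity) fun x _ => by
    rw [Real.norm_eq_abs]; exact abs_hcut_le hc0 x
  have ns : ‖s‖ ≤ 1 / d := norm_cfc_le (by positivity) fun x _ => by
    rw [Real.norm_eq_abs]; exact abs_hcut_le hd0 x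
  have hpos : 0 < ‖p * q‖ := norm_pos_iff.mpr hpq
  have h1 : ‖p * q‖ ≤ (1 / c * (1 / d)) * ‖a * b‖ * ‖p * q‖ := by
    calc ‖p * q‖ = ‖(r * s) * (a * b) * (p * q)‖ := by rw [← key]
      _ ≤ ‖r * s‖ * ‖a * b‖ * ‖p * q‖ := by
          refine le_trans (norm_mul_le _ _) ?_
          gcongr
          exact norm_mul_le _ _
      _ ≤ (1 / c * (1 / d)) * ‖a * b‖ * ‖p * q‖ := by
          have : ‖r * s‖ ≤ 1 / c * (1 / d) :=
            le_trans (norm_mul_le _ _) (mul_le_mul nr ns (norm_nonneg _) (by positivity))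
          gcongr
  have h2 : 1 ≤ (1 / c * (1 / d)) * ‖a * b‖ := by
    by_contra hcon
    push Not at hcon
    nlinarith
  have h3 : (1 / c * (1 / d)) * ‖a * b‖ = ‖a * b‖ / (c * d) := by field_simp
  rw [h3, le_div_iff₀ (by positivity), one_mul] at h2
  exact h2

theorem map_cfc' {K L : Type*} [CStarAlgebra K] [CStarAlgebra L] (φ : K →⋆ₐ[ℂ] L) {f : ℝ → ℝ}
    (hf : Continuous f) {a : K} (ha : IsSelfAdjoint a) : cfc f (φ a) = φ (cfc f a) := by
  have hφ : Continuous φ := AddMonoidHomClass.continuous_of_bound φ 1 fun x => by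
    rw [one_mul]
    exact NonUnitalStarAlgHom.norm_apply_le φ x
  exact (StarAlgHomClass.map_cfc (R := ℝ) (S := ℂ) φ f a hf.continuousOn hφ ha (ha.map φ)).symm

/-- the abstract form -/
theorem le_norm_mul {M K C B : Type*} [CStarAlgebra M] [CStarAlgebra K] [CStarAlgebra C]
    [CStarAlgebra B] (D : M →⋆ₐ[ℂ] K) (ι : C →⋆ₐ[ℂ] K) (q : C →⋆ₐ[ℂ] B)
    (hcomm : ∀ x m, Commute (ι x) (D m)) {A : Set M} (hl : ∀ m, ∀ x ∈ A, m * x ∈ A)
    (hr : ∀ m, ∀ x ∈ A, x * m ∈ A) (hq : ∀ x, ∀ a ∈ A, a ≠ 0 → ι x * D a = 0 → q x = 0)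
    (x : C) (hx : IsSelfAdjoint x) (a : M) (ha : a ∈ A) (hsa : IsSelfAdjoint a) :
    ‖q x‖ * ‖a‖ ≤ ‖ι x * D a‖ := by
  have main : ∀ c d : ℝ, 0 < c → c < ‖q x‖ → 0 < d → d < ‖a‖ → c * d ≤ ‖ι x * D a‖ := by
    intro c d hc0 hc hd0 hd
    have hqx : IsSelfAdjoint (q x) := hx.map q
    have hx' : IsSelfAdjoint (ι x) := hx.map ι
    have hda : IsSelfAdjoint (D a) := hsa.map D
    refine mul_le_norm hx' hda (hcomm x a) hc0 hd0 ?_
    intro h
    rw [map_cfc' D (continuous_fcut d) hsa, map_cfc' ι (continuous_fcut c) hx] at h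
    have h6 : cfc (fcut d) a ∈ A := by
      have e2 : cfc (hcut d) a * a * cfc (fcut d) a = cfc (fcut d) a := by
        have h1 : cfc (hcut d) a * a = cfc (fun t => hcut d t * t) a := by
          rw [cfc_mul (hcut d) (fun t => t) a (continuous_hcut hd0).continuousOn
            continuousOn_id, cfc_id' ℝ a hsa]
        rw [h1, ← cfc_mul (fun t => hcut d t * t) (fcut d) a
          ((continuous_hcut hd0).mul continuous_id).continuousOn (continuous_fcut d).continuousOn]
        exact cfc_congr fun t _ => hcut_mul hd0 t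
      rw [← e2]
      exact hr _ _ (hl _ _ ha)
    have h7 := hq _ _ h6 (cut_ne_zero hsa hd0.le hd) h
    rw [← map_cfc' q (continuous_fcut c) hx] at h7
    exact cut_ne_zero hqx hc0.le hc h7
  rcases (norm_nonneg (q x)).eq_or_lt with h | h
  · rw [← h, zero_mul]; exact norm_nonneg _
  rcases (norm_nonneg a).eq_or_lt with h' | h'
  · rw [← h', mul_zero]; exact norm_nonneg _
  have h1 : ∀ t : ℝ, 0 < t → t < 1 → (t * ‖q x‖) * (t * ‖a‖) ≤ ‖ι x * D a‖ := fun t ht ht1 =>
    main _ _ (by positivity) (by nlinarith) (by positivity) (by nlinarith)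
  have h2 : Tendsto (fun t : ℝ => (t * ‖q x‖) * (t * ‖a‖)) (𝓝[<] 1) (𝓝 ((1 * ‖q x‖) * (1 * ‖a‖))) := by
    refine Tendsto.mono_left ?_ nhdsWithin_le_nhds
    exact (Continuous.tendsto (by fun_prop) 1)
  rw [one_mul, one_mul] at h2
  refine le_of_tendsto h2 ?_
  have h3 : ∀ᶠ t : ℝ in 𝓝[<] 1, t ∈ Set.Ioo (0:ℝ) 1 := Ioo_mem_nhdsLT one_pos
  exact h3.mono fun t ht => h1 t ht.1 ht.2

theorem le_norm_mul' {M K C B : Type*} [CStarAlgebra M] [CStarAlgebra K] [CStarAlgebra C]
    [CStarAlgebra B] (D : M →⋆ₐ[ℂ] K) (ι : C →⋆ₐ[ℂ] K) (q : C →⋆ₐ[ℂ] B)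
    (hcomm : ∀ x m, Commute (ι x) (D m)) {A : Set M} (hl : ∀ m, ∀ x ∈ A, m * x ∈ A)
    (hr : ∀ m, ∀ x ∈ A, x * m ∈ A) (hq : ∀ x, ∀ a ∈ A, a ≠ 0 → ι x * D a = 0 → q x = 0)
    (x : C) (a : M) (ha : a ∈ A) : ‖q x‖ * ‖a‖ ≤ ‖ι x * D a‖ := by
  have key := le_norm_mul D ι q hcomm hl hr hq (star x * x) (IsSelfAdjoint.star_mul_self x)
    (star a * a) (hl _ _ ha) (IsSelfAdjoint.star_mul_self a)
  have h1 : ι (star x * x) * D (star a * a) = star (ι x * D a) * (ι x * D a) := by
    have h3 := (hcomm (star x * x) (star a)).eq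
    rw [map_mul D, ← mul_assoc, h3, map_star, map_mul ι, map_star, star_mul]
    simp only [mul_assoc]
  rw [h1, CStarRing.norm_star_mul_self, CStarRing.norm_star_mul_self, map_mul, map_star,
    CStarRing.norm_star_mul_self] at key
  have h5 : (‖q x‖ * ‖a‖) ^ 2 ≤ ‖ι x * D a‖ ^ 2 := by nlinarith
  exact (pow_le_pow_iff_left₀ (by positivity) (norm_nonneg _) two_ne_zero).1 h5

section Sys

variable {G : Type*} [Group G] {ω : Ultrafilter ℕ} {M : Type u} [CStarAlgebra M]
  {A : Set M} {α : G →* (M ≃⋆ₐ[ℂ] M)} {B : Type u} [CStarAlgebra B]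
  {q : centralSeq ω M →⋆ₐ[ℂ] B} {β : G →* (B ≃⋆ₐ[ℂ] B)}

theorem comm (x : centralSeq ω M) (m : M) :
    (x : Ultra ω M) * Ultra.diag ω m = Ultra.diag ω m * (x : Ultra ω M) :=
  (mem_centralSeq_iff.1 x.2 m).eq.symm

/-- if `x` kills one nonzero element of `A`, then it kills all -/
theorem q_eq_zero (R : RelSys ω A α q β) (x : centralSeq ω M) {a : M} (ha : a ∈ A) (ha0 : a ≠ 0)
    (h : (x : Ultra ω M) * Ultra.diag ω a = 0) : q x = 0 := by
  rw [R.ker]
  intro b hb
  rw [← norm_eq_zero]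
  refine le_antisymm (le_of_forall_pos_le_add fun ε hε => ?_) (norm_nonneg _)
  obtain ⟨n, u, v, huv⟩ := R.core.simple a ha ha0 b hb (ε / (‖(x : Ultra ω M)‖ + 1))
    (div_pos hε (by positivity))
  have h1 : (x : Ultra ω M) * Ultra.diag ω (∑ i, u i * a * v i) = 0 := by
    rw [map_sum, Finset.mul_sum]
    refine Finset.sum_eq_zero fun i _ => ?_
    rw [map_mul, map_mul, ← mul_assoc, ← mul_assoc, comm x (u i), mul_assoc (Ultra.diag ω (u i)),
      h, mul_zero, zero_mul]
  have h2 : (x : Ultra ω M) * Ultra.diag ω b =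
      (x : Ultra ω M) * Ultra.diag ω (b - ∑ i, u i * a * v i) := by
    rw [map_sub, mul_sub, h1, sub_zero]
  rw [h2, zero_add]
  refine (norm_mul_le _ _).trans ?_
  rw [Ultra.norm_diag]
  have h3 : ‖(x : Ultra ω M)‖ * ‖b - ∑ i, u i * a * v i‖ ≤
      (‖(x : Ultra ω M)‖ + 1) * (ε / (‖(x : Ultra ω M)‖ + 1)) :=
    mul_le_mul (by linarith) huv.le (norm_nonneg _) (by positivity)
  refine h3.trans (le_of_eq ?_)
  field_simp

end Sys

end NDiag

namespace NormDiag

open SimpleNorm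

variable {G : Type*} [Group G] {ω : Ultrafilter ℕ} {M : Type u} [CStarAlgebra M]
    {A : Set M} {α : G →* (M ≃⋆ₐ[ℂ] M)} {B : Type u} [CStarAlgebra B]
    {q : centralSeq ω M →⋆ₐ[ℂ] B} {β : G →* (B ≃⋆ₐ[ℂ] B)}

/-- no zero divisors between `A` and the relative central sequence algebra -/
theorem eq_zero_or (R : RelSys ω A α q β) (x : centralSeq ω M) {a : M} (ha : a ∈ A)
    (h : (x : Ultra ω M) * Ultra.diag ω a = 0) : q x = 0 ∨ a = 0 := by
  by_cases ha0 : a = 0
  · exact Or.inr ha0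
  left
  have hcomm : ∀ (b : M), Ultra.diag ω b * (x : Ultra ω M) = x * Ultra.diag ω b := fun b =>
    (mem_centralSeq_iff.1 x.2 b).eq
  rw [R.ker]
  intro b hb
  rw [← norm_eq_zero]
  refine le_antisymm (le_of_forall_pos_le_add fun ε hε => ?_) (norm_nonneg _)
  have hpos : 0 < ‖(x : Ultra ω M)‖ + 1 := by positivity
  obtain ⟨n, u, v, huv⟩ := R.core.simple a ha ha0 b hb (ε / (‖(x : Ultra ω M)‖ + 1))
    (by positivity)
  have h1 : (x : Ultra ω M) * Ultra.diag ω (∑ i, u i * a * v i) = 0 := by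
    rw [map_sum, Finset.mul_sum]
    refine Finset.sum_eq_zero fun i _ => ?_
    rw [map_mul, map_mul]
    calc (x : Ultra ω M) * (Ultra.diag ω (u i) * Ultra.diag ω a * Ultra.diag ω (v i))
        = ((x : Ultra ω M) * Ultra.diag ω (u i)) * Ultra.diag ω a * Ultra.diag ω (v i) := by
          simp only [mul_assoc]
      _ = Ultra.diag ω (u i) * ((x : Ultra ω M) * Ultra.diag ω a) * Ultra.diag ω (v i) := by
          rw [← hcomm]
          simp only [mul_assoc]
      _ = 0 := by rw [h, mul_zero, zero_mul]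
  have h2 : (x : Ultra ω M) * Ultra.diag ω b =
      x * Ultra.diag ω (b - ∑ i, u i * a * v i) := by
    rw [map_sub, mul_sub, h1, sub_zero]
  rw [h2, zero_add]
  refine (norm_mul_le _ _).trans ?_
  rw [Ultra.norm_diag]
  calc ‖(x : Ultra ω M)‖ * ‖b - ∑ i, u i * a * v i‖
      ≤ (‖(x : Ultra ω M)‖ + 1) * (ε / (‖(x : Ultra ω M)‖ + 1)) := by
        refine mul_le_mul (by linarith) huv.le (norm_nonneg _) hpos.le
    _ = ε := by field_simp

theorem cut_eq {K : Type*} [CStarAlgebra K] {a : K} (sa : IsSelfAdjoint a) {c : ℝ} (hc0 : 0 < c) :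
    cfc (hcut c) a * a * cfc (fcut c) a = cfc (fcut c) a := by
  have h1 : cfc (hcut c) a * a = cfc (fun t => hcut c t * t) a := by
    rw [cfc_mul (hcut c) (fun t => t) a (continuous_hcut hc0).continuousOn
      continuousOn_id, cfc_id' ℝ a sa]
  rw [h1, ← cfc_mul (fun t => hcut c t * t) (fcut c) a
    ((continuous_hcut hc0).mul continuous_id).continuousOn (continuous_fcut c).continuousOn]
  exact cfc_congr fun t _ => hcut_mul hc0 t

theorem lower (R : RelSys ω A α q β) (x : centralSeq ω M) (a : M) (ha : a ∈ A)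
    (sx : IsSelfAdjoint x) (sa : IsSelfAdjoint a) {c d : ℝ} (hc0 : 0 < c) (hcx : c < ‖q x‖)
    (hd0 : 0 < d) (hda : d < ‖a‖) : c * d ≤ ‖(x : Ultra ω M) * Ultra.diag ω a‖ := by
  have sqx : IsSelfAdjoint (q x) := by
    rw [isSelfAdjoint_iff, ← map_star, sx.star_eq]
  have hp := cut_ne_zero sqx hc0.le hcx
  have hq := cut_ne_zero sa hd0.le hda
  have e1 := cut_eq sx hc0
  have e2 := cut_eq sa hd0
  have hqp : q (cfc (fcut c) x) = cfc (fcut c) (q x) :=
    StarAlgHomClass.map_cfc q (fcut c) x (continuous_fcut c).continuousOn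
      (hφ := AddMonoidHomClass.continuous_of_bound q 1 fun y => by
        rw [one_mul]; exact NonUnitalStarAlgHom.norm_apply_le q y)
  have hfA : cfc (fcut d) a ∈ A := by
    rw [← e2]
    exact R.core.right _ _ (R.core.left _ _ ha)
  set p : centralSeq ω M := cfc (fcut c) x with hpdef
  set f := cfc (fcut d) a with hfdef
  set r : centralSeq ω M := cfc (hcut c) x with hrdef
  set s := cfc (hcut d) a with hsdef
  have hpf : (p : Ultra ω M) * Ultra.diag ω f ≠ 0 := fun h =>
    (eq_zero_or R p hfA h).elim (fun h1 => hp (by rw [← hqp]; exact h1)) hq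
  have hcomm : ∀ (y : centralSeq ω M) (b : M),
      Ultra.diag ω b * (y : Ultra ω M) = y * Ultra.diag ω b := fun y b =>
    (mem_centralSeq_iff.1 y.2 b).eq
  have e1' : (r : Ultra ω M) * x * p = p := congrArg Subtype.val e1
  have e2' : Ultra.diag ω s * Ultra.diag ω a * Ultra.diag ω f = Ultra.diag ω f := by
    rw [← map_mul, ← map_mul, e2]
  have key : (p : Ultra ω M) * Ultra.diag ω f =
      ((r : Ultra ω M) * Ultra.diag ω s) * (x * Ultra.diag ω a) * (p * Ultra.diag ω f) := by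
    calc (p : Ultra ω M) * Ultra.diag ω f
        = ((r : Ultra ω M) * x * p) * (Ultra.diag ω s * Ultra.diag ω a * Ultra.diag ω f) := by
          rw [e1', e2']
      _ = (r : Ultra ω M) * x * (p * Ultra.diag ω (s * a)) * Ultra.diag ω f := by
          rw [map_mul]
          simp only [mul_assoc]
      _ = (r : Ultra ω M) * (x * Ultra.diag ω s) * Ultra.diag ω a * p * Ultra.diag ω f := by
          rw [← hcomm, map_mul]
          simp only [mul_assoc]
      _ = _ := by
          rw [← hcomm x s]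
          simp only [mul_assoc]
  have nr : ‖(r : Ultra ω M)‖ ≤ 1 / c := by
    have : ‖r‖ ≤ 1 / c := norm_cfc_le (by positivity) fun y _ => by
      rw [Real.norm_eq_abs]; exact abs_hcut_le hc0 y
    exact this
  have ns : ‖Ultra.diag ω s‖ ≤ 1 / d := by
    rw [Ultra.norm_diag]
    exact norm_cfc_le (by positivity) fun x _ => by
      rw [Real.norm_eq_abs]; exact abs_hcut_le hd0 x
  have hpos : 0 < ‖(p : Ultra ω M) * Ultra.diag ω f‖ := norm_pos_iff.mpr hpf
  have h1 : ‖(p : Ultra ω M) * Ultra.diag ω f‖ ≤ (1 / c * (1 / d)) *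
      ‖(x : Ultra ω M) * Ultra.diag ω a‖ * ‖(p : Ultra ω M) * Ultra.diag ω f‖ := by
    calc ‖(p : Ultra ω M) * Ultra.diag ω f‖
        = ‖((r : Ultra ω M) * Ultra.diag ω s) * (x * Ultra.diag ω a) *
          (p * Ultra.diag ω f)‖ := by rw [← key]
      _ ≤ ‖(r : Ultra ω M) * Ultra.diag ω s‖ * ‖(x : Ultra ω M) * Ultra.diag ω a‖ *
          ‖(p : Ultra ω M) * Ultra.diag ω f‖ := by
          refine le_trans (norm_mul_le _ _) ?_
          gcongr
          exact norm_mul_le _ _
      _ ≤ (1 / c * (1 / d)) * ‖(x : Ultra ω M) * Ultra.diag ω a‖ *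
          ‖(p : Ultra ω M) * Ultra.diag ω f‖ := by
          have : ‖(r : Ultra ω M) * Ultra.diag ω s‖ ≤ 1 / c * (1 / d) :=
            le_trans (norm_mul_le _ _) (mul_le_mul nr ns (norm_nonneg _) (by positivity))
          gcongr
  have h2 : 1 ≤ (1 / c * (1 / d)) * ‖(x : Ultra ω M) * Ultra.diag ω a‖ := by
    by_contra hcon
    push Not at hcon
    nlinarith
  have h3 : (1 / c * (1 / d)) * ‖(x : Ultra ω M) * Ultra.diag ω a‖ =
      ‖(x : Ultra ω M) * Ultra.diag ω a‖ / (c * d) := by field_simp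
  rw [h3, le_div_iff₀ (by positivity), one_mul] at h2
  exact h2

end NormDiag

open NDiag

theorem norm_mul_diag {G : Type*} [Group G] {ω : Ultrafilter ℕ} {M : Type u} [CStarAlgebra M]
    {A : Set M} {α : G →* (M ≃⋆ₐ[ℂ] M)} {B : Type u} [CStarAlgebra B]
    {q : centralSeq ω M →⋆ₐ[ℂ] B} {β : G →* (B ≃⋆ₐ[ℂ] B)} (R : RelSys ω A α q β)
    (x : centralSeq ω M) (a : M) (ha : a ∈ A) :
    ‖(x : Ultra ω M) * Ultra.diag ω a‖ = ‖q x‖ * ‖a‖ := by
  refine le_antisymm ?_ ?_
  · obtain ⟨x', hx', hn⟩ := R.lift (q x)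
    have h1 : ((x - x' : centralSeq ω M) : Ultra ω M) * Ultra.diag ω a = 0 :=
      (R.ker _).1 (by rw [map_sub, hx', sub_self]) a ha
    have h2 : (x : Ultra ω M) * Ultra.diag ω a = (x' : Ultra ω M) * Ultra.diag ω a := by
      have : ((x - x' : centralSeq ω M) : Ultra ω M) = (x : Ultra ω M) - x' := rfl
      rw [this, sub_mul, sub_eq_zero] at h1
      exact h1
    rw [h2]
    refine (norm_mul_le _ _).trans ?_
    rw [Ultra.norm_diag]
    exact mul_le_mul_of_nonneg_right (le_of_eq hn) (norm_nonneg _)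
  · exact le_norm_mul' (Ultra.diag ω) (centralSeq ω M).subtype q (fun x m => comm x m)
      R.core.left R.core.right (fun x b hb hb0 h => q_eq_zero R x hb hb0 h) x a ha

end Vale.Agent.P095.NU
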