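import Vale.Agent.P095.NU.Defs
import Vale.Agent.P095.Act

/-!
# P095, T7, row G33: the hypothesis of the intertwining argument, from the flip unitaries
-/

open Filter Topology TopologicalSpace
open scoped BoundedContinuousFunction ComplexOrder

namespace Vale.Agent.P095.NU

open Vale.Agent.P101

universe u v w

namespace Approx

theorem decomp {A : Type u} [NonUnitalCStarAlgebra A] (a : Unitization ℂ A) :
    a = algebraMap ℂ (Unitization ℂ A) a.fst + ((a.snd : A) : Unitization ℂ A) := by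
  rw [Unitization.algebraMap_eq_inl]
  exact (Unitization.inl_fst_add_inr_snd_eq a).symm

theorem inr_sum {A : Type u} [NonUnitalCStarAlgebra A] {J : Type*} (S : Finset J) (f : J → A) :
    ((∑ i ∈ S, f i : A) : Unitization ℂ A) = ∑ i ∈ S, ((f i : A) : Unitization ℂ A) := by
  classical
  induction S using Finset.induction_on with
  | empty => simp
  | insert a s ha ih => rw [Finset.sum_insert ha, Finset.sum_insert ha, Unitization.inr_add, ih]

theorem est {W : Type*} [CStarAlgebra W] {J : Type*} (S : Finset J) (P Q : J → W) (b V : W)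
    (hV : V ∈ unitary W) (c : ℂ) {ε δ : ℝ} (hε : 0 < ε)
    (h1 : ‖algebraMap ℂ W c + ∑ i ∈ S, P i - b‖ ≤ ε / 4)
    (h2 : ∀ i ∈ S, ‖star V * P i * V - Q i‖ ≤ δ) (h3 : (S.card : ℝ) * δ ≤ ε / 4) :
    ‖star V * b * V - (algebraMap ℂ W c + ∑ i ∈ S, Q i)‖ < ε := by
  have h7 : star V * b * V - (algebraMap ℂ W c + ∑ i ∈ S, Q i) =
      - (star V * (algebraMap ℂ W c + ∑ i ∈ S, P i - b) * V) +
      ∑ i ∈ S, (star V * P i * V - Q i) := by
    rw [Finset.sum_sub_distrib, ← Finset.sum_mul, ← Finset.mul_sum]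
    have h8 : star V * algebraMap ℂ W c * V = algebraMap ℂ W c := by
      rw [← Algebra.commutes, mul_assoc, (Unitary.mem_iff.1 hV).1, mul_one]
    rw [mul_sub, mul_add, sub_mul, add_mul, h8]
    abel
  rw [h7]
  have hU1 : ‖V‖ ≤ 1 ∧ ‖star V‖ ≤ 1 := by
    rcases subsingleton_or_nontrivial W with hTs | hTs
    · rw [Subsingleton.elim V 0, star_zero, norm_zero]
      norm_num
    · rw [norm_star, CStarRing.norm_of_mem_unitary hV]
      norm_num
  have h9 : ‖- (star V * (algebraMap ℂ W c + ∑ i ∈ S, P i - b) * V)‖ ≤ ε / 4 := by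
    rw [norm_neg]
    calc _ ≤ ‖star V‖ * ‖algebraMap ℂ W c + ∑ i ∈ S, P i - b‖ * ‖V‖ := norm_mul₃_le
      _ ≤ 1 * ‖algebraMap ℂ W c + ∑ i ∈ S, P i - b‖ * 1 := by
          gcongr
          · exact hU1.2
          · exact hU1.1
      _ ≤ ε / 4 := by rwa [one_mul, mul_one]
  have h10 : ‖∑ i ∈ S, (star V * P i * V - Q i)‖ ≤ ε / 4 := by
    calc _ ≤ ∑ i ∈ S, δ := (norm_sum_le _ _).trans (Finset.sum_le_sum h2)
      _ = (S.card : ℝ) * δ := by rw [Finset.sum_const, nsmul_eq_mul]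
      _ ≤ ε / 4 := h3
  refine (norm_add_le _ _).trans_lt ?_
  linarith

theorem approx {A : Type u} [NonUnitalCStarAlgebra A] {Z : Type v} [CStarAlgebra Z] {T : Type w}
    [NonUnitalCStarAlgebra T] {t : A →ₗ[ℂ] Z →ₗ[ℂ] T} (ht : IsTensorNU t) (b : Unitization ℂ T)
    {ε : ℝ} (hε : 0 < ε) : ∃ S : Finset (A × Z),
      ‖algebraMap ℂ (Unitization ℂ T) b.fst + ∑ i ∈ S, ((t i.1 i.2 : T) : Unitization ℂ T) - b‖
        < ε := by
  obtain ⟨u, hu⟩ := ht.dense.exists_dist_lt b.snd hε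
  obtain ⟨S, rfl⟩ := TensorProduct.exists_finset u
  refine ⟨S, ?_⟩
  rw [dist_comm, dist_eq_norm, map_sum] at hu
  have h1 : algebraMap ℂ (Unitization ℂ T) b.fst +
      ∑ i ∈ S, ((t i.1 i.2 : T) : Unitization ℂ T) - b =
      ((∑ i ∈ S, t i.1 i.2 - b.snd : T) : Unitization ℂ T) := by
    have h2 : algebraMap ℂ (Unitization ℂ T) b.fst = b - ((b.snd : T) : Unitization ℂ T) :=
      eq_sub_of_add_eq (decomp b).symm
    rw [Unitization.inr_sub, inr_sum, h2]
    abel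
  rw [h1, Unitization.norm_inr]
  simpa using hu

theorem bound {κ n ε : ℝ} (hκ : 0 < κ) (hn : n ≤ κ) (hε : 0 < ε) :
    n * (ε / (4 * κ)) ≤ ε / 4 := by
  calc n * (ε / (4 * κ)) ≤ κ * (ε / (4 * κ)) :=
        mul_le_mul_of_nonneg_right hn (by positivity)
    _ = ε / 4 := by field_simp

theorem card_le {J : Type*} (E : Finset J) (f : J → ℕ) (b : J) (hb : b ∈ E) :
    (f b : ℝ) ≤ 1 + ∑ b ∈ E, (f b : ℝ) := by
  have : (f b : ℝ) ≤ ∑ b ∈ E, (f b : ℝ) :=
    Finset.single_le_sum (f := fun b => (f b : ℝ)) (fun _ _ => Nat.cast_nonneg _) hb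
  linarith

theorem exists_bound {J : Type*} (E : Finset J) (f : J → ℕ) {ε : ℝ} (hε : 0 < ε) :
    ∃ κ : ℝ, 0 < κ ∧ ∀ b ∈ E, (f b : ℝ) * (ε / (4 * κ)) ≤ ε / 4 := by
  refine ⟨1 + ∑ b ∈ E, (f b : ℝ), by positivity, fun b hb => ?_⟩
  exact bound (by positivity) (card_le E f b hb) hε

theorem eventually_of_ultra {A : Type u} [CStarAlgebra A] {T : Type w} [CStarAlgebra T]
    {ω : Ultrafilter ℕ} (ι : A →⋆ₐ[ℂ] T) (y : ℕ →ᵇ T) (b : T) (c : A) {J : Type*} (S : Finset J)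
    (a : J → A) (r : J → ℕ →ᵇ A) {ε : ℝ}
    (h : ‖Ultra.mk ω (star y * Ultra.const b * y) - (Ultra.diag ω (ι c) +
      ∑ i ∈ S, Ultra.diag ω (ι (a i)) * ultraMap ω ι (Ultra.mk ω (r i)))‖ < ε) :
    ∀ᶠ n in (ω : Filter ℕ), ∃ a, ‖star (y n) * b * y n - ι a‖ < ε := by
  let d : ℕ →ᵇ A := Ultra.const c + ∑ i ∈ S, Ultra.const (a i) * r i
  have h5 : Ultra.mk ω (seqMap ι d) = Ultra.diag ω (ι c) +
      ∑ i ∈ S, Ultra.diag ω (ι (a i)) * ultraMap ω ι (Ultra.mk ω (r i)) := by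
    show Ultra.mk ω (seqMap ι (Ultra.const c + ∑ i ∈ S, Ultra.const (a i) * r i)) = _
    rw [← ultraMap_mk, map_add, map_add, map_sum, map_sum]
    congr 1
    · rw [ultraMap_mk]
      rfl
    · refine Finset.sum_congr rfl (fun i _ => ?_)
      rw [map_mul, map_mul, ultraMap_mk]
      rfl
  rw [← h5, ← map_sub] at h
  have h11 := (Ultra.tendsto_norm_mk (ω := ω)
    (star y * Ultra.const b * y - seqMap ι d)).eventually (gt_mem_nhds h)
  filter_upwards [h11] with n hn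
  exact ⟨d n, hn⟩

end Approx

section Tensor

variable {G : Type*} [Group G] {Z : Type v} [CStarAlgebra Z]
  {A : Type u} [NonUnitalCStarAlgebra A] {T : Type u}
  [NonUnitalCStarAlgebra T] {t : A →ₗ[ℂ] Z →ₗ[ℂ] T}
  {α : G →* (A ≃⋆ₐ[ℂ] A)} {α' : G →* (Unitization ℂ A ≃⋆ₐ[ℂ] Unitization ℂ A)}
  {ω : Ultrafilter ℕ} {B : Type u} [CStarAlgebra B]
  {q : centralSeq ω (Unitization ℂ A) →⋆ₐ[ℂ] B} {β : G →* (B ≃⋆ₐ[ℂ] B)}

theorem exists_unitary_approx_rel_of
    (ht : IsTensorNU t)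
    (R : RelSys ω (Set.range (Unitization.inr : A → Unitization ℂ A)) α' q β)
    (ρ : Z →⋆ₐ[ℂ] B)
    (γ' : G →* (Unitization ℂ T ≃⋆ₐ[ℂ] Unitization ℂ T))
    (ι : Unitization ℂ A →⋆ₐ[ℂ] Unitization ℂ T)
    (hflip' : ∀ (Fz : Finset Z) (Fa : Finset A) (ε : ℝ), 0 < ε →
      ∃ V ∈ unitary (Ultra ω (Unitization ℂ T)),
      (∀ a : A, Commute V (Ultra.diag ω (ι (a : Unitization ℂ A)))) ∧
      (∀ g, ultraAct ω γ' g V = V) ∧
      ∀ z ∈ Fz, ∀ a ∈ Fa, ∀ x : centralSeq ω (Unitization ℂ A), q x = ρ z →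
        ‖star V * Ultra.diag ω ((t a z : T) : Unitization ℂ T) * V -
          Ultra.diag ω (ι (a : Unitization ℂ A)) * ultraMap ω ι (x : Ultra ω _)‖ < ε)
    (K : Finset G) (F : Finset (Unitization ℂ A)) (E : Finset (Unitization ℂ T)) (ε : ℝ)
    (hε : 0 < ε) :
    ∃ U ∈ unitary (Unitization ℂ T), (∀ a ∈ F, ‖U * ι a - ι a * U‖ < ε) ∧
      (∀ g ∈ K, ‖γ' g U - U‖ < ε) ∧ ∀ b ∈ E, ∃ a, ‖star U * b * U - ι a‖ < ε := by
  classical
  -- lifts
  have hlift : ∀ z : Z, ∃ x : centralSeq ω (Unitization ℂ A), q x = ρ z := fun z =>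
    (R.lift (ρ z)).imp fun _ h => h.1
  choose x hx using hlift
  have hrep : ∀ z : Z, ∃ r : ℕ →ᵇ Unitization ℂ A,
      Ultra.mk ω r = (x z : Ultra ω (Unitization ℂ A)) := fun z => Ultra.mk_surjective _
  choose r hr using hrep
  -- approximate the elements of `E`
  choose S hS using fun b : Unitization ℂ T => Approx.approx ht b (by positivity : 0 < ε / 4)
  obtain ⟨κ, hκ, hκS⟩ := Approx.exists_bound E (fun b => (S b).card) hε
  obtain ⟨V, hV, hVA, hVγ, hVz⟩ := hflip' (E.biUnion fun b => (S b).image Prod.snd) (E.biUnion fun b => (S b).image Prod.fst)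
    (ε / (4 * κ)) (div_pos hε (mul_pos four_pos hκ))
  have hVA' : ∀ a : Unitization ℂ A, Commute V (Ultra.diag ω (ι a)) := by
    intro a
    rw [Approx.decomp a, map_add, map_add]
    refine Commute.add_right ?_ (hVA _)
    rw [AlgHomClass.commutes, AlgHomClass.commutes]
    exact (Algebra.commutes _ _).symm
  obtain ⟨y, hy, hyu⟩ := exists_unitary_lift V hV
  have hn1 : ∀ a ∈ F, ∀ᶠ n in (ω : Filter ℕ), ‖y n * ι a - ι a * y n‖ < ε := by
    intro a _
    have h4 : Ultra.mk ω (y * Ultra.const (ι a)) = Ultra.mk ω (Ultra.const (ι a) * y) := by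
      rw [map_mul, map_mul, hy, ← Ultra.diag_apply]
      exact (hVA' a).eq
    rw [Ultra.mk_eq_mk_iff] at h4
    exact h4.eventually (gt_mem_nhds hε)
  have hn2 : ∀ b ∈ E, ∀ᶠ n in (ω : Filter ℕ), ∃ a, ‖star (y n) * b * y n - ι a‖ < ε := by
    intro b hb
    refine Approx.eventually_of_ultra ι y b (algebraMap ℂ _ b.fst) (S b)
      (fun i => (i.1 : Unitization ℂ A)) (fun i => r i.2) ?_
    have h6 : Ultra.mk ω (star y * Ultra.const b * y) = star V * Ultra.diag ω b * V := by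
      rw [map_mul, map_mul, map_star, hy]
      rfl
    rw [h6, AlgHomClass.commutes, AlgHomClass.commutes]
    refine Approx.est (S b) (fun i => Ultra.diag ω ((t i.1 i.2 : T) : Unitization ℂ T)) _ _ V hV
      b.fst hε ?_ (δ := ε / (4 * κ)) (fun i hi => ?_) (hκS b hb)
    · have h7 : algebraMap ℂ (Ultra ω (Unitization ℂ T)) b.fst +
          ∑ i ∈ S b, Ultra.diag ω ((t i.1 i.2 : T) : Unitization ℂ T) - Ultra.diag ω b =
          Ultra.diag ω (algebraMap ℂ (Unitization ℂ T) b.fst +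
            ∑ i ∈ S b, ((t i.1 i.2 : T) : Unitization ℂ T) - b) := by
        rw [map_sub, map_add, map_sum, AlgHomClass.commutes]
      rw [h7, Ultra.norm_diag]
      exact (hS b).le
    · rw [hr]
      refine (hVz _ ?_ _ ?_ _ (hx _)).le
      · rw [Finset.mem_biUnion]
        exact ⟨b, hb, Finset.mem_image_of_mem _ hi⟩
      · rw [Finset.mem_biUnion]
        exact ⟨b, hb, Finset.mem_image_of_mem _ hi⟩
  have hn3 : ∀ g ∈ K, ∀ᶠ n in (ω : Filter ℕ), ‖γ' g (y n) - y n‖ < ε := by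
    intro g _
    have h4 := hVγ g
    rw [← hy, ultraAct_mk, Ultra.mk_eq_mk_iff] at h4
    exact h4.eventually (gt_mem_nhds hε)
  obtain ⟨n, hn, hn', hn''⟩ := (((Filter.eventually_all_finset F).2 hn1).and
    (((Filter.eventually_all_finset E).2 hn2).and ((Filter.eventually_all_finset K).2 hn3))).exists
  exact ⟨y n, hyu n, hn, hn'', hn'⟩

end Tensor

end Vale.Agent.P095.NU
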