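import Vale.Agent.P095.NU.RFlip
import Vale.Agent.P095.NU.RApproxOf

/-!
# P095, T7, row G33: the hypothesis of the intertwining argument, without unit
-/

open Filter Topology TopologicalSpace
open scoped BoundedContinuousFunction ComplexOrder

namespace Vale.Agent.P095.NU

open Vale.Agent.P101

universe u v w

section Tensor

variable {G : Type*} [Group G] {Z : Type v} [CStarAlgebra Z]
  {A : Type u} [NonUnitalCStarAlgebra A] [SeparableSpace A] {T : Type u}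
  [NonUnitalCStarAlgebra T] {t : A →ₗ[ℂ] Z →ₗ[ℂ] T}
  {α : G →* (A ≃⋆ₐ[ℂ] A)} {α' : G →* (Unitization ℂ A ≃⋆ₐ[ℂ] Unitization ℂ A)}
  {ω : Ultrafilter ℕ} {B : Type u} [CStarAlgebra B]
  {q : centralSeq ω (Unitization ℂ A) →⋆ₐ[ℂ] B} {β : G →* (B ≃⋆ₐ[ℂ] B)}

theorem exists_unitary_approx_rel [Countable G] (hflip : HasExpHalfFlip.{v, u} Z)
    (ht : IsTensorNU t)
    (hα' : ∀ g (a : A), α' g (a : Unitization ℂ A) = ((α g a : A) : Unitization ℂ A))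
    (hω : (ω : Filter ℕ) ≤ cofinite)
    (R : RelSys ω (Set.range (Unitization.inr : A → Unitization ℂ A)) α' q β)
    (ρ : Z →⋆ₐ[ℂ] B) (hρ : ∀ g z, β g (ρ z) = ρ z)
    (γ : G →* (T ≃⋆ₐ[ℂ] T)) (hγ : ∀ g a z, γ g (t a z) = t (α g a) z)
    (γ' : G →* (Unitization ℂ T ≃⋆ₐ[ℂ] Unitization ℂ T))
    (hγ' : ∀ g (x : T), γ' g (x : Unitization ℂ T) = ((γ g x : T) : Unitization ℂ T))
    (ι : Unitization ℂ A →⋆ₐ[ℂ] Unitization ℂ T)
    (hι : ∀ a : A, ι (a : Unitization ℂ A) = ((t a 1 : T) : Unitization ℂ T))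
    (K : Finset G) (F : Finset (Unitization ℂ A)) (E : Finset (Unitization ℂ T)) (ε : ℝ)
    (hε : 0 < ε) :
    ∃ U ∈ unitary (Unitization ℂ T), (∀ a ∈ F, ‖U * ι a - ι a * U‖ < ε) ∧
      (∀ g ∈ K, ‖γ' g U - U‖ < ε) ∧ ∀ b ∈ E, ∃ a, ‖star U * b * U - ι a‖ < ε := by
  exact exists_unitary_approx_rel_of ht R ρ γ' ι
    (exists_flip_rel hflip ht hα' hω R ρ hρ γ hγ γ' hγ' ι hι) K F E ε hε

end Tensor

end Vale.Agent.P095.NU
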