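import Vale.Agent.P095.NU.Defs
import Vale.Agent.P095.AvgShift2
import Vale.Agent.P095.LocFin

/-!
# P095 (T7): averaging a pair of shifts, relative form (row G26)
-/

open Filter Topology TopologicalSpace
open scoped BoundedContinuousFunction ComplexOrder

namespace Vale.Agent.P095.NU

open Vale.Agent.P101

universe u v w

namespace RAvg

variable {G : Type*} [Group G] {ω : Ultrafilter ℕ} {M : Type u} [CStarAlgebra M]
  {A : Set M} {α : G →* (M ≃⋆ₐ[ℂ] M)} {B : Type u} [CStarAlgebra B]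
  {q : centralSeq ω M →⋆ₐ[ℂ] B} {β : G →* (B ≃⋆ₐ[ℂ] B)}

/-- elements of `centralSeq` times elements of `A` -/
theorem norm_mul_diag_le (R : RelSys ω A α q β) (x : centralSeq ω M) (a : M) (ha : a ∈ A) :
    ‖(x : Ultra ω M) * Ultra.diag ω a‖ ≤ ‖q x‖ * ‖a‖ := by
  obtain ⟨x', hx', hn⟩ := R.lift (q x)
  have h1 : q (x - x') = 0 := by rw [map_sub, hx', sub_self]
  have h2 := (R.ker (x - x')).1 h1 a ha
  have h3 : (x : Ultra ω M) * Ultra.diag ω a = (x' : Ultra ω M) * Ultra.diag ω a := by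
    rw [← sub_eq_zero, ← sub_mul]
    exact h2
  rw [h3]
  refine (norm_mul_le _ _).trans ?_
  rw [Ultra.norm_diag]
  have h4 : ‖(x' : Ultra ω M)‖ = ‖q x‖ := hn
  rw [h4]

/-- a countable dense subset of the ideal -/
theorem exists_dense_core [SeparableSpace M] (hA : IsCore A) :
    ∃ b : ℕ → M, (∀ n, b n ∈ A) ∧ A ⊆ closure (Set.range b) := by
  have : SecondCountableTopology M := UniformSpace.secondCountable_of_separable M
  have : Nonempty A := ⟨⟨0, hA.zero⟩⟩
  obtain ⟨b, hb⟩ := exists_dense_seq A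
  refine ⟨fun n => (b n : M), fun n => (b n).2, ?_⟩
  intro x hx
  have h1 : (⟨x, hx⟩ : A) ∈ closure (Set.range b) := hb _
  have h2 := image_closure_subset_closure_image (f := ((↑) : A → M)) continuous_subtype_val
    ⟨_, h1, rfl⟩
  rw [← Set.range_comp] at h2
  exact h2

/-- it is enough to test the kernel on a dense subset of `A` -/
theorem ker_of_dense (R : RelSys ω A α q β) (b : ℕ → M) (hb : A ⊆ closure (Set.range b))
    (x : centralSeq ω M) (h : ∀ n, (x : Ultra ω M) * Ultra.diag ω (b n) = 0) : q x = 0 := by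
  rw [R.ker]
  intro a ha
  have hc : Continuous (Ultra.diag ω : M → Ultra ω M) :=
    AddMonoidHomClass.continuous_of_bound (Ultra.diag ω) 1
      (fun b => by rw [one_mul, Ultra.norm_diag])
  have hcl : IsClosed {c : M | (x : Ultra ω M) * Ultra.diag ω c = 0} :=
    isClosed_eq (continuous_const.mul hc) continuous_const
  have h1 : closure (Set.range b) ⊆ {c : M | (x : Ultra ω M) * Ultra.diag ω c = 0} := by
    apply closure_minimal _ hcl
    rintro _ ⟨j, rfl⟩
    exact h j
  exact h1 (hb ha)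

end RAvg

open RAvg in
theorem exists_fixed_shift_rel {G : Type*} [Group G] [Countable G] {ω : Ultrafilter ℕ}
    {M : Type u} [CStarAlgebra M]
    [SeparableSpace M] {A : Set M} {α : G →* (M ≃⋆ₐ[ℂ] M)} {B : Type u} [CStarAlgebra B]
    {q : centralSeq ω M →⋆ₐ[ℂ] B} {β : G →* (B ≃⋆ₐ[ℂ] B)}
    (hω : (ω : Filter ℕ) ≤ cofinite) (R : RelSys ω A α q β)
    (hG : ReiterAmenable G) (e : B) (he1 : ‖e‖ ≤ 1) (hfix : ∀ g, β g e = e)
    (hs : ∃ s : Fin 2 → B, (∀ i j, star (s i) * s j = if i = j then e else 0) ∧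
      ∀ i j g, β g ≠ 1 → star (s i) * β g (s j) = 0) :
    ∃ S : Fin 2 → B, (∀ g i, β g (S i) = S i) ∧
      ∀ i j, star (S i) * S j = if i = j then e else 0 := by
  classical
  obtain ⟨s, hs1, hs3⟩ := hs
  obtain ⟨e', he', -⟩ := R.lift e
  obtain ⟨ye, hye, -⟩ := Ultra.exists_rep (e' : Ultra ω M)
  obtain ⟨a, ha⟩ := exists_dense_seq M
  obtain ⟨b, hbA, hb⟩ := exists_dense_core (A := A) R.core
  -- the conditions
  let f : (Fin 2 × Fin 2 × ℕ) ⊕ ((Fin 2 × G × ℕ) ⊕ (Fin 2 × ℕ)) → (n : ℕ) →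
      (Fin 2 → {x : M // ‖x‖ ≤ 1}) → ℝ := fun k n x =>
    match k with
    | Sum.inl (i, j, m) => ‖(star (x i : M) * (x j : M) - (if i = j then ye n else 0)) * b m‖
    | Sum.inr (Sum.inl (i, g, m)) => ‖(α g (x i : M) - (x i : M)) * b m‖
    | Sum.inr (Sum.inr (i, l)) => ‖a l * (x i : M) - (x i : M) * a l‖
  have hf0 : ∀ k n x, 0 ≤ f k n x := by
    rintro (⟨i, j, m⟩ | ⟨i, g, m⟩ | ⟨i, l⟩) n x <;> exact norm_nonneg _
  have hne : Nonempty (Fin 2 → {x : M // ‖x‖ ≤ 1}) := ⟨fun _ => ⟨0, by simp⟩⟩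
  have hite : ∀ i j : Fin 2, ((if i = j then e' else 0 : centralSeq ω M) : Ultra ω M) =
      Ultra.mk ω (if i = j then ye else 0) := by
    intro i j
    split_ifs
    · exact hye.symm
    · exact (map_zero (Ultra.mk ω)).symm
  have happ : ∀ (i j : Fin 2) (n : ℕ), (if i = j then ye else 0 : ℕ →ᵇ M) n =
      if i = j then ye n else 0 := by
    intro i j n
    split_ifs <;> rfl
  have hqite : ∀ i j : Fin 2, q (if i = j then e' else 0) = if i = j then e else 0 := by
    intro i j
    split_ifs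
    · exact he'
    · exact map_zero q
  obtain ⟨x, hx⟩ := @eps_test_countable
    ((Fin 2 × Fin 2 × ℕ) ⊕ ((Fin 2 × G × ℕ) ⊕ (Fin 2 × ℕ))) _
    (fun _ => Fin 2 → {x : M // ‖x‖ ≤ 1}) (fun _ => hne) (ω : Filter ℕ) hω f hf0 (by
    intro F ε hε
    let K : Finset G := F.biUnion fun k => match k with
      | Sum.inr (Sum.inl (_, g, _)) => {g}
      | _ => ∅
    -- a bound for the norms of the `b m` which occur
    obtain ⟨D, hD0, hD⟩ : ∃ D : ℝ, 0 < D ∧ ∀ i g m, Sum.inr (Sum.inl (i, g, m)) ∈ F →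
        ‖b m‖ ≤ D := by
      refine ⟨1 + ∑ k ∈ F, (match k with
        | Sum.inr (Sum.inl (_, _, m)) => ‖b m‖
        | _ => 0), ?_, ?_⟩
      · have h1 : 0 ≤ ∑ k ∈ F, (match k with
          | Sum.inr (Sum.inl (_, _, m)) => ‖b m‖
          | _ => (0 : ℝ)) := by
          refine Finset.sum_nonneg fun k _ => ?_
          rcases k with ⟨i, j, m⟩ | ⟨i, g, m⟩ | ⟨i, l⟩
          · exact le_rfl
          · exact norm_nonneg _
          · exact le_rfl
        linarith
      · intro i g m hk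
        have h1 := Finset.single_le_sum
          (f := fun k : (Fin 2 × Fin 2 × ℕ) ⊕ ((Fin 2 × G × ℕ) ⊕ (Fin 2 × ℕ)) => (match k with
          | Sum.inr (Sum.inl (_, _, m)) => ‖b m‖
          | _ => (0 : ℝ))) (s := F) (by
            intro k _
            rcases k with ⟨i, j, m⟩ | ⟨i, g, m⟩ | ⟨i, l⟩
            · exact le_rfl
            · exact norm_nonneg _
            · exact le_rfl) hk
        have h2 : ‖b m‖ ≤ ∑ k ∈ F, (match k with
          | Sum.inr (Sum.inl (_, _, m)) => ‖b m‖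
          | _ => (0 : ℝ)) := h1
        linarith
    obtain ⟨S, hS1, hS3⟩ := exists_avg_shift2 hG β e s hfix he1 hs1 hs3 K
      (ε / (2 * D)) (by positivity)
    have hSn : ∀ i, ‖S i‖ ≤ 1 := by
      intro i
      have h1 : ‖S i‖ ^ 2 ≤ 1 := by
        rw [pow_two, ← CStarRing.norm_star_mul_self, hS1, if_pos rfl]
        exact he1
      by_contra h
      push Not at h
      nlinarith
    choose S' hS' hSS using fun i => R.lift (S i)
    have hrep : ∀ i, ∃ z : ℕ →ᵇ M, Ultra.mk ω z = (S' i : Ultra ω M) ∧ ∀ n, ‖z n‖ ≤ 1 := by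
      intro i
      obtain ⟨z, hz, hz1⟩ := Ultra.exists_rep (S' i : Ultra ω M)
      refine ⟨z, hz, fun n => (hz1 n).trans ?_⟩
      have h1 : ‖(S' i : Ultra ω M)‖ = ‖S i‖ := hSS i
      rw [h1]
      exact hSn i
    choose z hz hz1 using hrep
    refine ⟨fun n i => ⟨z i n, hz1 i n⟩, ?_⟩
    rintro (⟨i, j, m⟩ | ⟨i, g, m⟩ | ⟨i, l⟩) hk
    · have h0 : q (star (S' i) * S' j - (if i = j then e' else 0)) = 0 := by
        rw [map_sub, map_mul, map_star, hS', hS', hS1, hqite, sub_self]
      have h1 := (R.ker _).1 h0 (b m) (hbA m)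
      have h2 : Ultra.mk ω ((star (z i) * z j - (if i = j then ye else 0)) *
          Ultra.const (b m)) = 0 := by
        rw [map_mul, map_sub, map_mul, map_star, hz, hz, ← hite, ← Ultra.diag_apply]
        exact h1
      rw [Ultra.mk_eq_zero_iff] at h2
      refine (h2.eventually (gt_mem_nhds hε)).mono fun n hn => ?_
      have h3 : ‖(star (z i n) * z j n - (if i = j then ye else 0 : ℕ →ᵇ M) n) * b m‖ < ε := hn
      rw [happ] at h3
      exact h3
    · have hgK : g ∈ K := by
        simp only [K, Finset.mem_biUnion]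
        exact ⟨_, hk, by simp⟩
      have h1 := hS3 i g hgK
      have h2 : q (centralAct ω α g (S' i) - S' i) = β g (S i) - S i := by
        rw [map_sub, ← R.act, hS']
      have h3 := norm_mul_diag_le R (centralAct ω α g (S' i) - S' i) (b m) (hbA m)
      rw [h2] at h3
      have h4 : ((centralAct ω α g (S' i) - S' i : centralSeq ω M) : Ultra ω M) *
          Ultra.diag ω (b m) =
          Ultra.mk ω ((seqMap (α g : M →⋆ₐ[ℂ] M) (z i) - z i) * Ultra.const (b m)) := by
        rw [map_mul, map_sub, ← ultraAct_mk, hz, ← coe_centralAct, ← Ultra.diag_apply]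
        rfl
      rw [h4] at h3
      have h5 : ‖Ultra.mk ω ((seqMap (α g : M →⋆ₐ[ℂ] M) (z i) - z i) *
          Ultra.const (b m))‖ < ε := by
        refine h3.trans_lt ?_
        calc ‖β g (S i) - S i‖ * ‖b m‖ ≤ ε / (2 * D) * D :=
              mul_le_mul h1 (hD i g m hk) (norm_nonneg _) (by positivity)
          _ = ε / 2 := by field_simp
          _ < ε := by linarith
      have h6 := Ultra.tendsto_norm_mk (ω := ω)
        ((seqMap (α g : M →⋆ₐ[ℂ] M) (z i) - z i) * Ultra.const (b m))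
      exact h6.eventually (gt_mem_nhds h5)
    · have h1 : Ultra.mk ω (z i) ∈ centralSeq ω M := by
        rw [hz]
        exact (S' i).2
      rw [mem_centralSeq_iff] at h1
      have h2 := h1 (a l)
      rw [commute_iff_eq, Ultra.diag_apply, ← map_mul, ← map_mul, Ultra.mk_eq_mk_iff] at h2
      exact h2.eventually (gt_mem_nhds hε))
  let y : Fin 2 → (ℕ →ᵇ M) := fun i =>
    BoundedContinuousFunction.ofNormedAddCommGroup (fun n => (x n i : M))
      continuous_of_discreteTopology 1 (fun n => (x n i).2)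
  have hyc : ∀ i, Ultra.mk ω (y i) ∈ centralSeq ω M := fun i =>
    LocFin.mem_centralSeq_of_dense a ha (y i) fun l => hx (Sum.inr (Sum.inr (i, l)))
  let Y : Fin 2 → centralSeq ω M := fun i => ⟨Ultra.mk ω (y i), hyc i⟩
  refine ⟨fun i => q (Y i), fun g i => ?_, fun i j => ?_⟩
  · show β g (q (Y i)) = q (Y i)
    rw [R.act, ← sub_eq_zero, ← map_sub]
    apply ker_of_dense R b hb
    intro m
    have h4 : ((centralAct ω α g (Y i) - Y i : centralSeq ω M) : Ultra ω M) *
        Ultra.diag ω (b m) =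
        Ultra.mk ω ((seqMap (α g : M →⋆ₐ[ℂ] M) (y i) - y i) * Ultra.const (b m)) := by
      rw [map_mul, map_sub, ← ultraAct_mk, ← Ultra.diag_apply]
      rfl
    rw [h4, Ultra.mk_eq_zero_iff]
    exact hx (Sum.inr (Sum.inl (i, g, m)))
  · show star (q (Y i)) * q (Y j) = _
    rw [← hqite, ← map_star, ← map_mul, ← sub_eq_zero, ← map_sub]
    apply ker_of_dense R b hb
    intro m
    have h4 : ((star (Y i) * Y j - (if i = j then e' else 0) : centralSeq ω M) : Ultra ω M) *
        Ultra.diag ω (b m) =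
        Ultra.mk ω ((star (y i) * y j - (if i = j then ye else 0)) * Ultra.const (b m)) := by
      rw [map_mul, map_sub, map_mul, map_star, ← hite, ← Ultra.diag_apply]
      rfl
    rw [h4, Ultra.mk_eq_zero_iff]
    refine (hx (Sum.inl (i, j, m))).congr fun n => ?_
    show ‖(star (y i n) * y j n - (if i = j then ye n else 0)) * b m‖ =
      ‖(star (y i n) * y j n - (if i = j then ye else 0 : ℕ →ᵇ M) n) * b m‖
    rw [happ]

end Vale.Agent.P095.NU
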