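import Vale.Agent.P095.NU.Defs
import Vale.Agent.P095.PairSI
import Vale.Agent.P095.Labels

/-!
# P095, target T7, row G27: a pair form of (SI) removes the characters; positive lifts
-/

open Filter Topology TopologicalSpace
open scoped BoundedContinuousFunction ComplexOrder

namespace Vale.Agent.P095.NU

open Vale.Agent.P101

universe u v w

theorem isEmpty_character_of_pair {G : Type*} [Group G] {B : Type*} [CStarAlgebra B]
    (β : G →* (B ≃⋆ₐ[ℂ] B))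
    {T : Set (B →ₗ[ℂ] ℂ)} {J : Set B} (sys : TracialSystem β T J) (hu : HasFixedUnits β J)
    (hp : ∀ e : B, IsPos e → ‖e‖ ≤ 1 → e ∈ J → (∀ g, β g e = e) →
      ∃ S : Fin 2 → B, (∀ g i, β g (S i) = S i) ∧
        ∀ i j, star (S i) * S j = if i = j then e else 0) :
    IsEmpty (fixedAlg β →⋆ₐ[ℂ] ℂ) := by
  refine ⟨fun χ => ?_⟩
  obtain ⟨w, hw1, hwf, hw2, hw3⟩ := hu
  let N : Set (fixedAlg β) := {x | (x : B) ∈ J}
  have hN : ∀ x ∈ N, ∀ y, y * x ∈ N := fun x hx y => Lab.mul_mem_left sys _ hx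
  let W : fixedAlg β := ⟨w, hwf⟩
  have hW2 : W * W ∈ N := hw2
  have hW3 : 1 - star W * W - W * star W ∈ N := hw3
  obtain ⟨c, hc, hχc⟩ := char_exists_ne χ N W hW2 hW3
  obtain ⟨e, -, ⟨y, hy⟩, he1, -, -, -, hχe, hen, -⟩ := exists_null_pair χ N hN c hc hχc
  have hy1 : (e : B) = star (y : B) * y := congrArg Subtype.val hy
  obtain ⟨S, hSf, hS⟩ := hp e ⟨y, hy1⟩ he1 hen e.2
  let T : Fin 2 → fixedAlg β := fun i => ⟨S i, fun g => hSf g i⟩
  have h0 : star (T 0) * T 1 = 0 := Subtype.ext ((hS 0 1).trans (by simp))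
  have h1 : ∀ i, star (T i) * T i = e := fun i => Subtype.ext ((hS i i).trans (by simp))
  have h2 : ∀ i, χ (T i) ≠ 0 := by
    intro i h3
    have h4 := congrArg χ (h1 i)
    rw [map_mul, h3, mul_zero, hχe] at h4
    exact zero_ne_one h4
  have h5 := congrArg χ h0
  rw [map_mul, map_star, map_zero] at h5
  rcases mul_eq_zero.1 h5 with h6 | h6
  · exact h2 0 (star_eq_zero.1 h6)
  · exact h2 1 h6

section Sys

variable {G : Type*} [Group G] {ω : Ultrafilter ℕ} {M : Type u} [CStarAlgebra M]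
  {A : Set M} {α : G →* (M ≃⋆ₐ[ℂ] M)} {B : Type u} [CStarAlgebra B]
  {q : centralSeq ω M →⋆ₐ[ℂ] B} {β : G →* (B ≃⋆ₐ[ℂ] B)}

/-- lift of positive contractions -/
theorem exists_pos_lift (R : RelSys ω A α q β) (e : B) (he : IsPos e) (he1 : ‖e‖ ≤ 1) :
    ∃ x : centralSeq ω M, q x = e ∧ IsPos x ∧ ‖x‖ ≤ 1 := by
  obtain ⟨y, rfl⟩ := he
  obtain ⟨x, hx, hn⟩ := R.lift y
  have h1 : ‖y‖ * ‖y‖ ≤ 1 := by rw [← CStarRing.norm_star_mul_self]; exact he1
  refine ⟨star x * x, by rw [map_mul, map_star, hx], ⟨x, rfl⟩, ?_⟩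
  have h2 : ‖star x‖ = ‖x‖ := norm_star (x : Ultra ω M)
  refine (norm_mul_le _ _).trans ?_
  rw [h2, hn]
  exact h1

end Sys

end Vale.Agent.P095.NU
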