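import Vale.Agent.P095.NU.LTr

/-!
# P095 [G7]: the traces of `k 2 ^ 2` and `k 3 ^ 2` are comparable
-/

open Filter Topology TopologicalSpace
open scoped BoundedContinuousFunction ComplexOrder

namespace Vale.Agent.P095.NU

open Vale.Agent.P101

universe u v w

namespace Ratio

variable {M : Type u} [CStarAlgebra M] {A : Set M} {k : ℕ → M}

theorem sa (hk : IsCh A k) (i : ℕ) : IsSelfAdjoint (k i) := by
  obtain ⟨y, hy⟩ := hk.pos i
  rw [hy]
  exact IsSelfAdjoint.star_mul_self y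

theorem unit' (hk : IsCh A k) (i : ℕ) : k (i + 1) * k i = k (i + 1) := by
  have h := congrArg star (hk.unit i)
  rwa [star_mul, (sa hk i).star_eq, (sa hk (i + 1)).star_eq] at h

/-- `k (i + j)` is in `LU (k i)` for `j ≥ 1`. -/
theorem mem_LU (hk : IsCh A k) (i j : ℕ) : k (i + j + 1) ∈ LU (k i) := by
  induction j with
  | zero => exact ⟨hk.unit i, unit' hk i⟩
  | succ j ih =>
    obtain ⟨h1, h2⟩ := ih
    have e : i + (j + 1) + 1 = (i + j + 1) + 1 := by omega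
    rw [e]
    constructor
    · calc k i * k (i + j + 1 + 1) = k i * (k (i + j + 1) * k (i + j + 1 + 1)) := by
            rw [hk.unit]
        _ = k (i + j + 1 + 1) := by rw [← mul_assoc, h1, hk.unit]
    · calc k (i + j + 1 + 1) * k i = k (i + j + 1 + 1) * k (i + j + 1) * k i := by
            rw [unit' hk]
        _ = k (i + j + 1 + 1) := by rw [mul_assoc, h2, unit' hk]

end Ratio

section Sys

variable {G : Type*} [Group G] [Countable G] {ω : Ultrafilter ℕ} {M : Type u} [CStarAlgebra M]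
  [SeparableSpace M] {A : Set M} {α : G →* (M ≃⋆ₐ[ℂ] M)} {B : Type u} [CStarAlgebra B]
  {q : centralSeq ω M →⋆ₐ[ℂ] B} {β : G →* (B ≃⋆ₐ[ℂ] B)} {κ : ℕ → ℕ → M}

/-! ### [G7] Ratio.lean -/

omit [SeparableSpace M] in
theorem ratio_bound (hA : IsCore A) {k : ℕ → M} (hk : IsCh A k) :
    ∃ C : ℝ, ∀ τ : M →ₗ[ℂ] ℂ, IsLTrace (k 1) τ →
      (τ (k 2 * k 2)).re ≤ C * (τ (k 3 * k 3)).re := by
  have h2 : k 2 ∈ LU (k 1) := Ratio.mem_LU hk 1 0
  have h3 : k 3 ∈ LU (k 1) := Ratio.mem_LU hk 1 1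
  have s1 := Ratio.sa hk 1
  have s2 := Ratio.sa hk 2
  have s3 := Ratio.sa hk 3
  have hx0 : k 3 * k 3 ≠ 0 := by
    intro h0
    have h4 : ‖star (k 3) * k 3‖ = ‖k 3‖ * ‖k 3‖ := CStarRing.norm_star_mul_self
    rw [s3.star_eq, h0, norm_zero] at h4
    have h5 : ‖k 3‖ = 0 := mul_self_eq_zero.1 h4.symm
    exact hk.ne 3 (norm_eq_zero.1 h5)
  obtain ⟨n, u, v, huv⟩ := hA.simple (k 3 * k 3) (hA.left _ _ (hk.mem 3)) hx0 (k 1) (hk.mem 1)
    (1 / 4) (by norm_num)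
  refine ⟨(4 / 3) * ∑ i, ‖v i * (k 2 * k 2) * u i‖, fun τ hτ => ?_⟩
  have hmem2 : ∀ z : M, k 2 * z * k 3 ∈ LU (k 1) := fun z => LU_sandwich s1 h2 h3 z
  have hmem3 : ∀ z : M, k 3 * z * k 2 ∈ LU (k 1) := fun z => LU_sandwich s1 h3 h2 z
  -- each summand
  have hsum : ∀ i, ‖τ (k 2 * (u i * (k 3 * k 3) * v i) * k 2)‖ ≤
      ‖v i * (k 2 * k 2) * u i‖ * (τ (k 3 * k 3)).re := by
    intro i
    have e1 : k 2 * (u i * (k 3 * k 3) * v i) * k 2 = (k 2 * u i * k 3) * (k 3 * v i * k 2) := by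
      noncomm_ring
    have e2 : (k 3 * v i * k 2) * (k 2 * u i * k 3) = k 3 * (v i * (k 2 * k 2) * u i) * k 3 := by
      noncomm_ring
    rw [e1, hτ.trace _ (hmem2 _) _ (hmem3 _), e2]
    exact hτ.norm_le s1 h3 s3 _
  have h22 : k 2 * k 2 = k 2 * (k 1 - ∑ i, u i * (k 3 * k 3) * v i) * k 2 +
      ∑ i, k 2 * (u i * (k 3 * k 3) * v i) * k 2 := by
    rw [← Finset.sum_mul, ← Finset.mul_sum, ← add_mul, ← mul_add, sub_add_cancel]
    rw [h2.2]
  have h4 : (τ (k 2 * k 2)).re ≤ 1 / 4 * (τ (k 2 * k 2)).re +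
      ∑ i, ‖v i * (k 2 * k 2) * u i‖ * (τ (k 3 * k 3)).re := by
    have h5 : (τ (k 2 * k 2)).re ≤ ‖τ (k 2 * k 2)‖ := Complex.re_le_norm _
    have h6 : ‖τ (k 2 * (k 1 - ∑ i, u i * (k 3 * k 3) * v i) * k 2)‖ ≤
        1 / 4 * (τ (k 2 * k 2)).re := by
      refine (hτ.norm_le s1 h2 s2 _).trans ?_
      refine mul_le_mul_of_nonneg_right huv.le ?_
      have h7 := hτ.nonneg _ h2
      rw [s2.star_eq] at h7
      exact (Complex.le_def.1 h7).1
    have h8 : ‖τ (k 2 * k 2)‖ ≤ 1 / 4 * (τ (k 2 * k 2)).re +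
        ∑ i, ‖v i * (k 2 * k 2) * u i‖ * (τ (k 3 * k 3)).re := by
      have h9 : τ (k 2 * k 2) = τ (k 2 * (k 1 - ∑ i, u i * (k 3 * k 3) * v i) * k 2) +
          ∑ i, τ (k 2 * (u i * (k 3 * k 3) * v i) * k 2) := by
        conv_lhs => rw [h22]
        rw [map_add, map_sum]
      calc ‖τ (k 2 * k 2)‖ ≤ ‖τ (k 2 * (k 1 - ∑ i, u i * (k 3 * k 3) * v i) * k 2)‖ +
            ‖∑ i, τ (k 2 * (u i * (k 3 * k 3) * v i) * k 2)‖ := by
              conv_lhs => rw [h9]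
              exact norm_add_le _ _
        _ ≤ _ := add_le_add h6 ((norm_sum_le _ _).trans (Finset.sum_le_sum fun i _ => hsum i))
    exact h5.trans h8
  rw [← Finset.sum_mul] at h4
  linarith [h4]

end Sys

end Vale.Agent.P095.NU
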