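import Vale.Agent.P095.NU.LTr
import Vale.Agent.P095.NU.Ratio

/-!
# P095, non-unital case, row G8: limits of traces on the relative central sequence algebra
-/

open Filter Topology TopologicalSpace
open scoped BoundedContinuousFunction ComplexOrder

namespace Vale.Agent.P095.NU

open Vale.Agent.P101

universe u v w

namespace RLim

section Lim

variable {M : Type u} [CStarAlgebra M] {ω : Ultrafilter ℕ}

/-- limits of uniformly bounded sequences of functionals -/
theorem exists_lim (f : ℕ → M →ₗ[ℂ] ℂ) (C : ℝ) (hf : ∀ n z, ‖f n z‖ ≤ C * ‖z‖) :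
    ∃ Λ : Ultra ω M →ₗ[ℂ] ℂ, ∀ y : ℕ →ᵇ M,
      Tendsto (fun n => f n (y n)) (ω : Filter ℕ) (𝓝 (Λ (Ultra.mk ω y))) := by
  classical
  have hC : ∀ (n : ℕ) (y : ℕ →ᵇ M), ‖f n (y n)‖ ≤ |C| * ‖y‖ := fun n y =>
    (hf n _).trans ((mul_le_mul_of_nonneg_right (le_abs_self C) (norm_nonneg _)).trans
      (mul_le_mul_of_nonneg_left (y.norm_coe_le_norm n) (abs_nonneg _)))
  have hex : ∀ y : ℕ →ᵇ M, ∃ c, Tendsto (fun n => f n (y n)) (ω : Filter ℕ) (𝓝 c) := by
    intro y
    have hK : IsCompact (Metric.closedBall (0 : ℂ) (|C| * ‖y‖)) := isCompact_closedBall _ _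
    obtain ⟨c, -, hc⟩ := hK.ultrafilter_le_nhds (ω.map fun n => f n (y n)) (by
      rw [le_principal_iff]
      refine mem_map.2 (Eventually.of_forall fun n => ?_)
      rw [mem_closedBall_zero_iff]
      exact hC n y)
    exact ⟨c, hc⟩
  have hwd : ∀ (y z : ℕ →ᵇ M), Ultra.mk ω y = Ultra.mk ω z → ∀ c : ℂ,
      Tendsto (fun n => f n (y n)) (ω : Filter ℕ) (𝓝 c) →
      Tendsto (fun n => f n (z n)) (ω : Filter ℕ) (𝓝 c) := by
    intro y z h c hy
    rw [Ultra.mk_eq_mk_iff] at h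
    have h1 : Tendsto (fun n => f n (y n - z n)) (ω : Filter ℕ) (𝓝 0) := by
      rw [tendsto_zero_iff_norm_tendsto_zero]
      have h2 := h.const_mul |C|
      rw [mul_zero] at h2
      exact squeeze_zero (fun _ => norm_nonneg _) (fun n => (hf n _).trans
        (mul_le_mul_of_nonneg_right (le_abs_self C) (norm_nonneg _))) h2
    have h2 := hy.sub h1
    rw [sub_zero] at h2
    refine h2.congr fun n => ?_
    rw [map_sub]
    ring
  choose r hr using (Ultra.mk_surjective (ω := ω) (A := M))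
  choose L hL using hex
  have key : ∀ y : ℕ →ᵇ M, Tendsto (fun n => f n (y n)) (ω : Filter ℕ)
      (𝓝 (L (r (Ultra.mk ω y)))) := fun y => hwd _ _ (hr _) _ (hL _)
  refine ⟨{ toFun := fun x => L (r x), map_add' := ?_, map_smul' := ?_ }, key⟩
  · intro x x'
    have h1 := key (r x + r x')
    rw [map_add, hr, hr] at h1
    have h2 := (hL (r x)).add (hL (r x'))
    refine tendsto_nhds_unique h1 (h2.congr fun n => ?_)
    rw [BoundedContinuousFunction.add_apply, map_add]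
  · intro c x
    have h1 := key (c • r x)
    rw [map_smul, hr] at h1
    have h2 := (hL (r x)).const_smul c
    refine tendsto_nhds_unique h1 (h2.congr fun n => ?_)
    rw [BoundedContinuousFunction.smul_apply, map_smul]

end Lim

theorem isSelfAdjoint_of_isPos {M : Type u} [CStarAlgebra M] {x : M} (h : IsPos x) :
    IsSelfAdjoint x := by
  obtain ⟨y, rfl⟩ := h
  exact IsSelfAdjoint.star_mul_self y

section Chain

variable {M : Type u} [CStarAlgebra M] {A : Set M} {k : ℕ → M}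

theorem sa (hk : IsCh A k) (i : ℕ) : IsSelfAdjoint (k i) := isSelfAdjoint_of_isPos (hk.pos i)

theorem unit' (hk : IsCh A k) (i : ℕ) : k (i + 1) * k i = k (i + 1) := by
  have h := congrArg star (hk.unit i)
  rwa [star_mul, (sa hk i).star_eq, (sa hk (i + 1)).star_eq] at h

theorem unit_two (hk : IsCh A k) (i : ℕ) : k i * k (i + 2) = k (i + 2) := by
  rw [← hk.unit (i + 1), ← mul_assoc, hk.unit i]

theorem unit_two' (hk : IsCh A k) (i : ℕ) : k (i + 2) * k i = k (i + 2) := by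
  have h := congrArg star (unit_two hk i)
  rwa [star_mul, (sa hk i).star_eq, (sa hk (i + 2)).star_eq] at h

end Chain

end RLim

section Sys

variable {G : Type*} [Group G] {ω : Ultrafilter ℕ} {M : Type u} [CStarAlgebra M]
  {A : Set M} {α : G →* (M ≃⋆ₐ[ℂ] M)} {B : Type u} [CStarAlgebra B]
  {q : centralSeq ω M →⋆ₐ[ℂ] B} {β : G →* (B ≃⋆ₐ[ℂ] B)}

theorem exists_limit_trace (R : RelSys ω A α q β) {k : ℕ → M} (hk : IsCh A k)
    (σ : ℕ → M →ₗ[ℂ] ℂ) (hσ : ∀ n, IsLTrace (k 1) (σ n) ∧ σ n (k 3 * k 3) = 1) :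
    ∃ τ : B →ₗ[ℂ] ℂ, IsTrace τ ∧ ∀ (y : ℕ →ᵇ M) (hy : Ultra.mk ω y ∈ centralSeq ω M),
      Tendsto (fun n => σ n (k 3 * y n * k 3)) ω (𝓝 (τ (q ⟨Ultra.mk ω y, hy⟩))) := by
  classical
  obtain ⟨C, hC⟩ := ratio_bound R.core hk
  have e12 : k 1 * k 2 = k 2 := hk.unit 1
  have e21 : k 2 * k 1 = k 2 := RLim.unit' hk 1
  have e23 : k 2 * k 3 = k 3 := hk.unit 2
  have e32 : k 3 * k 2 = k 3 := RLim.unit' hk 2
  have e13 : k 1 * k 3 = k 3 := RLim.unit_two hk 1
  have e31 : k 3 * k 1 = k 3 := RLim.unit_two' hk 1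
  have hbd : ∀ n z, ‖σ n (k 2 * z * k 2)‖ ≤ C * ‖z‖ := by
    intro n z
    have h1 := (hσ n).1.norm_le (RLim.sa hk 1) (d := k 2) ⟨e12, e21⟩ (RLim.sa hk 2) z
    have h2 := hC (σ n) (hσ n).1
    rw [(hσ n).2, Complex.one_re, mul_one] at h2
    refine h1.trans ?_
    rw [mul_comm C]
    exact mul_le_mul_of_nonneg_left h2 (norm_nonneg _)
  obtain ⟨Λ, hΛ⟩ := RLim.exists_lim (ω := ω)
    (fun n => (σ n) ∘ₗ (LinearMap.mulRight ℂ (k 2) ∘ₗ LinearMap.mulLeft ℂ (k 2))) C hbd
  have hΛ' : ∀ y : ℕ →ᵇ M, Tendsto (fun n => σ n (k 2 * y n * k 2)) (ω : Filter ℕ)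
      (𝓝 (Λ (Ultra.mk ω y))) := hΛ
  set D := Ultra.diag ω (A := M) with hD
  -- the trace property
  have hT : ∀ X Y : Ultra ω M, Λ (D (k 3) * X * D (k 2) * (D (k 2) * Y * D (k 3))) =
      Λ (Y * D (k 3) * (D (k 3) * X)) := by
    intro X Y
    obtain ⟨x, rfl⟩ := Ultra.mk_surjective X
    obtain ⟨y, rfl⟩ := Ultra.mk_surjective Y
    have h1 := hΛ' (Ultra.const (k 3) * x * Ultra.const (k 2) *
      (Ultra.const (k 2) * y * Ultra.const (k 3)))
    have h2 := hΛ' (y * Ultra.const (k 3) * (Ultra.const (k 3) * x))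
    simp only [map_mul] at h1 h2
    refine tendsto_nhds_unique h1 (h2.congr fun n => ?_)
    change σ n (k 2 * (y n * k 3 * (k 3 * x n)) * k 2) =
      σ n (k 2 * (k 3 * x n * k 2 * (k 2 * y n * k 3)) * k 2)
    have h3 : k 2 * (y n * k 3 * (k 3 * x n)) * k 2 = (k 2 * y n * k 3) * (k 3 * x n * k 2) := by
      noncomm_ring
    have h4 : k 2 * (k 3 * x n * k 2 * (k 2 * y n * k 3)) * k 2 =
        (k 2 * k 3) * x n * k 2 * (k 2 * y n * (k 3 * k 2)) := by
      noncomm_ring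
    rw [h3, h4, e23, e32]
    refine (hσ n).1.trace _ ⟨?_, ?_⟩ _ ⟨?_, ?_⟩
    · rw [← mul_assoc, ← mul_assoc, e12]
    · rw [mul_assoc, e31]
    · rw [← mul_assoc, ← mul_assoc, e13]
    · rw [mul_assoc, e21]
  have hP : ∀ X : Ultra ω M,
      0 ≤ Λ (D (k 3) * star X * D (k 2) * (D (k 2) * X * D (k 3))) := by
    intro X
    obtain ⟨x, rfl⟩ := Ultra.mk_surjective X
    have h1 := hΛ' (Ultra.const (k 3) * star x * Ultra.const (k 2) *
      (Ultra.const (k 2) * x * Ultra.const (k 3)))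
    simp only [map_mul, map_star] at h1
    refine ge_of_tendsto h1 (Eventually.of_forall fun n => ?_)
    change 0 ≤ σ n (k 2 * (k 3 * star (x n) * k 2 * (k 2 * x n * k 3)) * k 2)
    have h4 : k 2 * (k 3 * star (x n) * k 2 * (k 2 * x n * k 3)) * k 2 =
        (k 2 * k 3) * star (x n) * k 2 * (k 2 * x n * (k 3 * k 2)) := by
      noncomm_ring
    rw [h4, e23, e32]
    have h5 : k 3 * star (x n) * k 2 = star (k 2 * x n * k 3) := by
      rw [star_mul, star_mul, (RLim.sa hk 2).star_eq, (RLim.sa hk 3).star_eq, mul_assoc]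
    rw [h5]
    refine (hσ n).1.nonneg _ ⟨?_, ?_⟩
    · rw [← mul_assoc, ← mul_assoc, e12]
    · rw [mul_assoc, e31]
  have hD23 : D (k 2) * D (k 3) = D (k 3) := by rw [← map_mul, e23]
  have hD32 : D (k 3) * D (k 2) = D (k 3) := by rw [← map_mul, e32]
  have hcom : ∀ (a : M) (x : centralSeq ω M), D a * (x : Ultra ω M) = (x : Ultra ω M) * D a :=
    fun a x => (mem_centralSeq_iff.1 x.2 a).eq
  -- the limit trace
  choose s hs using R.lift
  have hwd : ∀ x : centralSeq ω M, Λ (D (k 3) * (s (q x) : Ultra ω M) * D (k 3)) =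
      Λ (D (k 3) * (x : Ultra ω M) * D (k 3)) := by
    intro x
    have h0 : q (s (q x) - x) = 0 := by rw [map_sub, (hs (q x)).1, sub_self]
    have h1 := (R.ker _).1 h0 (k 3) (hk.mem 3)
    have h2 : (((s (q x) - x : centralSeq ω M) : Ultra ω M)) =
      (s (q x) : Ultra ω M) - (x : Ultra ω M) := rfl
    rw [h2, sub_mul, sub_eq_zero] at h1
    rw [mul_assoc, mul_assoc, h1]
  let τ : B →ₗ[ℂ] ℂ :=
    { toFun := fun b => Λ (D (k 3) * (s b : Ultra ω M) * D (k 3))
      map_add' := fun b c => by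
        have h1 := hwd (s b + s c)
        rw [map_add, (hs b).1, (hs c).1] at h1
        rw [h1]
        have h2 : ((s b + s c : centralSeq ω M) : Ultra ω M) =
          (s b : Ultra ω M) + (s c : Ultra ω M) := rfl
        rw [h2, mul_add, add_mul, map_add]
      map_smul' := fun t b => by
        have h1 := hwd (t • s b)
        rw [map_smul, (hs b).1] at h1
        rw [h1]
        have h2 : ((t • s b : centralSeq ω M) : Ultra ω M) = t • (s b : Ultra ω M) := rfl
        rw [h2, mul_smul_comm, smul_mul_assoc, map_smul]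
        rfl }
  have hτ : ∀ x : centralSeq ω M, τ (q x) = Λ (D (k 3) * (x : Ultra ω M) * D (k 3)) := hwd
  have hsand : ∀ x y : centralSeq ω M,
      D (k 3) * (x : Ultra ω M) * D (k 2) * (D (k 2) * (y : Ultra ω M) * D (k 3)) =
        D (k 3) * ((x : Ultra ω M) * (y : Ultra ω M)) * D (k 3) := by
    intro x y
    rw [hcom (k 2) y, mul_assoc (y : Ultra ω M), hD23, mul_assoc (D (k 3) * (x : Ultra ω M)),
      ← mul_assoc (D (k 2)), hcom (k 2) y, mul_assoc (y : Ultra ω M), hD23]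
    noncomm_ring
  refine ⟨τ, ⟨?_, ?_, ?_⟩, ?_⟩
  · have h1 : τ (q 1) = Λ (D (k 3) * ((1 : centralSeq ω M) : Ultra ω M) * D (k 3)) := hτ 1
    rw [map_one] at h1
    rw [h1]
    have h2 : ((1 : centralSeq ω M) : Ultra ω M) = 1 := rfl
    rw [h2, mul_one]
    have h3 := hΛ' (Ultra.const (k 3) * Ultra.const (k 3))
    rw [map_mul] at h3
    refine tendsto_nhds_unique h3 (tendsto_const_nhds.congr fun n => ?_)
    change 1 = σ n (k 2 * (k 3 * k 3) * k 2)
    have h4 : k 2 * (k 3 * k 3) * k 2 = (k 2 * k 3) * (k 3 * k 2) := by noncomm_ring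
    rw [h4, e23, e32, (hσ n).2]
  · intro b
    obtain ⟨x, rfl, -⟩ := R.lift b
    rw [← map_star, ← map_mul, hτ]
    have h1 := hP (x : Ultra ω M)
    have h2 := hsand (star x) x
    have h3 : ((star x : centralSeq ω M) : Ultra ω M) = star (x : Ultra ω M) := rfl
    rw [h3] at h2
    rw [h2] at h1
    exact h1
  · intro b c
    obtain ⟨x, rfl, -⟩ := R.lift b
    obtain ⟨y, rfl, -⟩ := R.lift c
    rw [← map_mul, ← map_mul, hτ, hτ]
    have h1 := hT (x : Ultra ω M) (y : Ultra ω M)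
    rw [hsand x y] at h1
    have h2 : (y : Ultra ω M) * D (k 3) * (D (k 3) * (x : Ultra ω M)) =
        D (k 3) * ((y * x : centralSeq ω M) : Ultra ω M) * D (k 3) := by
      rw [← hcom (k 3) y, hcom (k 3) x]
      change D (k 3) * (y : Ultra ω M) * ((x : Ultra ω M) * D (k 3)) =
        D (k 3) * ((y : Ultra ω M) * (x : Ultra ω M)) * D (k 3)
      noncomm_ring
    rw [h2] at h1
    exact h1
  · intro y hy
    rw [hτ]
    have h1 := hΛ' (Ultra.const (k 3) * y * Ultra.const (k 3))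
    rw [map_mul (Ultra.mk ω), map_mul (Ultra.mk ω)] at h1
    refine h1.congr fun n => ?_
    change σ n (k 2 * (k 3 * y n * k 3) * k 2) = σ n (k 3 * y n * k 3)
    have h4 : k 2 * (k 3 * y n * k 3) * k 2 = (k 2 * k 3) * y n * (k 3 * k 2) := by noncomm_ring
    rw [h4, e23, e32]

end Sys

end Vale.Agent.P095.NU
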