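import Vale.Agent.P095.NU.ChainAux
import Vale.Agent.P095.NU.LTr
import Vale.Agent.P095.LimTrace
import Vale.Agent.P095.NU.RLimTrace

/-!
# P095, target T7, row G9: the null ideal in terms of sequences
-/

open Filter Topology TopologicalSpace
open scoped BoundedContinuousFunction ComplexOrder

namespace Vale.Agent.P095.NU

open Vale.Agent.P101

universe u v w

namespace C47

variable {M : Type u} [CStarAlgebra M] {A : Set M} {k : ℕ → M}

/-- the numbers in the supremum `chSup` -/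
theorem chSup_bdd (hk : IsCh A k) (x : M) : BddAbove (Set.range
    fun τ : {τ : M →ₗ[ℂ] ℂ // IsLTrace (k 1) τ ∧ τ (k 3 * k 3) = 1} =>
      (τ.1 (k 3 * (star x * x) * k 3)).re) := by
  refine ⟨‖star x * x‖, ?_⟩
  rintro _ ⟨τ, rfl⟩
  have h1 := τ.2.1.norm_le (C47.sa hk 1) (C47.mem_LU hk (show 1 < 3 by omega)) (C47.sa hk 3) (star x * x)
  rw [τ.2.2, Complex.one_re, mul_one] at h1
  exact (Complex.re_le_norm _).trans h1

theorem nonneg_term (hk : IsCh A k) (x : M) {τ : M →ₗ[ℂ] ℂ} (hτ : IsLTrace (k 1) τ) :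
    0 ≤ τ (k 3 * (star x * x) * k 3) := by
  have h3 : k 3 ∈ LU (k 1) := C47.mem_LU hk (show 1 < 3 by omega)
  refine hτ.nonneg_of_isPos (C47.sa hk 1) (LU_sandwich (C47.sa hk 1) h3 h3 _) ⟨x * k 3, ?_⟩
  rw [star_mul, (C47.sa hk 3).star_eq]
  noncomm_ring

theorem le_chSup (hk : IsCh A k) (x : M) {τ : M →ₗ[ℂ] ℂ} (hτ : IsLTrace (k 1) τ)
    (h1 : τ (k 3 * k 3) = 1) : (τ (k 3 * (star x * x) * k 3)).re ≤ chSup k x :=
  le_ciSup (chSup_bdd hk x) (⟨τ, hτ, h1⟩ :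
    {τ : M →ₗ[ℂ] ℂ // IsLTrace (k 1) τ ∧ τ (k 3 * k 3) = 1})

theorem chSup_nonneg (hk : IsCh A k) (x : M) : 0 ≤ chSup k x :=
  Real.iSup_nonneg fun τ => (Complex.nonneg_iff.1 (nonneg_term hk x τ.2.1)).1

theorem exists_of_lt_chSup {x : M} {c : ℝ} (hc : 0 ≤ c) (h : c < chSup k x) :
    ∃ τ : M →ₗ[ℂ] ℂ, IsLTrace (k 1) τ ∧ τ (k 3 * k 3) = 1 ∧
      c < (τ (k 3 * (star x * x) * k 3)).re := by
  unfold chSup at h
  rcases isEmpty_or_nonempty {τ : M →ₗ[ℂ] ℂ // IsLTrace (k 1) τ ∧ τ (k 3 * k 3) = 1} with he | he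
  · rw [Real.iSup_of_isEmpty] at h
    exact absurd h (not_lt.2 hc)
  · obtain ⟨τ, hτ⟩ := exists_lt_of_lt_ciSup h
    exact ⟨τ.1, τ.2.1, τ.2.2, hτ⟩

end C47

section Sys

variable {G : Type*} [Group G] [Countable G] {ω : Ultrafilter ℕ} {M : Type u} [CStarAlgebra M]
  [SeparableSpace M] {A : Set M} {α : G →* (M ≃⋆ₐ[ℂ] M)} {B : Type u} [CStarAlgebra B]
  {q : centralSeq ω M →⋆ₐ[ℂ] B} {β : G →* (B ≃⋆ₐ[ℂ] B)} {κ : ℕ → ℕ → M}

omit [SeparableSpace M] [Countable G] in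
theorem mem_relNull_iff (R : RelSys ω A α q β) (hκ : ChFam A α κ) (y : ℕ →ᵇ M)
    (hy : Ultra.mk ω y ∈ centralSeq ω M) :
    q ⟨Ultra.mk ω y, hy⟩ ∈ relNull ω κ q ↔
      ∀ j, Tendsto (fun n => chSup (κ j) (y n)) ω (𝓝 0) := by
  have hyy : Ultra.mk ω (star y * y) ∈ centralSeq ω M := by
    rw [map_mul, map_star]
    exact mul_mem (star_mem hy) hy
  have hq : star (q ⟨Ultra.mk ω y, hy⟩) * q ⟨Ultra.mk ω y, hy⟩ =
      q ⟨Ultra.mk ω (star y * y), hyy⟩ := by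
    rw [← map_star, ← map_mul]
    congr 1
  constructor
  · intro h j
    by_contra hcon
    have hk := hκ.ch j
    have h1 : ∃ ε : ℝ, 0 < ε ∧ ∀ᶠ n in (ω : Filter ℕ), ε < chSup (κ j) (y n) := by
      by_contra hno
      push Not at hno
      apply hcon
      rw [Metric.tendsto_nhds]
      intro ε hε
      have h2 := hno (ε / 2) (by linarith)
      filter_upwards [h2] with n hn
      rw [dist_zero_right, Real.norm_eq_abs, abs_of_nonneg (C47.chSup_nonneg hk _)]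
      linarith
    obtain ⟨ε, hε, h1⟩ := h1
    obtain ⟨n₀, hn₀⟩ := h1.exists
    obtain ⟨τ₀, hτ₀, hτ₀', -⟩ := C47.exists_of_lt_chSup hε.le hn₀
    have h2 : ∀ n, ∃ σ : M →ₗ[ℂ] ℂ, (IsLTrace (κ j 1) σ ∧ σ (κ j 3 * κ j 3) = 1) ∧
        (ε < chSup (κ j) (y n) → ε < (σ (κ j 3 * (star (y n) * y n) * κ j 3)).re) := by
      intro n
      by_cases hn : ε < chSup (κ j) (y n)
      · obtain ⟨τ, h3, h4, h5⟩ := C47.exists_of_lt_chSup hε.le hn
        exact ⟨τ, ⟨h3, h4⟩, fun _ => h5⟩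
      · exact ⟨τ₀, ⟨hτ₀, hτ₀'⟩, fun h => absurd h hn⟩
    choose σ hσ hσ' using h2
    obtain ⟨τ, hτ, hlim⟩ := exists_limit_trace R hk σ hσ
    have h3 : τ ∈ relT ω κ q := ⟨j, σ, hσ, hlim⟩
    have h4 := hlim (star y * y) hyy
    rw [← hq, h τ h3] at h4
    have h5 : Tendsto (fun n => (σ n (κ j 3 * (star y * y) n * κ j 3)).re) (ω : Filter ℕ)
        (𝓝 (0 : ℂ).re) := (Complex.continuous_re.tendsto _).comp h4
    have h6 := ge_of_tendsto h5 (h1.mono fun n hn => (hσ' n hn).le)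
    rw [Complex.zero_re] at h6
    linarith
  · rintro h τ ⟨j, σ, hσ, hlim⟩
    have hk := hκ.ch j
    rw [hq]
    refine tendsto_nhds_unique (hlim (star y * y) hyy) ?_
    rw [tendsto_zero_iff_norm_tendsto_zero]
    refine squeeze_zero (fun _ => norm_nonneg _) (fun n => ?_) (h j)
    have h2 := Complex.nonneg_iff.1 (C47.nonneg_term hk (y n) (hσ n).1)
    have h3 : σ n (κ j 3 * (star y * y) n * κ j 3) =
        (((σ n (κ j 3 * (star (y n) * y n) * κ j 3)).re : ℝ) : ℂ) :=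
      Complex.ext rfl (by
        rw [Complex.ofReal_im]
        exact h2.2.symm)
    rw [h3, Complex.norm_real, Real.norm_eq_abs, abs_of_nonneg h2.1]
    exact C47.le_chSup hk (y n) (hσ n).1 (hσ n).2

end Sys

end Vale.Agent.P095.NU
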