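import Vale.Agent.P095.NU.LTr
import Vale.Agent.P095.NU.RNull
import Vale.Agent.P095.Compare2

/-!
# P095, target T7: comparison of null elements with elements of the ideal (row G20)
-/

open Filter Topology TopologicalSpace
open scoped BoundedContinuousFunction ComplexOrder

namespace Vale.Agent.P095.NU

open Vale.Agent.P101

universe u v w

namespace RCmp

section

variable {M : Type u} [CStarAlgebra M] {A : Set M} {k : ℕ → M}

theorem isPos_cfc {S : M} (hS : IsPos S) (hS1 : ‖S‖ ≤ 1) {g : ℝ → ℝ} (hg : Continuous g)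
    (h : ∀ t, 0 ≤ t → t ≤ 1 → 0 ≤ g t) : IsPos (cfc g S) := by
  refine ⟨cfc (fun t : ℝ => √(g t)) S, ?_⟩
  have h1 : IsSelfAdjoint (cfc (fun t : ℝ => √(g t)) S) := cfc_predicate _ _
  rw [h1.star_eq, ← cfc_mul (fun t : ℝ => √(g t)) (fun t : ℝ => √(g t)) S
    (by fun_prop) (by fun_prop)]
  refine cfc_congr fun t ht => ?_
  obtain ⟨h2, h3⟩ := Cmp.spectrum_of_isPos hS hS1 t ht
  exact (Real.mul_self_sqrt (h t h2 h3)).symm

theorem isPos_quart {S : M} (hS : IsPos S) (hS1 : ‖S‖ ≤ 1) {δ : ℝ} (hδ : 0 < δ) :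
    IsPos (((δ : ℝ) : ℂ) • (1 : M) +
      (((δ ^ 3)⁻¹ : ℝ) : ℂ) • (star (S * S) * (S * S)) - S) := by
  have hsa := Cmp.selfAdjoint_of_isPos hS
  have h1 : cfc (fun t : ℝ => δ + (δ ^ 3)⁻¹ * t ^ 4 - t) S =
      ((δ : ℝ) : ℂ) • (1 : M) +
      (((δ ^ 3)⁻¹ : ℝ) : ℂ) • (star (S * S) * (S * S)) - S := by
    rw [cfc_sub (fun t : ℝ => δ + (δ ^ 3)⁻¹ * t ^ 4) (fun t : ℝ => t) S,
      cfc_add S (fun _ : ℝ => δ) (fun t : ℝ => (δ ^ 3)⁻¹ * t ^ 4), cfc_const δ S,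
      cfc_const_mul (δ ^ 3)⁻¹ (fun t : ℝ => t ^ 4) S, cfc_pow_id S 4, cfc_id' ℝ S,
      Algebra.algebraMap_eq_smul_one (R := ℝ), star_mul, hsa.star_eq]
    have h2 : S ^ 4 = S * S * (S * S) := by
      rw [show (4 : ℕ) = 2 + 2 from rfl, pow_add, pow_two]
    rw [h2, Complex.coe_smul, Complex.coe_smul]
  rw [← h1]
  refine isPos_cfc hS hS1 (by fun_prop) fun t ht _ => ?_
  rcases le_total t δ with h2 | h2
  · have : 0 ≤ (δ ^ 3)⁻¹ * t ^ 4 := by positivity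
    linarith
  · have h3 : t ≤ (δ ^ 3)⁻¹ * t ^ 4 := by
      rw [inv_mul_eq_div, le_div_iff₀ (by positivity)]
      have h4 : δ ^ 3 ≤ t ^ 3 := pow_le_pow_left₀ hδ.le h2 3
      calc t * δ ^ 3 ≤ t * t ^ 3 := mul_le_mul_of_nonneg_left h4 ht
        _ = t ^ 4 := by ring
    linarith

theorem ch_sa (hk : IsCh A k) (i : ℕ) : IsSelfAdjoint (k i) :=
  Cmp.selfAdjoint_of_isPos (hk.pos i)

theorem ch_unit' (hk : IsCh A k) (i : ℕ) : k (i + 1) * k i = k (i + 1) := by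
  have h := congrArg star (hk.unit i)
  rwa [star_mul, (ch_sa hk i).star_eq, (ch_sa hk (i + 1)).star_eq] at h

theorem three_mem (hk : IsCh A k) : k 3 ∈ LU (k 1) := by
  constructor
  · have h1 := hk.unit 1
    have h2 := hk.unit 2
    norm_num at h1 h2
    rw [← h2, ← mul_assoc, h1]
  · have h1 := ch_unit' hk 1
    have h2 := ch_unit' hk 2
    norm_num at h1 h2
    rw [← h2, mul_assoc, h1]

theorem sand_mem (hk : IsCh A k) (z : M) : k 3 * z * k 3 ∈ LU (k 1) :=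
  LU_sandwich (ch_sa hk 1) (three_mem hk) (three_mem hk) z

theorem sand_isPos (hk : IsCh A k) {z : M} (hz : IsPos z) : IsPos (k 3 * z * k 3) := by
  obtain ⟨y, rfl⟩ := hz
  refine ⟨y * k 3, ?_⟩
  rw [star_mul, (ch_sa hk 3).star_eq]
  simp only [mul_assoc]

theorem trace_nonneg (hk : IsCh A k) {τ : M →ₗ[ℂ] ℂ} (hτ : IsLTrace (k 1) τ) :
    0 ≤ τ (k 3 * k 3) := by
  have h := hτ.nonneg (k 3) (three_mem hk)
  rwa [(ch_sa hk 3).star_eq] at h

theorem trace_le (hk : IsCh A k) {τ : M →ₗ[ℂ] ℂ} (hτ : IsLTrace (k 1) τ) {S : M}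
    (hS : IsPos S) (hS1 : ‖S‖ ≤ 1) {δ : ℝ} (hδ : 0 < δ) :
    (τ (k 3 * S * k 3)).re ≤ δ * (τ (k 3 * k 3)).re +
      (δ ^ 3)⁻¹ * (τ (k 3 * (star (S * S) * (S * S)) * k 3)).re := by
  have h1 := hτ.nonneg_of_isPos (ch_sa hk 1) (sand_mem hk _)
    (sand_isPos hk (isPos_quart hS hS1 hδ))
  have h2 := (Complex.nonneg_iff.1 h1).1
  rw [mul_sub, mul_add, sub_mul, add_mul, mul_smul_comm, mul_smul_comm, smul_mul_assoc,
    smul_mul_assoc, mul_one, map_sub, map_add, map_smul, map_smul, smul_eq_mul, smul_eq_mul,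
    Complex.sub_re, Complex.add_re, Complex.re_ofReal_mul, Complex.re_ofReal_mul] at h2
  linarith

theorem bdd (hk : IsCh A k) (x : M) :
    BddAbove (Set.range fun τ : {τ : M →ₗ[ℂ] ℂ // IsLTrace (k 1) τ ∧ τ (k 3 * k 3) = 1} =>
      (τ.1 (k 3 * (star x * x) * k 3)).re) := by
  refine ⟨‖star x * x‖, ?_⟩
  rintro _ ⟨τ, rfl⟩
  have h1 := τ.2.1.norm_le (ch_sa hk 1) (three_mem hk) (ch_sa hk 3) (star x * x)
  rw [τ.2.2, Complex.one_re, mul_one] at h1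
  exact (Complex.re_le_norm _).trans h1

theorem le_chSup_mul (hk : IsCh A k) {τ : M →ₗ[ℂ] ℂ} (hτ : IsLTrace (k 1) τ) (x : M) :
    (τ (k 3 * (star x * x) * k 3)).re ≤ chSup k x * (τ (k 3 * k 3)).re := by
  have h0 := trace_nonneg hk hτ
  obtain ⟨h1, h2⟩ := Complex.nonneg_iff.1 h0
  rcases h1.eq_or_lt with h3 | h3
  · have h4 := hτ.norm_le (ch_sa hk 1) (three_mem hk) (ch_sa hk 3) (star x * x)
    rw [← h3, mul_zero] at h4 ⊢
    have h5 := (Complex.re_le_norm (τ (k 3 * (star x * x) * k 3))).trans h4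
    exact h5
  · set t : ℝ := (τ (k 3 * k 3)).re with ht
    have ht2 : τ (k 3 * k 3) = ((t : ℝ) : ℂ) := by
      apply Complex.ext
      · rw [Complex.ofReal_re]
      · rw [Complex.ofReal_im]
        exact h2.symm
    have htc : ((t : ℝ) : ℂ) ≠ 0 := by
      exact_mod_cast h3.ne'
    have hτ' : IsLTrace (k 1) (((t⁻¹ : ℝ) : ℂ) • τ) := by
      refine ⟨fun y hy => ?_, fun y hy z hz => ?_⟩
      · rw [LinearMap.smul_apply, smul_eq_mul]
        refine mul_nonneg ?_ (hτ.nonneg y hy)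
        exact_mod_cast (inv_nonneg.2 h3.le)
      · rw [LinearMap.smul_apply, LinearMap.smul_apply, hτ.trace y hy z hz]
    have hn : (((t⁻¹ : ℝ) : ℂ) • τ) (k 3 * k 3) = 1 := by
      rw [LinearMap.smul_apply, smul_eq_mul, ht2, Complex.ofReal_inv, inv_mul_cancel₀ htc]
    have h5 := le_ciSup (bdd hk x) ⟨((t⁻¹ : ℝ) : ℂ) • τ, hτ', hn⟩
    have h6 : t⁻¹ * (τ (k 3 * (star x * x) * k 3)).re ≤ chSup k x := by
      rw [← Complex.re_ofReal_mul]
      exact h5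
    rw [inv_mul_le_iff₀ h3] at h6
    linarith [mul_comm t (chSup k x)]

end

end RCmp

section Sys

variable {G : Type*} [Group G] [Countable G] {ω : Ultrafilter ℕ} {M : Type u} [CStarAlgebra M]
  [SeparableSpace M] {A : Set M} {α : G →* (M ≃⋆ₐ[ℂ] M)} {B : Type u} [CStarAlgebra B]
  {q : centralSeq ω M →⋆ₐ[ℂ] B} {β : G →* (B ≃⋆ₐ[ℂ] B)} {κ : ℕ → ℕ → M}

theorem exists_compare_rel (hcomp : RelVWComp A) (hω : (ω : Filter ℕ) ≤ cofinite)
    (R : RelSys ω A α q β) (hκ : ChFam A α κ)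
    (e : centralSeq ω M) (he : IsPos e) (he1 : ‖e‖ ≤ 1) (hen : q e ∈ relNull ω κ q)
    (x : M) (hxA : x ∈ A) (hx : IsPos x) (hx0 : x ≠ 0) (j : ℕ) :
    ∃ r : Ultra ω M, ‖r‖ ≤ 1 ∧ (∀ y : M, y * x = x → Ultra.diag ω y * r = r) ∧
      star r * r = (e : Ultra ω M) * Ultra.diag ω (κ j 4 * κ j 4 * (κ j 4 * κ j 4)) := by
  have hk : IsCh A (κ j) := hκ.ch j
  obtain ⟨hs1, hs2, hs3⟩ := Cmp2.sqrt_spec he he1
  set s : centralSeq ω M := cfc (fun t : ℝ => √t) e with hs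
  obtain ⟨c, hc⟩ := hs1
  obtain ⟨cs, hcs, hcs1⟩ := Ultra.exists_rep (c : Ultra ω M)
  have hcn : ‖(c : Ultra ω M)‖ ≤ 1 := by
    have h1 : ‖c‖ * ‖c‖ ≤ 1 := by rw [← CStarRing.norm_star_mul_self, ← hc]; exact hs2
    have h2 : ‖c‖ = ‖(c : Ultra ω M)‖ := rfl
    rw [← h2]
    nlinarith [norm_nonneg c]
  have hcs2 : ∀ n, ‖cs n‖ ≤ 1 := fun n => (hcs1 n).trans hcn
  set S : ℕ →ᵇ M := star cs * cs with hSdef
  have hSmk : Ultra.mk ω S = (s : Ultra ω M) := by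
    rw [hSdef, map_mul, map_star, hcs, hc]; rfl
  have hSpos : ∀ n, IsPos (S n) := fun n => ⟨cs n, rfl⟩
  have hS1 : ∀ n, ‖S n‖ ≤ 1 := by
    intro n
    have h1 : S n = star (cs n) * cs n := rfl
    rw [h1, CStarRing.norm_star_mul_self]
    nlinarith [norm_nonneg (cs n), hcs2 n]
  set E : ℕ →ᵇ M := S * S with hE
  have hEmk : Ultra.mk ω E = (e : Ultra ω M) := by
    rw [hE, map_mul, hSmk, ← hs3]; rfl
  have hEmem : Ultra.mk ω E ∈ centralSeq ω M := by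
    rw [hEmk]; exact e.2
  have hen2 : q ⟨Ultra.mk ω E, hEmem⟩ ∈ relNull ω κ q := by
    have h1 : (⟨Ultra.mk ω E, hEmem⟩ : centralSeq ω M) = e := Subtype.ext hEmk
    rw [h1]
    exact hen
  have hEt : Tendsto (fun n => chSup (κ j) (E n)) ω (𝓝 0) :=
    (mem_relNull_iff R hκ E hEmem).1 hen2 j
  have hex : ∀ ε : ℝ, 0 < ε → ∀ᶠ n in (ω : Filter ℕ),
      ∃ r : M, (‖r‖ ≤ 2 ∧ ∀ y, y * x = x → y * r = r) ∧
        ‖star r * r - κ j 4 * S n * κ j 4 * (κ j 4 * S n * κ j 4)‖ ≤ ε := by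
    intro ε hε
    obtain ⟨η, hη, h⟩ := hcomp (κ j) hk x hxA hx hx0 ε hε
    filter_upwards [hEt.eventually (gt_mem_nhds (show (0 : ℝ) < (η / 2) ^ 3 * (η / 2) by
      positivity))] with n hn
    obtain ⟨r, hr1, hr2, hr3⟩ := h (S n) (hSpos n) (hS1 n) (by
      intro τ hτ
      have h1 := RCmp.trace_le hk hτ (hSpos n) (hS1 n) (show 0 < η / 2 by positivity)
      have h2 := RCmp.le_chSup_mul hk hτ (E n)
      have h3 : E n = S n * S n := rfl
      rw [← h3] at h1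
      have h4 : 0 ≤ (τ (κ j 3 * κ j 3)).re :=
        (Complex.nonneg_iff.1 (RCmp.trace_nonneg hk hτ)).1
      have h5 : ((η / 2) ^ 3)⁻¹ * (τ (κ j 3 * (star (E n) * E n) * κ j 3)).re ≤
          η / 2 * (τ (κ j 3 * κ j 3)).re := by
        rw [inv_mul_le_iff₀ (by positivity)]
        refine h2.trans ?_
        rw [← mul_assoc]
        exact mul_le_mul_of_nonneg_right hn.le h4
      linarith)
    exact ⟨r, ⟨hr1, hr2⟩, hr3⟩
  have hne : Nonempty {r : M // ‖r‖ ≤ 2 ∧ ∀ y, y * x = x → y * r = r} :=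
    ⟨⟨0, by rw [norm_zero]; norm_num, fun y _ => mul_zero y⟩⟩
  obtain ⟨y, hy⟩ := eps_test_countable (K := Unit)
    (X := fun _ => {r : M // ‖r‖ ≤ 2 ∧ ∀ y, y * x = x → y * r = r})
    (ω : Filter ℕ) hω (fun _ n r => ‖star (r : M) * (r : M) -
      κ j 4 * S n * κ j 4 * (κ j 4 * S n * κ j 4)‖)
    (fun _ _ _ => norm_nonneg _) (by
      intro _ ε hε
      classical
      have h1 := hex (ε / 2) (by positivity)
      refine ⟨fun n => if h : ∃ r : M, (‖r‖ ≤ 2 ∧ ∀ y, y * x = x → y * r = r) ∧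
        ‖star r * r - κ j 4 * S n * κ j 4 * (κ j 4 * S n * κ j 4)‖ ≤ ε / 2 then
          ⟨h.choose, h.choose_spec.1⟩ else
        ⟨0, by rw [norm_zero]; norm_num, fun y _ => mul_zero y⟩, fun _ _ => ?_⟩
      filter_upwards [h1] with n hn
      rw [dif_pos hn]
      refine hn.choose_spec.2.trans_lt ?_
      linarith)
  set Y : ℕ →ᵇ M := BoundedContinuousFunction.ofNormedAddCommGroupDiscrete
    (fun n => (y n : M)) 2 (fun n => (y n).2.1) with hY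
  have hd : Ultra.diag ω (κ j 4) = Ultra.mk ω (Ultra.const (κ j 4)) := rfl
  have h1 : star (Ultra.mk ω Y) * Ultra.mk ω Y =
      Ultra.diag ω (κ j 4) * (s : Ultra ω M) * Ultra.diag ω (κ j 4) *
        (Ultra.diag ω (κ j 4) * (s : Ultra ω M) * Ultra.diag ω (κ j 4)) := by
    rw [hd, ← hSmk, ← map_star, ← map_mul, ← map_mul, ← map_mul, ← map_mul, Ultra.mk_eq_mk_iff]
    exact hy ()
  have hcm : Ultra.diag ω (κ j 4) * (s : Ultra ω M) = (s : Ultra ω M) * Ultra.diag ω (κ j 4) :=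
    (mem_centralSeq_iff.1 s.2 (κ j 4))
  have hss : (s : Ultra ω M) * (s : Ultra ω M) = (e : Ultra ω M) := by
    rw [← hs3]; rfl
  have h2 : star (Ultra.mk ω Y) * Ultra.mk ω Y =
      (e : Ultra ω M) * Ultra.diag ω (κ j 4 * κ j 4 * (κ j 4 * κ j 4)) := by
    rw [h1, map_mul, map_mul, ← hss]
    set d := Ultra.diag ω (κ j 4) with hddef
    calc d * (s : Ultra ω M) * d * (d * (s : Ultra ω M) * d)
        = (s : Ultra ω M) * d * d * ((s : Ultra ω M) * d * d) := by rw [hcm]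
      _ = (s : Ultra ω M) * (d * (d * (s : Ultra ω M))) * (d * d) := by
          simp only [mul_assoc]
      _ = (s : Ultra ω M) * (d * ((s : Ultra ω M) * d)) * (d * d) := by rw [hcm]
      _ = (s : Ultra ω M) * (d * (s : Ultra ω M) * d) * (d * d) := by
          simp only [mul_assoc]
      _ = (s : Ultra ω M) * ((s : Ultra ω M) * d * d) * (d * d) := by rw [hcm]
      _ = (s : Ultra ω M) * (s : Ultra ω M) * (d * d * (d * d)) := by
          simp only [mul_assoc]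
  refine ⟨Ultra.mk ω Y, ?_, ?_, h2⟩
  · have h3 : ‖Ultra.mk ω Y‖ * ‖Ultra.mk ω Y‖ ≤ 1 := by
      rw [← CStarRing.norm_star_mul_self, h2]
      have hk4 := hk.le 4
      have h4 : ‖κ j 4 * κ j 4‖ ≤ 1 :=
        (norm_mul_le _ _).trans (mul_le_one₀ hk4 (norm_nonneg _) hk4)
      have h5 : ‖κ j 4 * κ j 4 * (κ j 4 * κ j 4)‖ ≤ 1 :=
        (norm_mul_le _ _).trans (mul_le_one₀ h4 (norm_nonneg _) h4)
      refine (norm_mul_le _ _).trans (mul_le_one₀ he1 (norm_nonneg _) ?_)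
      rw [Ultra.norm_diag]
      exact h5
    nlinarith [norm_nonneg (Ultra.mk ω Y)]
  · intro y' hy'
    rw [Ultra.diag_apply, ← map_mul]
    congr 1
    ext n
    exact (y n).2.2 y' hy'

end Sys

end Vale.Agent.P095.NU
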