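import Vale.Agent.P095.NU.Defs

/-!
P095, T7, row G34: from the unitizations back to the algebras.
-/

open Filter Topology TopologicalSpace
open scoped BoundedContinuousFunction ComplexOrder

namespace Vale.Agent.P095.NU

open Vale.Agent.P101

universe u v w

namespace RConj

section

variable {A : Type u} [NonUnitalCStarAlgebra A] {T : Type u} [NonUnitalCStarAlgebra T]

/-- An element of the unitization in the kernel of `fst` comes from the algebra. -/
theorem mem_range_inr {x : Unitization ℂ A} (hx : x.fst = 0) :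
    ∃ a : A, (a : Unitization ℂ A) = x :=
  ⟨x.snd, by ext <;> simp [hx]⟩

theorem fst_mul_eq (x y : Unitization ℂ A) : (x * y).fst = x.fst * y.fst :=
  Unitization.fst_mul x y

/-- An isomorphism of the unitizations maps the algebra into the algebra. -/
theorem fst_map_inr (hs : IsSimpleNU A) (hn : ¬ ∃ e : A, ∀ a, e * a = a)
    (hT : ∃ x : T, x ≠ 0) (Φ : Unitization ℂ A ≃⋆ₐ[ℂ] Unitization ℂ T) (a : A) :
    (Φ (a : Unitization ℂ A)).fst = 0 := by
  -- the ideal of the elements mapped into `T`
  let I : Submodule ℂ A :=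
    { carrier := {a | (Φ (a : Unitization ℂ A)).fst = 0}
      add_mem' := by
        intro x y hx hy
        simp only [Set.mem_ofPred_eq] at hx hy ⊢
        rw [Unitization.inr_add, map_add, Unitization.fst_add, hx, hy, add_zero]
      zero_mem' := by
        simp only [Set.mem_ofPred_eq, Unitization.inr_zero, map_zero, Unitization.fst_zero]
      smul_mem' := by
        intro c x hx
        simp only [Set.mem_ofPred_eq] at hx ⊢
        rw [Unitization.inr_smul, map_smul, Unitization.fst_smul, hx, smul_zero] }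
  have hI : ∀ a, a ∈ I ↔ (Φ (a : Unitization ℂ A)).fst = 0 := fun a => Iff.rfl
  have hcl : IsClosed (I : Set A) := by
    have h1 : Continuous fun a : A => (Φ (a : Unitization ℂ A)).fst :=
      Unitization.continuous_fst.comp ((StarAlgEquiv.isometry Φ).continuous.comp
        Unitization.isometry_inr.continuous)
    have h2 : (I : Set A) = (fun a : A => (Φ (a : Unitization ℂ A)).fst) ⁻¹' {0} := by
      ext a
      simp [hI]
    rw [h2]
    exact isClosed_singleton.preimage h1
  have hid : ∀ a, ∀ x ∈ I, a * x ∈ I ∧ x * a ∈ I := by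
    intro a x hx
    rw [hI] at hx ⊢
    rw [hI]
    rw [Unitization.inr_mul, map_mul, fst_mul_eq, hx, mul_zero, Unitization.inr_mul, map_mul,
      fst_mul_eq, hx, zero_mul]
    exact ⟨rfl, rfl⟩
  rcases hs.2 I hcl hid with h | h
  · -- the preimage of `T` is a nonzero ideal of the unitization which meets `A` in zero
    exfalso
    obtain ⟨x, hx⟩ := hT
    obtain ⟨m, hm⟩ : ∃ m, Φ m = (x : Unitization ℂ T) := ⟨Φ.symm x, Φ.apply_symm_apply _⟩
    have hm0 : m ≠ 0 := by
      rintro rfl
      rw [map_zero] at hm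
      exact hx (Unitization.inr_injective (R := ℂ) (by rw [← hm, Unitization.inr_zero]))
    have hma : ∀ a : A, m * (a : Unitization ℂ A) = 0 := by
      intro a
      have h1 : (m * (a : Unitization ℂ A)).fst = 0 := by
        rw [fst_mul_eq, Unitization.fst_inr, mul_zero]
      obtain ⟨b, hb⟩ := mem_range_inr h1
      have h2 : b ∈ I := by
        rw [hI, hb, map_mul, fst_mul_eq, hm, Unitization.fst_inr, zero_mul]
      rw [h, Submodule.mem_bot] at h2
      rw [← hb, h2, Unitization.inr_zero]
    have hsnd : ∀ a : A, m.fst • a + m.snd * a = 0 := by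
      intro a
      have h1 : (m * (a : Unitization ℂ A)).snd = (0 : Unitization ℂ A).snd := by rw [hma a]
      rw [Unitization.snd_mul, Unitization.snd_inr, Unitization.fst_inr,
        Unitization.snd_zero, zero_smul, add_zero] at h1
      exact h1
    by_cases h0 : m.fst = 0
    · apply hm0
      have h1 := hsnd (star m.snd)
      rw [h0, zero_smul, zero_add] at h1
      have h2 : m.snd = 0 := CStarRing.mul_star_self_eq_zero_iff _ |>.1 h1
      ext
      · simp [h0]
      · simp [h2]
    · refine hn ⟨-(m.fst)⁻¹ • m.snd, fun a => ?_⟩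
      have h1 := hsnd a
      have h2 : m.snd * a = -(m.fst • a) := by
        rw [eq_neg_iff_add_eq_zero, add_comm]
        exact h1
      rw [smul_mul_assoc, h2, neg_smul, smul_neg, neg_neg, smul_smul, inv_mul_cancel₀ h0, one_smul]
  · have : a ∈ I := by rw [h]; trivial
    exact this

end

end RConj

section Tensor

variable {G : Type*} [Group G] {Z : Type v} [CStarAlgebra Z]
  {A : Type u} [NonUnitalCStarAlgebra A] {T : Type u}
  [NonUnitalCStarAlgebra T] {t : A →ₗ[ℂ] Z →ₗ[ℂ] T}
  {α : G →* (A ≃⋆ₐ[ℂ] A)} {α' : G →* (Unitization ℂ A ≃⋆ₐ[ℂ] Unitization ℂ A)}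

open RConj in
theorem cocycleConjugateNU_of_unitization (hs : IsSimpleNU A) (hn : ¬ ∃ e : A, ∀ a, e * a = a)
    (ht : IsTensorNU t) (hZ : Nontrivial Z)
    (hα' : ∀ g (a : A), α' g (a : Unitization ℂ A) = ((α g a : A) : Unitization ℂ A))
    (γ : G →* (T ≃⋆ₐ[ℂ] T))
    (γ' : G →* (Unitization ℂ T ≃⋆ₐ[ℂ] Unitization ℂ T))
    (hγ' : ∀ g (x : T), γ' g (x : Unitization ℂ T) = ((γ g x : T) : Unitization ℂ T))
    (h : CocycleConjugate α' γ') : CocycleConjugateNU α γ := by
  obtain ⟨Φ, c, hc1, hc2, hc3⟩ := h
  have hT : ∃ x : T, x ≠ 0 := by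
    obtain ⟨a, ha⟩ := hs.1
    refine ⟨t a 1, fun h0 => ?_⟩
    have h1 : TensorProduct.lift t (a ⊗ₜ[ℂ] (1 : Z)) = TensorProduct.lift t 0 := by
      rw [TensorProduct.lift.tmul, h0, map_zero]
    have h2 := ht.injective h1
    have h3 : ∃ f : Module.Dual ℂ A, f a ≠ 0 := by
      by_contra hc
      push Not at hc
      exact ha ((Module.forall_dual_apply_eq_zero_iff ℂ a).1 hc)
    have h4 : ∃ f : Module.Dual ℂ Z, f 1 ≠ 0 := by
      by_contra hc
      push Not at hc
      exact one_ne_zero ((Module.forall_dual_apply_eq_zero_iff ℂ (1 : Z)).1 hc)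
    obtain ⟨f, hf⟩ := h3
    obtain ⟨f', hf'⟩ := h4
    have h5 := congrArg (LinearMap.mul' ℂ ℂ ∘ₗ TensorProduct.map f f') h2
    rw [map_zero, LinearMap.comp_apply, TensorProduct.map_tmul, LinearMap.mul'_apply] at h5
    exact mul_ne_zero hf hf' h5
  have hΦ : ∀ a : A, ∃ x : T, (x : Unitization ℂ T) = Φ (a : Unitization ℂ A) := fun a =>
    mem_range_inr (fst_map_inr hs hn hT Φ a)
  choose F hF using hΦ
  have hinj : Function.Injective (fun x : T => (x : Unitization ℂ T)) :=
    Unitization.inr_injective
  -- surjectivity: `Φ` maps `A` onto `T`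
  have hsurj : ∀ x : T, ∃ a : A, F a = x := by
    intro x
    obtain ⟨m, hm⟩ : ∃ m, Φ m = (x : Unitization ℂ T) := ⟨Φ.symm x, Φ.apply_symm_apply _⟩
    have hfst : (Φ m).fst = m.fst := by
      have h1 : m = algebraMap ℂ (Unitization ℂ A) m.fst + ((m.snd : A) : Unitization ℂ A) := by
        rw [Unitization.algebraMap_eq_inl]
        exact (Unitization.inl_fst_add_inr_snd_eq m).symm
      conv_lhs => rw [h1]
      rw [map_add, Unitization.fst_add, fst_map_inr hs hn hT Φ, add_zero, AlgHomClass.commutes,
        Unitization.algebraMap_eq_inl, Unitization.fst_inl]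
    have h0 : m.fst = 0 := by
      rw [← hfst, hm, Unitization.fst_inr]
    obtain ⟨a, ha⟩ := mem_range_inr h0
    refine ⟨a, hinj ?_⟩
    simp only
    rw [hF, ha, hm]
  let Ψ : A ≃⋆ₐ[ℂ] T := StarAlgEquiv.ofBijective
    ({ toFun := F
       map_smul' := fun r a => hinj (by
        simp only [MonoidHom.id_apply]
        rw [hF, Unitization.inr_smul, map_smul, Unitization.inr_smul, hF])
       map_zero' := hinj (by simp only; rw [hF, Unitization.inr_zero, map_zero, Unitization.inr_zero])
       map_add' := fun a b => hinj (by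
        simp only; rw [hF, Unitization.inr_add, map_add, Unitization.inr_add, hF, hF])
       map_mul' := fun a b => hinj (by
        simp only; rw [hF, Unitization.inr_mul, map_mul, Unitization.inr_mul, hF, hF])
       map_star' := fun a => hinj (by
        simp only; rw [hF, Unitization.inr_star, map_star, Unitization.inr_star, hF]) } :
      A →⋆ₙₐ[ℂ] T)
    ⟨fun a b hab => by
      have hab' : F a = F b := hab
      have h1 : Φ (a : Unitization ℂ A) = Φ (b : Unitization ℂ A) := by rw [← hF, ← hF, hab']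
      exact Unitization.inr_injective (R := ℂ) (EquivLike.injective Φ h1), hsurj⟩
  have hΨ : ∀ a, ((Ψ a : T) : Unitization ℂ T) = Φ (a : Unitization ℂ A) := fun a => hF a
  refine ⟨Ψ, γ', c, hγ', hc1, hc2, fun g a => ?_⟩
  rw [hΨ, ← hα', hc3, ← hγ', hΨ]

end Tensor

end Vale.Agent.P095.NU
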