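import Vale.Agent.P095.NU.NormDiag
import Vale.Agent.P095.EqFree

/-!
# P095, T7, row G5: free equivariant copies in the relative central sequence algebra
-/

open Filter Topology TopologicalSpace
open scoped BoundedContinuousFunction ComplexOrder

namespace Vale.Agent.P095.NU

open Vale.Agent.P101

universe u v w

namespace RCopies

theorem exists_norm_one {M : Type u} [CStarAlgebra M] {A : Set M} (hA : IsCore A) :
    ∃ a ∈ A, ‖a‖ = 1 := by
  have h1 : ∃ a ∈ A, a ≠ 0 := by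
    by_contra hcon
    push Not at hcon
    have h2 : (1 : M) = 0 := hA.ess 1 (fun a ha => by rw [hcon a ha, mul_zero])
    exact hA.one (h2 ▸ hA.zero)
  obtain ⟨a, ha, h0⟩ := h1
  refine ⟨((‖a‖⁻¹ : ℝ) : ℂ) • a, hA.smul _ a ha, ?_⟩
  have h3 : ‖a‖ ≠ 0 := norm_ne_zero_iff.2 h0
  rw [norm_smul, Complex.norm_real, Real.norm_eq_abs, abs_inv, abs_norm, inv_mul_cancel₀ h3]

section

variable {G : Type*} [Group G] {ω : Ultrafilter ℕ} {M : Type u} [CStarAlgebra M]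
  {A : Set M} {α : G →* (M ≃⋆ₐ[ℂ] M)} {B : Type u} [CStarAlgebra B]
  {q : centralSeq ω M →⋆ₐ[ℂ] B} {β : G →* (B ≃⋆ₐ[ℂ] B)}

/-- Reindexing relative to the ideal `A`. -/
theorem exists_reindex_rel (hω : (ω : Filter ℕ) ≤ cofinite) (R : RelSys ω A α q β)
    {a₀ : M} (ha₀ : a₀ ∈ A)
    (Z : Set (ℕ →ᵇ M)) (hZ : Z.Countable)
    (Y : Set (ℕ →ᵇ M)) (hY : Y.Countable) (hYc : ∀ y ∈ Y, Ultra.mk ω y ∈ centralSeq ω M) :
    ∃ σ : ℕ → ℕ, (∀ z ∈ Z, ‖Ultra.mk ω (reindex σ z)‖ ≤ ‖Ultra.mk ω z‖) ∧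
      (∀ z ∈ Z, ‖Ultra.mk ω (reindex σ z) * Ultra.diag ω a₀‖ ≤ ‖Ultra.mk ω z * Ultra.diag ω a₀‖) ∧
      (∀ z ∈ Z, ∀ y ∈ Y, Commute (Ultra.mk ω (reindex σ z)) (Ultra.mk ω y)) ∧
      ∀ z ∈ Z, ∀ y ∈ Y, ∀ hy : Ultra.mk ω y ∈ centralSeq ω M,
        ‖Ultra.mk ω (reindex σ z) * Ultra.mk ω y * Ultra.diag ω a₀‖ =
          ‖Ultra.mk ω z * Ultra.diag ω a₀‖ * ‖q ⟨Ultra.mk ω y, hy⟩‖ := by
  classical
  have := hZ.to_subtype
  have := hY.to_subtype
  let cy : Y → ℝ := fun y => ‖q ⟨Ultra.mk ω (y : ℕ →ᵇ M), hYc y y.2⟩‖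
  let cz : Z → ℝ := fun z => ‖Ultra.mk ω (z : ℕ →ᵇ M) * Ultra.diag ω a₀‖
  let f : Z ⊕ (Z ⊕ ((Z × Y) ⊕ (Z × Y))) → (n : ℕ) → ℕ → ℝ := fun k n m =>
    match k with
    | Sum.inl z => max 0 (‖(z : ℕ →ᵇ M) m‖ - ‖Ultra.mk ω (z : ℕ →ᵇ M)‖)
    | Sum.inr (Sum.inl z) => max 0 (‖(z : ℕ →ᵇ M) m * a₀‖ - cz z)
    | Sum.inr (Sum.inr (Sum.inl (z, y))) =>
      ‖(z : ℕ →ᵇ M) m * (y : ℕ →ᵇ M) n - (y : ℕ →ᵇ M) n * (z : ℕ →ᵇ M) m‖
    | Sum.inr (Sum.inr (Sum.inr (z, y))) =>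
      |‖(z : ℕ →ᵇ M) m * (y : ℕ →ᵇ M) n * a₀‖ - cz z * cy y|
  let g : Z ⊕ (Z ⊕ ((Z × Y) ⊕ (Z × Y))) → ℕ → ℝ := fun k m =>
    match k with
    | Sum.inl z => max 0 (‖(z : ℕ →ᵇ M) m‖ - ‖Ultra.mk ω (z : ℕ →ᵇ M)‖)
    | Sum.inr (Sum.inl z) => max 0 (‖(z : ℕ →ᵇ M) m * a₀‖ - cz z)
    | Sum.inr (Sum.inr (Sum.inl (z, y))) => 0
    | Sum.inr (Sum.inr (Sum.inr (z, y))) => |‖(z : ℕ →ᵇ M) m * a₀‖ * cy y - cz z * cy y|
  -- the limit in `n`
  have hfg : ∀ k m, Tendsto (fun n => f k n m) ω (𝓝 (g k m)) := by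
    rintro (z | z | ⟨z, y⟩ | ⟨z, y⟩) m
    · exact tendsto_const_nhds
    · exact tendsto_const_nhds
    · exact (mk_mem_centralSeq_iff.1 (hYc y y.2)) ((z : ℕ →ᵇ M) m)
    · have h5 := Ultra.tendsto_norm_mk (ω := ω)
        (Ultra.const ((z : ℕ →ᵇ M) m) * (y : ℕ →ᵇ M) * Ultra.const a₀)
      rw [map_mul, map_mul, ← Ultra.diag_apply, ← Ultra.diag_apply] at h5
      have h6 : Ultra.diag ω ((z : ℕ →ᵇ M) m) * Ultra.mk ω (y : ℕ →ᵇ M) * Ultra.diag ω a₀ =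
          Ultra.mk ω (y : ℕ →ᵇ M) * Ultra.diag ω ((z : ℕ →ᵇ M) m * a₀) := by
        rw [map_mul, ← mul_assoc]
        congr 1
        exact mem_centralSeq_iff.1 (hYc y y.2) _
      have h7 := norm_mul_diag R ⟨Ultra.mk ω (y : ℕ →ᵇ M), hYc y y.2⟩ ((z : ℕ →ᵇ M) m * a₀)
        (R.core.left _ _ ha₀)
      rw [h6] at h5
      change ‖Ultra.mk ω (y : ℕ →ᵇ M) * Ultra.diag ω ((z : ℕ →ᵇ M) m * a₀)‖ = _ at h7
      rw [h7, mul_comm] at h5
      exact (h5.sub_const _).abs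
  -- the limit in `m`
  have hg : ∀ k, Tendsto (g k) ω (𝓝 0) := by
    have ha : ∀ z : Z, Tendsto (fun m => ‖(z : ℕ →ᵇ M) m * a₀‖) ω (𝓝 (cz z)) := by
      intro z
      have h := Ultra.tendsto_norm_mk (ω := ω) ((z : ℕ →ᵇ M) * Ultra.const a₀)
      rw [map_mul, ← Ultra.diag_apply] at h
      exact h
    rintro (z | z | ⟨z, y⟩ | ⟨z, y⟩)
    · have h := (Ultra.tendsto_norm_mk (ω := ω) (z : ℕ →ᵇ M)).sub_const
        ‖Ultra.mk ω (z : ℕ →ᵇ M)‖
      rw [sub_self] at h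
      have h2 := (tendsto_const_nhds (x := (0 : ℝ)) (f := (ω : Filter ℕ))).max h
      rw [max_self] at h2
      exact h2
    · have h := (ha z).sub_const (cz z)
      rw [sub_self] at h
      have h2 := (tendsto_const_nhds (x := (0 : ℝ)) (f := (ω : Filter ℕ))).max h
      rw [max_self] at h2
      exact h2
    · exact tendsto_const_nhds
    · have h := (((ha z).mul_const (cy y)).sub_const (cz z * cy y)).abs
      rw [sub_self, abs_zero] at h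
      exact h
  obtain ⟨σ, hσ⟩ := eps_test_countable (X := fun _ => ℕ) (ω : Filter ℕ) hω f (by
    rintro (z | z | ⟨z, y⟩ | ⟨z, y⟩) n m
    · exact le_max_left _ _
    · exact le_max_left _ _
    · exact norm_nonneg _
    · exact abs_nonneg _) (by
    intro F ε hε
    have h3 : ∀ᶠ m in (ω : Filter ℕ), ∀ k ∈ F, g k m < ε := by
      rw [Filter.eventually_all_finset]
      intro k _
      exact (hg k).eventually (gt_mem_nhds hε)
    obtain ⟨m, hm⟩ := h3.exists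
    refine ⟨fun _ => m, fun k hk => ?_⟩
    exact (hfg k m).eventually (gt_mem_nhds (hm k hk)))
  refine ⟨σ, ?_, ?_, ?_, ?_⟩
  · intro z hz
    have h1 := hσ (Sum.inl ⟨z, hz⟩)
    have h2 : Tendsto (fun n => max 0 (‖z (σ n)‖ - ‖Ultra.mk ω z‖) + ‖Ultra.mk ω z‖) ω
        (𝓝 (0 + ‖Ultra.mk ω z‖)) := h1.add tendsto_const_nhds
    rw [zero_add] at h2
    refine le_of_tendsto_of_tendsto (Ultra.tendsto_norm_mk (reindex σ z)) h2
      (Eventually.of_forall fun n => ?_)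
    simp only [reindex_apply]
    linarith [le_max_right 0 (‖z (σ n)‖ - ‖Ultra.mk ω z‖)]
  · intro z hz
    have h1 : Tendsto (fun n => max 0 (‖z (σ n) * a₀‖ - cz ⟨z, hz⟩)) ω (𝓝 0) :=
      hσ (Sum.inr (Sum.inl ⟨z, hz⟩))
    have h2 : Tendsto (fun n => max 0 (‖z (σ n) * a₀‖ - cz ⟨z, hz⟩) + cz ⟨z, hz⟩) ω
        (𝓝 (0 + cz ⟨z, hz⟩)) := h1.add tendsto_const_nhds
    rw [zero_add] at h2
    have h3 := Ultra.tendsto_norm_mk (ω := ω) (reindex σ z * Ultra.const a₀)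
    rw [map_mul, ← Ultra.diag_apply] at h3
    refine le_of_tendsto_of_tendsto h3 h2 (Eventually.of_forall fun n => ?_)
    change ‖z (σ n) * a₀‖ ≤ _
    linarith [le_max_right 0 (‖z (σ n) * a₀‖ - cz ⟨z, hz⟩)]
  · intro z hz y hy
    have h1 := hσ (Sum.inr (Sum.inr (Sum.inl (⟨z, hz⟩, ⟨y, hy⟩))))
    rw [commute_iff_eq, ← map_mul, ← map_mul, Ultra.mk_eq_mk_iff]
    exact h1
  · intro z hz y hy hyc
    have h1 : Tendsto (fun n => |‖z (σ n) * y n * a₀‖ - cz ⟨z, hz⟩ * cy ⟨y, hy⟩|) ω (𝓝 0) :=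
      hσ (Sum.inr (Sum.inr (Sum.inr (⟨z, hz⟩, ⟨y, hy⟩))))
    have h2 := Ultra.tendsto_norm_mk (ω := ω) (reindex σ z * y * Ultra.const a₀)
    have h4 := (h2.sub_const (cz ⟨z, hz⟩ * cy ⟨y, hy⟩)).abs
    have h5 := tendsto_nhds_unique h4 h1
    rw [abs_eq_zero, sub_eq_zero, map_mul, map_mul, ← Ultra.diag_apply] at h5
    exact h5

variable [Countable G] [SeparableSpace M]

/-- A family of reindexed lifts of a sequence in the relative central sequence algebra. -/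
theorem exists_free_seq_rel (hω : (ω : Filter ℕ) ≤ cofinite) (R : RelSys ω A α q β)
    (d : ℕ → B) :
    ∃ ψ : ℕ → B,
      (∀ i j, ‖ψ i - ψ j‖ ≤ ‖d i - d j‖) ∧
      (∀ i j k, ‖ψ i + ψ j - ψ k‖ ≤ ‖d i + d j - d k‖) ∧
      (∀ i j k, ‖ψ i * ψ j - ψ k‖ ≤ ‖d i * d j - d k‖) ∧
      (∀ i k, ‖star (ψ i) - ψ k‖ ≤ ‖star (d i) - d k‖) ∧
      (∀ i k, ‖Complex.I • ψ i - ψ k‖ ≤ ‖Complex.I • d i - d k‖) ∧
      (∀ k, ‖1 - ψ k‖ ≤ ‖1 - d k‖) ∧
      (∀ i j, Commute (ψ i) (d j)) ∧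
      (∀ g i j, ‖β g (ψ i) - ψ j‖ ≤ ‖β g (d i) - d j‖) ∧
      ∀ i j, ‖ψ i * d j‖ = ‖d i‖ * ‖d j‖ := by
  classical
  obtain ⟨a₀, ha₀, hn₀⟩ := exists_norm_one R.core
  have hnq : ∀ x : centralSeq ω M, ‖q x‖ = ‖(x : Ultra ω M) * Ultra.diag ω a₀‖ := by
    intro x
    rw [norm_mul_diag R x a₀ ha₀, hn₀, mul_one]
  obtain ⟨a, ha⟩ := TopologicalSpace.exists_dense_seq M
  choose x hx _ using fun i => R.lift (d i)
  -- lifts
  have hlift : ∀ i, ∃ y : ℕ →ᵇ M, Ultra.mk ω y = (x i : Ultra ω M) := fun i => by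
    obtain ⟨y, hy, -⟩ := Ultra.exists_rep (x i : Ultra ω M)
    exact ⟨y, hy⟩
  choose y hy using hlift
  have hyc : ∀ i, Ultra.mk ω (y i) ∈ centralSeq ω M := fun i => by
    rw [hy]
    exact (x i).2
  let Z : Fin 9 → Set (ℕ →ᵇ M) := ![
    Set.range y,
    Set.range (fun p : ℕ × ℕ => y p.1 - y p.2),
    Set.range (fun p : ℕ × ℕ × ℕ => y p.1 + y p.2.1 - y p.2.2),
    Set.range (fun p : ℕ × ℕ × ℕ => y p.1 * y p.2.1 - y p.2.2),
    Set.range (fun p : ℕ × ℕ => star (y p.1) - y p.2),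
    Set.range (fun p : ℕ × ℕ => Complex.I • y p.1 - y p.2),
    Set.range (fun k : ℕ => 1 - y k),
    Set.range (fun p : ℕ × ℕ => Ultra.const (a p.1) * y p.2 - y p.2 * Ultra.const (a p.1)),
    Set.range (fun p : G × ℕ × ℕ => seqMap (α p.1 : M →⋆ₐ[ℂ] M) (y p.2.1) - y p.2.2)]
  have hZ : (⋃ k, Z k).Countable := by
    refine Set.countable_iUnion fun k => ?_
    fin_cases k <;> exact Set.countable_range _
  have hmem : ∀ k, ∀ z ∈ Z k, z ∈ ⋃ k, Z k := fun k z hz => Set.mem_iUnion.2 ⟨k, hz⟩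
  obtain ⟨σ, hσ1, hσ0, hσ2, hσ3⟩ := exists_reindex_rel hω R ha₀ _ hZ (Set.range y)
    (Set.countable_range y) (by
    rintro _ ⟨i, rfl⟩
    exact hyc i)
  have hcen : ∀ i, Ultra.mk ω (reindex σ (y i)) ∈ centralSeq ω M := by
    intro i
    rw [mem_centralSeq_iff]
    have hcl : IsClosed {b : M | Commute (Ultra.diag ω b) (Ultra.mk ω (reindex σ (y i)))} := by
      have hc : Continuous (Ultra.diag ω : M → Ultra ω M) :=
        AddMonoidHomClass.continuous_of_bound (Ultra.diag ω) 1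
          (fun b => by rw [one_mul, Ultra.norm_diag])
      exact isClosed_eq (hc.mul continuous_const) (continuous_const.mul hc)
    intro b
    have h1 : closure (Set.range a) ⊆
        {b : M | Commute (Ultra.diag ω b) (Ultra.mk ω (reindex σ (y i)))} := by
      apply closure_minimal _ hcl
      rintro _ ⟨j, rfl⟩
      have h2 := hσ1 (Ultra.const (a j) * y i - y i * Ultra.const (a j))
        (hmem 7 _ ⟨(j, i), rfl⟩)
      have h3 : Ultra.mk ω (Ultra.const (a j) * y i - y i * Ultra.const (a j)) = 0 := by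
        rw [map_sub, map_mul, map_mul, sub_eq_zero]
        exact (mem_centralSeq_iff.1 (hyc i) (a j))
      rw [h3, norm_zero] at h2
      have h4 := norm_le_zero_iff.1 h2
      have h5 : reindex σ (Ultra.const (a j) * y i - y i * Ultra.const (a j)) =
          Ultra.const (a j) * reindex σ (y i) - reindex σ (y i) * Ultra.const (a j) := by
        ext n
        rfl
      rw [h5, map_sub, map_mul, map_mul, sub_eq_zero] at h4
      exact h4
    exact h1 (ha b)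
  let ψ' : ℕ → centralSeq ω M := fun i => ⟨Ultra.mk ω (reindex σ (y i)), hcen i⟩
  have key : ∀ (c' c : centralSeq ω M) (z : ℕ →ᵇ M), z ∈ ⋃ k, Z k →
      (c' : Ultra ω M) = Ultra.mk ω (reindex σ z) → (c : Ultra ω M) = Ultra.mk ω z →
      ‖q c'‖ ≤ ‖q c‖ := by
    intro c' c z hz h1 h2
    rw [hnq, hnq, h1, h2]
    exact hσ0 z hz
  refine ⟨fun i => q (ψ' i), ?_, ?_, ?_, ?_, ?_, ?_, ?_, ?_, ?_⟩
  · intro i j
    have h1 := key (ψ' i - ψ' j) (x i - x j) (y i - y j) (hmem 1 _ ⟨(i, j), rfl⟩) rfl (by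
      rw [map_sub, hy, hy]
      rfl)
    rw [map_sub, map_sub, hx, hx] at h1
    exact h1
  · intro i j k
    have h1 := key (ψ' i + ψ' j - ψ' k) (x i + x j - x k) (y i + y j - y k)
      (hmem 2 _ ⟨(i, j, k), rfl⟩) rfl (by
      rw [map_sub, map_add, hy, hy, hy]
      rfl)
    rw [map_sub, map_sub, map_add, map_add, hx, hx, hx] at h1
    exact h1
  · intro i j k
    have h1 := key (ψ' i * ψ' j - ψ' k) (x i * x j - x k) (y i * y j - y k)
      (hmem 3 _ ⟨(i, j, k), rfl⟩) rfl (by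
      rw [map_sub, map_mul, hy, hy, hy]
      rfl)
    rw [map_sub, map_sub, map_mul, map_mul, hx, hx, hx] at h1
    exact h1
  · intro i k
    have h1 := key (star (ψ' i) - ψ' k) (star (x i) - x k) (star (y i) - y k)
      (hmem 4 _ ⟨(i, k), rfl⟩) rfl (by
      rw [map_sub, map_star, hy, hy]
      rfl)
    rw [map_sub, map_sub, map_star, map_star, hx, hx] at h1
    exact h1
  · intro i k
    have h1 := key (Complex.I • ψ' i - ψ' k) (Complex.I • x i - x k) (Complex.I • y i - y k)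
      (hmem 5 _ ⟨(i, k), rfl⟩) rfl (by
      rw [map_sub, map_smul, hy, hy]
      rfl)
    rw [map_sub, map_sub, map_smul, map_smul, hx, hx] at h1
    exact h1
  · intro k
    have h1 := key (1 - ψ' k) (1 - x k) (1 - y k)
      (hmem 6 _ ⟨k, rfl⟩) rfl (by
      rw [map_sub, map_one, hy]
      rfl)
    rw [map_sub, map_sub, map_one, hx] at h1
    exact h1
  · intro i j
    have h1 := hσ2 (y i) (hmem 0 _ ⟨i, rfl⟩) (y j) ⟨j, rfl⟩
    have h2 : ψ' i * x j = x j * ψ' i := by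
      apply Subtype.ext
      have h3 : Ultra.mk ω (reindex σ (y i)) * Ultra.mk ω (y j) =
        Ultra.mk ω (y j) * Ultra.mk ω (reindex σ (y i)) := h1
      rw [hy j] at h3
      exact h3
    rw [commute_iff_eq, ← hx j, ← map_mul, ← map_mul, h2]
  · intro g i j
    rw [← hx i, R.act, R.act, ← hx j, ← map_sub, ← map_sub]
    refine key _ _ (seqMap (α g : M →⋆ₐ[ℂ] M) (y i) - y j) (hmem 8 _ ⟨(g, i, j), rfl⟩) ?_ ?_
    · have h2 : reindex σ (seqMap (α g : M →⋆ₐ[ℂ] M) (y i) - y j) =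
          seqMap (α g : M →⋆ₐ[ℂ] M) (reindex σ (y i)) - reindex σ (y j) := by
        ext n
        rfl
      rw [h2, map_sub, ← ultraAct_mk]
      change ((centralAct ω α g (ψ' i) : centralSeq ω M) : Ultra ω M) - _ = _
      rw [coe_centralAct]
    · rw [map_sub, ← ultraAct_mk, hy, hy]
      change ((centralAct ω α g (x i) : centralSeq ω M) : Ultra ω M) - _ = _
      rw [coe_centralAct]
  · intro i j
    have h1 := hσ3 (y i) (hmem 0 _ ⟨i, rfl⟩) (y j) ⟨j, rfl⟩ (hyc j)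
    have h2 : (⟨Ultra.mk ω (y j), hyc j⟩ : centralSeq ω M) = x j := Subtype.ext (hy j)
    rw [h2, hx j, hy i, ← hnq, hx i] at h1
    rw [← h1, ← hx j, ← map_mul, hnq, hy j]
    rfl

end

end RCopies

section Sys

variable {G : Type*} [Group G] [Countable G] {ω : Ultrafilter ℕ} {M : Type u} [CStarAlgebra M]
  [SeparableSpace M] {A : Set M} {α : G →* (M ≃⋆ₐ[ℂ] M)} {B : Type u} [CStarAlgebra B]
  {q : centralSeq ω M →⋆ₐ[ℂ] B} {β : G →* (B ≃⋆ₐ[ℂ] B)}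

theorem hasFreeCopies_rel (hω : (ω : Filter ℕ) ≤ cofinite) (R : RelSys ω A α q β) :
    HasFreeCopies β :=
  hasFreeCopies_of_seq _ fun d => RCopies.exists_free_seq_rel hω R d

end Sys

end Vale.Agent.P095.NU
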