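import Vale.Agent.P095.NU.LTr
import Vale.Agent.P095.NU.NormDiag
import Vale.Agent.P095.NU.RNull
import Vale.Agent.P095.EqCC

/-!
# P095, target T7, row G6: equivariant commuting copies in the relative central sequence algebra
-/

open Filter Topology TopologicalSpace
open scoped BoundedContinuousFunction ComplexOrder

namespace Vale.Agent.P095.NU

open Vale.Agent.P101

universe u v w

namespace RCopiesJ

section Reindex

variable {A : Type u} [CStarAlgebra A] {ω : Ultrafilter ℕ}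

/-- Reindexing: norms do not increase, countably many given central sequences are commuted with,
and countably many nonnegative conditions which tend to `0` keep this property. -/
theorem exists_reindex_cond (hω : (ω : Filter ℕ) ≤ cofinite) (Z : Set (ℕ →ᵇ A))
    (hZ : Z.Countable) (Y : Set (ℕ →ᵇ A)) (hY : Y.Countable)
    (hYc : ∀ y ∈ Y, Ultra.mk ω y ∈ centralSeq ω A) (f : ℕ → A → ℝ) (hf : ∀ j x, 0 ≤ f j x) :
    ∃ σ : ℕ → ℕ, (∀ z ∈ Z, ‖Ultra.mk ω (reindex σ z)‖ ≤ ‖Ultra.mk ω z‖) ∧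
      (∀ z ∈ Z, ∀ y ∈ Y, Commute (Ultra.mk ω (reindex σ z)) (Ultra.mk ω y)) ∧
      ∀ z ∈ Z, ∀ j, Tendsto (fun n => f j (z n)) ω (𝓝 0) →
        Tendsto (fun n => f j (reindex σ z n)) ω (𝓝 0) := by
  classical
  have := hZ.to_subtype
  have := hY.to_subtype
  let N : Set ((ℕ →ᵇ A) × ℕ) := {p | p.1 ∈ Z ∧ Tendsto (fun n => f p.2 (p.1 n)) ω (𝓝 0)}
  have hN : N.Countable := by
    refine (hZ.prod (Set.countable_univ (α := ℕ))).mono ?_
    intro p hp
    exact Set.mem_prod.2 ⟨hp.1, Set.mem_univ _⟩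
  have := hN.to_subtype
  let F : Z ⊕ ((Z × Y) ⊕ N) → (n : ℕ) → ℕ → ℝ := fun k n m =>
    match k with
    | Sum.inl z => max 0 (‖(z : ℕ →ᵇ A) m‖ - ‖Ultra.mk ω (z : ℕ →ᵇ A)‖)
    | Sum.inr (Sum.inl (z, y)) =>
      ‖(z : ℕ →ᵇ A) m * (y : ℕ →ᵇ A) n - (y : ℕ →ᵇ A) n * (z : ℕ →ᵇ A) m‖
    | Sum.inr (Sum.inr z) => f (z : (ℕ →ᵇ A) × ℕ).2 ((z : (ℕ →ᵇ A) × ℕ).1 m)
  obtain ⟨σ, hσ⟩ := eps_test_countable (X := fun _ => ℕ) (ω : Filter ℕ) hω F (by
    rintro (z | ⟨z, y⟩ | z) n m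
    · exact le_max_left _ _
    · exact norm_nonneg _
    · exact hf _ _) (by
    intro E ε hε
    have h1 : ∀ z : Z, ∀ᶠ m in (ω : Filter ℕ),
        max 0 (‖(z : ℕ →ᵇ A) m‖ - ‖Ultra.mk ω (z : ℕ →ᵇ A)‖) < ε := by
      intro z
      have h2 : Tendsto (fun m => max 0 (‖(z : ℕ →ᵇ A) m‖ - ‖Ultra.mk ω (z : ℕ →ᵇ A)‖)) ω
          (𝓝 (max 0 (‖Ultra.mk ω (z : ℕ →ᵇ A)‖ - ‖Ultra.mk ω (z : ℕ →ᵇ A)‖))) :=
        tendsto_const_nhds.max ((Ultra.tendsto_norm_mk _).sub tendsto_const_nhds)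
      rw [sub_self, max_self] at h2
      exact h2.eventually (gt_mem_nhds hε)
    have h3 : ∀ᶠ m in (ω : Filter ℕ), ∀ k ∈ E,
        (∀ z : Z, k = Sum.inl z →
          max 0 (‖(z : ℕ →ᵇ A) m‖ - ‖Ultra.mk ω (z : ℕ →ᵇ A)‖) < ε) ∧
        ∀ z : N, k = Sum.inr (Sum.inr z) →
          f (z : (ℕ →ᵇ A) × ℕ).2 ((z : (ℕ →ᵇ A) × ℕ).1 m) < ε := by
      rw [Filter.eventually_all_finset]
      rintro (z | zy | z) _
      · filter_upwards [h1 z] with m hm
        refine ⟨fun z' hz' => ?_, fun z' hz' => (by cases hz')⟩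
        obtain rfl := Sum.inl_injective hz'
        exact hm
      · exact Eventually.of_forall (fun m =>
          ⟨fun z' hz' => (by cases hz'), fun z' hz' => (by cases hz')⟩)
      · filter_upwards [(z.2.2).eventually (gt_mem_nhds hε)] with m hm
        refine ⟨fun z' hz' => (by cases hz'), fun z' hz' => ?_⟩
        obtain rfl := Sum.inr_injective (Sum.inr_injective hz')
        exact hm
    obtain ⟨m, hm⟩ := h3.exists
    refine ⟨fun _ => m, ?_⟩
    rintro (z | ⟨z, y⟩ | z) hk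
    · exact Eventually.of_forall (fun n => (hm _ hk).1 z rfl)
    · have h4 := (mk_mem_centralSeq_iff.1 (hYc y y.2)) ((z : ℕ →ᵇ A) m)
      exact h4.eventually (gt_mem_nhds hε)
    · exact Eventually.of_forall (fun n => (hm _ hk).2 z rfl))
  refine ⟨σ, ?_, ?_, ?_⟩
  · intro z hz
    have h1 := hσ (Sum.inl ⟨z, hz⟩)
    have h2 : Tendsto (fun n => max 0 (‖z (σ n)‖ - ‖Ultra.mk ω z‖) + ‖Ultra.mk ω z‖) ω
        (𝓝 (0 + ‖Ultra.mk ω z‖)) := h1.add tendsto_const_nhds
    rw [zero_add] at h2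
    refine le_of_tendsto_of_tendsto (Ultra.tendsto_norm_mk (reindex σ z)) h2
      (Eventually.of_forall fun n => ?_)
    simp only [reindex_apply]
    linarith [le_max_right 0 (‖z (σ n)‖ - ‖Ultra.mk ω z‖)]
  · intro z hz y hy
    have h1 := hσ (Sum.inr (Sum.inl (⟨z, hz⟩, ⟨y, hy⟩)))
    rw [commute_iff_eq, ← map_mul, ← map_mul, Ultra.mk_eq_mk_iff]
    exact h1
  · intro z hz j hz'
    exact hσ (Sum.inr (Sum.inr ⟨(z, j), hz, hz'⟩))

end Reindex

section Chain

variable {M : Type u} [CStarAlgebra M] {A : Set M} {k : ℕ → M}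

theorem isSelfAdjoint_of_isPos {x : M} (h : IsPos x) : IsSelfAdjoint x := by
  obtain ⟨y, rfl⟩ := h
  exact IsSelfAdjoint.star_mul_self y

theorem three_mem_LU (hk : IsCh A k) : k 3 ∈ LU (k 1) := by
  have h1 : k 1 * k 3 = k 3 := by
    have h12 := hk.unit 1
    have h23 := hk.unit 2
    calc k 1 * k 3 = k 1 * (k 2 * k 3) := by rw [h23]
      _ = k 2 * k 3 := by rw [← mul_assoc, h12]
      _ = k 3 := h23
  refine ⟨h1, ?_⟩
  have h2 := congrArg star h1
  rw [star_mul, (isSelfAdjoint_of_isPos (hk.pos 1)).star_eq,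
    (isSelfAdjoint_of_isPos (hk.pos 3)).star_eq] at h2
  exact h2

theorem chSup_nonneg (hk : IsCh A k) (x : M) : 0 ≤ chSup k x := by
  refine Real.iSup_nonneg fun τ => ?_
  have hs3 := isSelfAdjoint_of_isPos (hk.pos 3)
  have h3 := three_mem_LU hk
  have hmem : k 3 * (star x * x) * k 3 ∈ LU (k 1) := by
    constructor
    · rw [← mul_assoc, ← mul_assoc, h3.1]
    · rw [mul_assoc, h3.2]
  have hp : IsPos (k 3 * (star x * x) * k 3) := by
    refine ⟨x * k 3, ?_⟩
    rw [star_mul, hs3.star_eq]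
    noncomm_ring
  exact (Complex.nonneg_iff.1 (τ.2.1.nonneg_of_isPos (isSelfAdjoint_of_isPos (hk.pos 1)) hmem
    hp)).1

end Chain

section Sys

variable {G : Type*} [Group G] {ω : Ultrafilter ℕ} {M : Type u} [CStarAlgebra M]
  {A : Set M} {α : G →* (M ≃⋆ₐ[ℂ] M)} {B : Type u} [CStarAlgebra B]
  {q : centralSeq ω M →⋆ₐ[ℂ] B} {β : G →* (B ≃⋆ₐ[ℂ] B)} {κ : ℕ → ℕ → M}

theorem norm_le_of_mem_relT (R : RelSys ω A α q β) (hκ : ChFam A α κ) {τ : B →ₗ[ℂ] ℂ}
    (hτ : τ ∈ relT ω κ q) (b : B) : ‖τ b‖ ≤ ‖b‖ := by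
  obtain ⟨j, σ, hσ, hlim⟩ := hτ
  obtain ⟨x, hx, hxn⟩ := R.lift b
  obtain ⟨y, hy, -⟩ := Ultra.exists_rep (x : Ultra ω M)
  have hyc : Ultra.mk ω y ∈ centralSeq ω M := by rw [hy]; exact x.2
  have h1 := hlim y hyc
  have h2 : (⟨Ultra.mk ω y, hyc⟩ : centralSeq ω M) = x := Subtype.ext hy
  rw [h2, hx] at h1
  have h3 := Ultra.tendsto_norm_mk (ω := ω) y
  rw [hy] at h3
  have h4 : ‖(x : Ultra ω M)‖ = ‖b‖ := hxn
  rw [h4] at h3
  refine le_of_tendsto_of_tendsto h1.norm h3 (Eventually.of_forall fun n => ?_)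
  have h5 := (hσ n).1.norm_le (isSelfAdjoint_of_isPos ((hκ.ch j).pos 1))
    (three_mem_LU (hκ.ch j)) (isSelfAdjoint_of_isPos ((hκ.ch j).pos 3)) (y n)
  rw [(hσ n).2, Complex.one_re, mul_one] at h5
  exact h5

theorem isClosed_relNull (R : RelSys ω A α q β) (hκ : ChFam A α κ) :
    IsClosed (relNull ω κ q) := by
  have h : relNull ω κ q = ⋂ τ ∈ relT ω κ q, {b : B | τ (star b * b) = 0} := by
    ext b
    simp [relNull]
  rw [h]
  refine isClosed_biInter fun τ hτ => ?_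
  have hc : Continuous τ := AddMonoidHomClass.continuous_of_bound τ 1
    (fun b => by rw [one_mul]; exact norm_le_of_mem_relT R hκ hτ b)
  exact isClosed_eq (hc.comp (continuous_star.mul continuous_id)) continuous_const

theorem norm_le_of_mul_diag (R : RelSys ω A α q β) {a : M} (ha : a ∈ A) (ha0 : a ≠ 0)
    (u v : centralSeq ω M) (h : ‖(v : Ultra ω M) * Ultra.diag ω a‖ ≤
      ‖(u : Ultra ω M) * Ultra.diag ω a‖) : ‖q v‖ ≤ ‖q u‖ := by
  rw [norm_mul_diag R v a ha, norm_mul_diag R u a ha] at h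
  exact le_of_mul_le_mul_right h (norm_pos_iff.2 ha0)

end Sys

end RCopiesJ

section Main

variable {G : Type*} [Group G] [Countable G] {ω : Ultrafilter ℕ} {M : Type u} [CStarAlgebra M]
  [SeparableSpace M] {A : Set M} {α : G →* (M ≃⋆ₐ[ℂ] M)} {B : Type u} [CStarAlgebra B]
  {q : centralSeq ω M →⋆ₐ[ℂ] B} {β : G →* (B ≃⋆ₐ[ℂ] B)} {κ : ℕ → ℕ → M}

open RCopiesJ

theorem hasEqCopies_rel (hω : (ω : Filter ℕ) ≤ cofinite) (R : RelSys ω A α q β)
    (hκ : ChFam A α κ) : HasEqCopies β (relNull ω κ q) := by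
  classical
  refine hasEqCopies_of_seq _ _ (isClosed_relNull R hκ) fun d => ?_
  have ha0 : κ 0 0 ∈ A := (hκ.ch 0).mem 0
  have ha0' : κ 0 0 ≠ 0 := (hκ.ch 0).ne 0
  generalize κ 0 0 = a₀ at ha0 ha0'
  obtain ⟨a, ha⟩ := TopologicalSpace.exists_dense_seq M
  choose x hx _hxn using fun i => R.lift (d i)
  have hlift : ∀ i, ∃ y : ℕ →ᵇ M, Ultra.mk ω y = (x i : Ultra ω M) := fun i => by
    obtain ⟨y, hy, -⟩ := Ultra.exists_rep (x i : Ultra ω M)
    exact ⟨y, hy⟩
  choose y hy using hlift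
  let c₀ : ℕ →ᵇ M := Ultra.const a₀
  let Z : Fin 9 → Set (ℕ →ᵇ M) := ![
    Set.range y,
    Set.range (fun p : ℕ × ℕ => (y p.1 - y p.2) * c₀),
    Set.range (fun p : ℕ × ℕ × ℕ => (y p.1 + y p.2.1 - y p.2.2) * c₀),
    Set.range (fun p : ℕ × ℕ × ℕ => (y p.1 * y p.2.1 - y p.2.2) * c₀),
    Set.range (fun p : ℕ × ℕ => (star (y p.1) - y p.2) * c₀),
    Set.range (fun p : ℕ × ℕ => (Complex.I • y p.1 - y p.2) * c₀),
    Set.range (fun k : ℕ => (1 - y k) * c₀),
    Set.range (fun p : ℕ × ℕ => Ultra.const (a p.1) * y p.2 - y p.2 * Ultra.const (a p.1)),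
    Set.range (fun p : G × ℕ × ℕ => (seqMap (α p.1 : M →⋆ₐ[ℂ] M) (y p.2.1) - y p.2.2) * c₀)]
  have hZ : (⋃ k, Z k).Countable := by
    refine Set.countable_iUnion fun k => ?_
    fin_cases k <;> exact Set.countable_range _
  have hmem : ∀ k, ∀ z ∈ Z k, z ∈ ⋃ k, Z k := fun k z hz => Set.mem_iUnion.2 ⟨k, hz⟩
  obtain ⟨σ, hσ1, hσ2, hσ3⟩ := exists_reindex_cond hω _ hZ (Set.range y) (Set.countable_range y)
    (by
      rintro _ ⟨i, rfl⟩
      rw [hy]
      exact (x i).2) (fun j => chSup (κ j)) (fun j z => chSup_nonneg (hκ.ch j) z)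
  have hψc : ∀ i, Ultra.mk ω (reindex σ (y i)) ∈ centralSeq ω M := by
    intro i
    rw [mem_centralSeq_iff]
    have hcl : IsClosed {b : M | Commute (Ultra.diag ω b) (Ultra.mk ω (reindex σ (y i)))} := by
      have hc : Continuous (Ultra.diag ω : M → Ultra ω M) :=
        AddMonoidHomClass.continuous_of_bound (Ultra.diag ω) 1
          (fun b => by rw [one_mul, Ultra.norm_diag])
      exact isClosed_eq (hc.mul continuous_const) (continuous_const.mul hc)
    intro b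
    have h1 : closure (Set.range a) ⊆
        {b : M | Commute (Ultra.diag ω b) (Ultra.mk ω (reindex σ (y i)))} := by
      apply closure_minimal _ hcl
      rintro _ ⟨j, rfl⟩
      have h2 := hσ1 (Ultra.const (a j) * y i - y i * Ultra.const (a j))
        (hmem 7 _ ⟨(j, i), rfl⟩)
      have h3 : Ultra.mk ω (Ultra.const (a j) * y i - y i * Ultra.const (a j)) = 0 := by
        rw [map_sub, map_mul, map_mul, hy, sub_eq_zero]
        exact (mem_centralSeq_iff.1 (x i).2 (a j))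
      rw [h3, norm_zero] at h2
      have h4 := norm_le_zero_iff.1 h2
      have h5 : reindex σ (Ultra.const (a j) * y i - y i * Ultra.const (a j)) =
          Ultra.const (a j) * reindex σ (y i) - reindex σ (y i) * Ultra.const (a j) := by
        ext n
        rfl
      rw [h5, map_sub, map_mul, map_mul, sub_eq_zero] at h4
      exact h4
    exact h1 (ha b)
  let ψ : ℕ → centralSeq ω M := fun i => ⟨Ultra.mk ω (reindex σ (y i)), hψc i⟩
  have hψ : ∀ i, (ψ i : Ultra ω M) = Ultra.mk ω (reindex σ (y i)) := fun i => rfl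
  -- the transfer of relations
  have key : ∀ (z : ℕ →ᵇ M) (u v : centralSeq ω M), z * c₀ ∈ ⋃ k, Z k →
      Ultra.mk ω z = (u : Ultra ω M) → Ultra.mk ω (reindex σ z) = (v : Ultra ω M) →
      ‖q v‖ ≤ ‖q u‖ := by
    intro z u v hz hu hv
    refine norm_le_of_mul_diag R ha0 ha0' u v ?_
    have h1 := hσ1 _ hz
    have h2 : reindex σ (z * c₀) = reindex σ z * c₀ := by
      ext n
      rfl
    rw [h2, map_mul, map_mul, hu, hv] at h1
    exact h1
  refine ⟨fun i => q (ψ i), ?_, ?_, ?_, ?_, ?_, ?_, ?_, ?_, ?_⟩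
  · intro i j
    have h1 := key (y i - y j) (x i - x j) (ψ i - ψ j) (hmem 1 _ ⟨(i, j), rfl⟩)
      (by rw [map_sub, hy, hy]; rfl) (by
        rw [show reindex σ (y i - y j) = reindex σ (y i) - reindex σ (y j) from by ext n; rfl,
          map_sub]
        rfl)
    rw [map_sub, map_sub, hx, hx] at h1
    exact h1
  · intro i j k
    have h1 := key (y i + y j - y k) (x i + x j - x k) (ψ i + ψ j - ψ k)
      (hmem 2 _ ⟨(i, j, k), rfl⟩)
      (by rw [map_sub, map_add, hy, hy, hy]; rfl) (by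
        rw [show reindex σ (y i + y j - y k) =
          reindex σ (y i) + reindex σ (y j) - reindex σ (y k) from by ext n; rfl,
          map_sub, map_add]
        rfl)
    rw [map_sub, map_sub, map_add, map_add, hx, hx, hx] at h1
    exact h1
  · intro i j k
    have h1 := key (y i * y j - y k) (x i * x j - x k) (ψ i * ψ j - ψ k)
      (hmem 3 _ ⟨(i, j, k), rfl⟩)
      (by rw [map_sub, map_mul, hy, hy, hy]; rfl) (by
        rw [show reindex σ (y i * y j - y k) =
          reindex σ (y i) * reindex σ (y j) - reindex σ (y k) from by ext n; rfl,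
          map_sub, map_mul]
        rfl)
    rw [map_sub, map_sub, map_mul, map_mul, hx, hx, hx] at h1
    exact h1
  · intro i k
    have h1 := key (star (y i) - y k) (star (x i) - x k) (star (ψ i) - ψ k)
      (hmem 4 _ ⟨(i, k), rfl⟩)
      (by rw [map_sub, map_star, hy, hy]; rfl) (by
        rw [show reindex σ (star (y i) - y k) =
          star (reindex σ (y i)) - reindex σ (y k) from by ext n; rfl,
          map_sub, map_star]
        rfl)
    rw [map_sub, map_sub, map_star, map_star, hx, hx] at h1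
    exact h1
  · intro i k
    have h1 := key (Complex.I • y i - y k) (Complex.I • x i - x k) (Complex.I • ψ i - ψ k)
      (hmem 5 _ ⟨(i, k), rfl⟩)
      (by rw [map_sub, map_smul, hy, hy]; rfl) (by
        rw [show reindex σ (Complex.I • y i - y k) =
          Complex.I • reindex σ (y i) - reindex σ (y k) from by ext n; rfl,
          map_sub, map_smul]
        rfl)
    rw [map_sub, map_sub, map_smul, map_smul, hx, hx] at h1
    exact h1
  · intro k
    have h1 := key (1 - y k) (1 - x k) (1 - ψ k)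
      (hmem 6 _ ⟨k, rfl⟩)
      (by rw [map_sub, map_one, hy]; rfl) (by
        rw [show reindex σ (1 - y k) = 1 - reindex σ (y k) from by ext n; rfl,
          map_sub, map_one]
        rfl)
    rw [map_sub, map_sub, map_one, hx] at h1
    exact h1
  · intro i j
    have h1 := hσ2 (y i) (hmem 0 _ ⟨i, rfl⟩) (y j) ⟨j, rfl⟩
    rw [hy j] at h1
    have h2 : Commute (ψ i) (x j) := by
      rw [commute_iff_eq, Subtype.ext_iff]
      exact h1
    have h3 := h2.map q
    rw [hx] at h3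
    exact h3
  · intro g i j
    have h1 := key (seqMap (α g : M →⋆ₐ[ℂ] M) (y i) - y j) (centralAct ω α g (x i) - x j)
      (centralAct ω α g (ψ i) - ψ j) (hmem 8 _ ⟨(g, i, j), rfl⟩)
      (by
        rw [map_sub, ← ultraAct_mk, hy, hy]
        rfl) (by
        rw [show reindex σ (seqMap (α g : M →⋆ₐ[ℂ] M) (y i) - y j) =
          seqMap (α g : M →⋆ₐ[ℂ] M) (reindex σ (y i)) - reindex σ (y j) from by ext n; rfl,
          map_sub, ← ultraAct_mk]
        rfl)
    rw [map_sub, map_sub, ← R.act, ← R.act, hx, hx] at h1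
    exact h1
  · intro i hi
    have hyc : Ultra.mk ω (y i) ∈ centralSeq ω M := by rw [hy]; exact (x i).2
    have h1 : (⟨Ultra.mk ω (y i), hyc⟩ : centralSeq ω M) = x i := Subtype.ext (hy i)
    rw [← hx i, ← h1] at hi
    have h2 := (mem_relNull_iff R hκ (y i) hyc).1 hi
    exact (mem_relNull_iff R hκ (reindex σ (y i)) (hψc i)).2 fun j =>
      hσ3 (y i) (hmem 0 _ ⟨i, rfl⟩) j (h2 j)

end Main

end Vale.Agent.P095.NU
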