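import Vale.Agent.P095.NU.Defs
import Vale.Agent.P095.CuntzPed2
import Vale.Agent.P095.NucDimExc

/-!
# P095, T7, row G15: Cuntz-Pedersen decomposition with local units
-/

open Filter Topology TopologicalSpace
open scoped BoundedContinuousFunction ComplexOrder

namespace Vale.Agent.P095.NU

open Vale.Agent.P101

universe u v w

namespace RDecomp

variable {M : Type u} [CStarAlgebra M]

theorem isSelfAdjoint_of_isPos {x : M} (hx : IsPos x) : IsSelfAdjoint x := by
  obtain ⟨y, rfl⟩ := hx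
  exact IsSelfAdjoint.star_mul_self y

/-- positive elements of `LU k` have a square root in `LU k` -/
theorem exists_sqrt {k z : M} (hk : IsSelfAdjoint k) (hz : z ∈ LU k) (hp : IsPos z) :
    ∃ s ∈ LU k, star s = s ∧ s * s = z := by
  let _ : PartialOrder M := CStarAlgebra.spectralOrder M
  have _ : StarOrderedRing M := CStarAlgebra.spectralOrderedRing M
  have hp' : 0 ≤ z := by
    obtain ⟨y, rfl⟩ := hp
    exact star_mul_self_nonneg _
  have hs : star (CFC.sqrt z) = CFC.sqrt z := (CFC.sqrt_nonneg z).isSelfAdjoint.star_eq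
  have hm : CFC.sqrt z * CFC.sqrt z = z := CFC.sqrt_mul_sqrt_self z hp'
  have h0 : star (CFC.sqrt z * (1 - k)) * (CFC.sqrt z * (1 - k)) = 0 := by
    rw [star_mul, hs, mul_assoc, ← mul_assoc (CFC.sqrt z), hm, mul_sub, mul_one, hz.2, sub_self,
      mul_zero]
  have h1 : CFC.sqrt z * (1 - k) = 0 := CStarRing.star_mul_self_eq_zero_iff _ |>.1 h0
  have h2 : CFC.sqrt z * k = CFC.sqrt z := by
    rw [mul_sub, mul_one, sub_eq_zero] at h1
    exact h1.symm
  have h3 : k * CFC.sqrt z = CFC.sqrt z := by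
    have := congrArg star h2
    rwa [star_mul, hs, hk.star_eq] at this
  exact ⟨CFC.sqrt z, ⟨h3, h2⟩, hs, hm⟩

theorem lu_zero (k : M) : (0 : M) ∈ LU k := ⟨mul_zero _, zero_mul _⟩

theorem lu_add {k x y : M} (hx : x ∈ LU k) (hy : y ∈ LU k) : x + y ∈ LU k :=
  ⟨by rw [mul_add, hx.1, hy.1], by rw [add_mul, hx.2, hy.2]⟩

theorem lu_smul {k x : M} (c : ℂ) (hx : x ∈ LU k) : c • x ∈ LU k :=
  ⟨by rw [mul_smul_comm, hx.1], by rw [smul_mul_assoc, hx.2]⟩

theorem lu_mul {k x y : M} (hx : x ∈ LU k) (hy : y ∈ LU k) : x * y ∈ LU k :=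
  ⟨by rw [← mul_assoc, hx.1], by rw [mul_assoc, hy.2]⟩

theorem lu_sand {k x y : M} (hx : x ∈ LU k) (hy : y ∈ LU k) (z : M) : x * z * y ∈ LU k :=
  ⟨by rw [← mul_assoc, ← mul_assoc, hx.1], by rw [mul_assoc, hy.2]⟩

theorem lu_star {k x : M} (hk : IsSelfAdjoint k) (hx : x ∈ LU k) : star x ∈ LU k := by
  refine ⟨?_, ?_⟩
  · have := congrArg star hx.2
    rwa [star_mul, hk.star_eq] at this
  · have := congrArg star hx.1
    rwa [star_mul, hk.star_eq] at this

/-- the algebra `ℂ 1 + LU k` -/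
def luAlg (k : M) (hk : IsSelfAdjoint k) : StarSubalgebra ℂ M where
  carrier := {x | ∃ (c : ℂ) (l : M), l ∈ LU k ∧ x = c • (1 : M) + l}
  mul_mem' := by
    rintro _ _ ⟨c, l, hl, rfl⟩ ⟨c', l', hl', rfl⟩
    refine ⟨c * c', c • l' + c' • l + l * l',
      lu_add (lu_add (lu_smul c hl') (lu_smul c' hl)) (lu_mul hl hl'), ?_⟩
    simp only [add_mul, mul_add, smul_mul_assoc, mul_smul_comm, one_mul, mul_one, smul_add,
      smul_smul]
    rw [mul_comm c' c]
    abel
  add_mem' := by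
    rintro _ _ ⟨c, l, hl, rfl⟩ ⟨c', l', hl', rfl⟩
    refine ⟨c + c', l + l', lu_add hl hl', ?_⟩
    rw [add_smul]
    abel
  algebraMap_mem' := by
    intro c
    exact ⟨c, 0, lu_zero k, by rw [add_zero, Algebra.algebraMap_eq_smul_one]⟩
  star_mem' := by
    rintro _ ⟨c, l, hl, rfl⟩
    exact ⟨star c, star l, lu_star hk hl, by rw [star_add, star_smul, star_one]⟩

theorem trace_nonneg {k : M} {τ : M →ₗ[ℂ] ℂ} (h : IsLTrace k τ) (hk : IsSelfAdjoint k) {z : M}
    (hz : z ∈ LU k) (hp : IsPos z) : 0 ≤ τ z := by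
  obtain ⟨s, hs, hs1, hs2⟩ := exists_sqrt hk hz hp
  have := h.nonneg s hs
  rwa [hs1, hs2] at this

theorem exists_one_sub {x : M} (hx : IsSelfAdjoint x) (hx1 : ‖x‖ ≤ 1) :
    IsPos (1 - x * x) := by
  have h1 : IsSelfAdjoint (x * x) := by
    rw [isSelfAdjoint_iff, star_mul, hx.star_eq]
  have h2 : ‖x * x‖ ≤ 1 := (norm_mul_le _ _).trans (mul_le_one₀ hx1 (norm_nonneg _) hx1)
  have := CuntzPed.isPos_of_sub h1 h2
  rwa [Complex.ofReal_one, one_smul] at this

end RDecomp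

open RDecomp in
theorem exists_cp_decomp_rel {M : Type u} [CStarAlgebra M] {A : Set M} {k : ℕ → M}
    (hk : IsCh A k) (E : M) (hE : IsPos E)
    (hE1 : ‖E‖ ≤ 1) (η η' : ℝ) (h0 : 0 ≤ η) (hη : η < η')
    (h : ∀ τ : M →ₗ[ℂ] ℂ, IsLTrace (k 1) τ →
      (τ (k 3 * E * k 3)).re ≤ η * (τ (k 3 * k 3)).re) (ε : ℝ) (hε : 0 < ε) :
    ∃ (n : ℕ) (y : Fin n → M), ‖k 4 * E * k 4 - ∑ i, star (y i) * y i‖ ≤ ε ∧
      IsPos (((η' : ℝ) : ℂ) • (1 : M) - ∑ i, y i * star (y i)) ∧ ∀ i, k 1 * y i = y i := by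
  have hsa : ∀ i, star (k i) = k i := fun i => (isSelfAdjoint_of_isPos (hk.pos i)).star_eq
  have hk1 : IsSelfAdjoint (k 1) := hsa 1
  have hunit' : ∀ i, k (i + 1) * k i = k (i + 1) := by
    intro i
    have := congrArg star (hk.unit i)
    rwa [star_mul, hsa, hsa] at this
  have h13 : k 1 * k 3 = k 3 := by
    calc k 1 * k 3 = k 1 * (k 2 * k 3) := by rw [hk.unit 2]
      _ = k 3 := by rw [← mul_assoc, hk.unit 1, hk.unit 2]
  have h14 : k 1 * k 4 = k 4 := by
    calc k 1 * k 4 = k 1 * (k 3 * k 4) := by rw [hk.unit 3]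
      _ = k 4 := by rw [← mul_assoc, h13, hk.unit 3]
  have hm3 : k 3 ∈ LU (k 1) := by
    refine ⟨h13, ?_⟩
    have := congrArg star h13
    rwa [star_mul, hsa, hsa] at this
  have hm4 : k 4 ∈ LU (k 1) := by
    refine ⟨h14, ?_⟩
    have := congrArg star h14
    rwa [star_mul, hsa, hsa] at this
  let H : StarSubalgebra ℂ M := (luAlg (k 1) hk1).topologicalClosure
  have hHc : IsClosed (H : Set M) := StarSubalgebra.isClosed_topologicalClosure _
  have hLU : ∀ x ∈ LU (k 1), x ∈ H := by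
    intro x hx
    apply StarSubalgebra.le_topologicalClosure
    exact ⟨0, x, hx, by rw [zero_smul, zero_add]⟩
  have hkey : ∀ y ∈ H, k 1 * (y * k 3) = y * k 3 := by
    have h1 : ((luAlg (k 1) hk1 : StarSubalgebra ℂ M) : Set M) ⊆
        {y : M | k 1 * (y * k 3) = y * k 3} := by
      rintro _ ⟨c, l, hl, rfl⟩
      show k 1 * ((c • (1 : M) + l) * k 3) = (c • (1 : M) + l) * k 3
      rw [add_mul, mul_add, smul_mul_assoc, one_mul, mul_smul_comm, h13, ← mul_assoc, hl.1]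
    have h2 : IsClosed {y : M | k 1 * (y * k 3) = y * k 3} :=
      isClosed_eq (by fun_prop) (by fun_prop)
    intro y hy
    exact closure_minimal h1 h2 hy
  have hz4 : k 4 * E * k 4 ∈ LU (k 1) := lu_sand hm4 hm4 E
  have hz3 : k 3 * E * k 3 ∈ LU (k 1) := lu_sand hm3 hm3 E
  have hsand : ∀ i, IsPos (k i * E * k i) := by
    intro i
    obtain ⟨e, rfl⟩ := hE
    refine ⟨e * k i, ?_⟩
    rw [star_mul, hsa]
    simp only [mul_assoc]
  have ha : IsPos (⟨k 4 * E * k 4, hLU _ hz4⟩ : H) := by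
    obtain ⟨s, hs, hs1, hs2⟩ := exists_sqrt hk1 hz4 (hsand 4)
    refine ⟨⟨s, hLU _ hs⟩, Subtype.ext ?_⟩
    show k 4 * E * k 4 = star s * s
    rw [hs1, hs2]
  have hyp : ∀ τ : H →ₗ[ℂ] ℂ, IsTrace τ → (τ ⟨k 4 * E * k 4, hLU _ hz4⟩).re ≤ η := by
    intro τ hτ
    let p : Submodule ℂ M := Subalgebra.toSubmodule H.toSubalgebra
    let τ₀ : p →ₗ[ℂ] ℂ :=
      { toFun := fun x => τ ⟨x.1, x.2⟩
        map_add' := fun x y => τ.map_add ⟨x.1, x.2⟩ ⟨y.1, y.2⟩
        map_smul' := fun c x => τ.map_smul c ⟨x.1, x.2⟩ }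
    obtain ⟨τ', hτ'⟩ := LinearMap.exists_extend τ₀
    have hext : ∀ (x : M) (hx : x ∈ H), τ' x = τ ⟨x, hx⟩ := by
      intro x hx
      have := LinearMap.congr_fun hτ' (⟨x, hx⟩ : p)
      exact this
    have hL : IsLTrace (k 1) τ' := by
      refine ⟨fun x hx => ?_, fun x hx y hy => ?_⟩
      · rw [hext _ (hLU _ (lu_mul (lu_star hk1 hx) hx))]
        exact hτ.nonneg (⟨x, hLU _ hx⟩ : H)
      · rw [hext _ (hLU _ (lu_mul hx hy)), hext _ (hLU _ (lu_mul hy hx))]
        exact hτ.trace (⟨x, hLU _ hx⟩ : H) ⟨y, hLU _ hy⟩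
    have e1 := h τ' hL
    have e2 : (τ' (k 3 * k 3)).re ≤ 1 := by
      have h1 : IsPos (1 - (⟨k 3, hLU _ hm3⟩ : H) * ⟨k 3, hLU _ hm3⟩) := by
        refine exists_one_sub ?_ (hk.le 3)
        rw [isSelfAdjoint_iff]
        exact Subtype.ext (hsa 3)
      obtain ⟨w, hw⟩ := h1
      have h2 := hτ.nonneg w
      rw [← hw, map_sub, hτ.map_one] at h2
      rw [hext _ (hLU _ (lu_mul hm3 hm3))]
      have h3 := (Complex.le_def.1 h2).1
      rw [Complex.sub_re, Complex.one_re, Complex.zero_re] at h3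
      have h4 : (τ ((⟨k 3, hLU _ hm3⟩ : H) * ⟨k 3, hLU _ hm3⟩)).re =
        (τ ⟨k 3 * k 3, hLU _ (lu_mul hm3 hm3)⟩).re := rfl
      linarith
    have e3 : (τ' (k 4 * E * k 4)).re ≤ (τ' (k 3 * E * k 3)).re := by
      obtain ⟨s, hs, hs1, hs2⟩ := exists_sqrt hk1 hz3 (hsand 3)
      have h1 : k 4 * E * k 4 = (k 4 * s) * (s * k 4) := by
        have : (k 4 * s) * (s * k 4) = k 4 * (s * s) * k 4 := by simp only [mul_assoc]
        rw [this, hs2]
        calc k 4 * E * k 4 = (k 4 * k 3) * E * (k 3 * k 4) := by rw [hunit' 3, hk.unit 3]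
          _ = _ := by simp only [mul_assoc]
      have h2 : τ' (k 4 * E * k 4) = τ' ((s * k 4) * (k 4 * s)) := by
        rw [h1]
        exact hL.trace _ (lu_mul hm4 hs) _ (lu_mul hs hm4)
      obtain ⟨r, hr⟩ := exists_one_sub (hsa 4) (hk.le 4)
      have h3 : k 3 * E * k 3 - (s * k 4) * (k 4 * s) = star (r * s) * (r * s) := by
        rw [← hs2, star_mul, hs1]
        have : s * star r * (r * s) = s * (star r * r) * s := by simp only [mul_assoc]
        rw [this, ← hr, mul_sub, sub_mul, mul_one]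
        simp only [mul_assoc]
      have h4 : k 3 * E * k 3 - (s * k 4) * (k 4 * s) ∈ LU (k 1) := by
        have h5 : (s * k 4) * (k 4 * s) ∈ LU (k 1) :=
          lu_mul (lu_mul hs hm4) (lu_mul hm4 hs)
        rw [sub_eq_add_neg, ← neg_one_smul ℂ ((s * k 4) * (k 4 * s))]
        exact lu_add hz3 (lu_smul _ h5)
      have h6 := trace_nonneg hL hk1 h4 ⟨_, h3⟩
      rw [map_sub, ← h2] at h6
      have h7 := (Complex.le_def.1 h6).1
      rw [Complex.sub_re, Complex.zero_re] at h7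
      linarith
    rw [← hext]
    calc (τ' (k 4 * E * k 4)).re ≤ (τ' (k 3 * E * k 3)).re := e3
      _ ≤ η * (τ' (k 3 * k 3)).re := e1
      _ ≤ η * 1 := mul_le_mul_of_nonneg_left e2 h0
      _ = η := mul_one η
  obtain ⟨n, y, hy1, hy2⟩ := exists_cp_decomp (A := H) ⟨k 4 * E * k 4, hLU _ hz4⟩ ha η η' h0 hη
    hyp ε hε
  have hsum1 : ((∑ i, star (y i) * y i : H) : M) = ∑ i, star (y i : M) * (y i : M) := by
    rw [AddSubmonoidClass.coe_finsetSum]
    rfl
  have hsum2 : ((∑ i, y i * star (y i) : H) : M) = ∑ i, (y i : M) * star (y i : M) := by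
    rw [AddSubmonoidClass.coe_finsetSum]
    rfl
  refine ⟨n, fun i => (y i : M) * k 3, ?_, ?_, fun i => hkey _ (y i).2⟩
  · have h1 : k 4 * E * k 4 - ∑ i, star ((y i : M) * k 3) * ((y i : M) * k 3) =
        k 3 * (k 4 * E * k 4 - ∑ i, star (y i : M) * (y i : M)) * k 3 := by
      rw [mul_sub, sub_mul, Finset.mul_sum, Finset.sum_mul]
      congr 1
      · have : k 3 * (k 4 * E * k 4) * k 3 = (k 3 * k 4) * E * (k 4 * k 3) := by
          simp only [mul_assoc]
        rw [this, hunit' 3, hk.unit 3]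
      · refine Finset.sum_congr rfl fun i _ => ?_
        rw [star_mul, hsa]
        simp only [mul_assoc]
    rw [h1]
    have h2 : ‖k 4 * E * k 4 - ∑ i, star (y i : M) * (y i : M)‖ ≤ ε := by
      rw [← hsum1]
      exact hy1
    calc ‖k 3 * (k 4 * E * k 4 - ∑ i, star (y i : M) * (y i : M)) * k 3‖
        ≤ ‖k 3‖ * ‖k 4 * E * k 4 - ∑ i, star (y i : M) * (y i : M)‖ * ‖k 3‖ :=
          (norm_mul_le _ _).trans (mul_le_mul_of_nonneg_right (norm_mul_le _ _) (norm_nonneg _))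
      _ ≤ 1 * ε * 1 := by
          have := hk.le 3
          gcongr
      _ = ε := by ring
  · obtain ⟨r, hr⟩ := exists_one_sub (hsa 3) (hk.le 3)
    obtain ⟨w, hw⟩ := hy2
    have hw' : ((η' : ℝ) : ℂ) • (1 : M) - ∑ i, (y i : M) * star (y i : M) =
        star (w : M) * (w : M) := by
      rw [← hsum2]
      exact congrArg Subtype.val hw
    let _ : PartialOrder M := CStarAlgebra.spectralOrder M
    have _ : StarOrderedRing M := CStarAlgebra.spectralOrderedRing M
    refine CStarAlgebra.nonneg_iff_eq_star_mul_self.1 ?_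
    have h1 : ((η' : ℝ) : ℂ) • (1 : M) - ∑ i, ((y i : M) * k 3) * star ((y i : M) * k 3) =
        star (w : M) * (w : M) + ∑ i, star (r * star (y i : M)) * (r * star (y i : M)) := by
      rw [← hw', sub_add, sub_right_inj, ← Finset.sum_sub_distrib]
      refine Finset.sum_congr rfl fun i _ => ?_
      rw [star_mul, star_mul, star_star, hsa]
      have : (y i : M) * star r * (r * star (y i : M)) =
        (y i : M) * (star r * r) * star (y i : M) := by simp only [mul_assoc]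
      rw [this, ← hr, mul_sub, sub_mul, mul_one, sub_sub_cancel]
      simp only [mul_assoc]
    rw [h1]
    exact add_nonneg (star_mul_self_nonneg _)
      (Finset.sum_nonneg fun i _ => star_mul_self_nonneg _)

end Vale.Agent.P095.NU
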