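import Vale.Agent.P095.NU.Defs
import Vale.Agent.P095.NucExc

/-!
# P095, target T7: excision approximations by functionals excisable in the ideal (row G21)
-/

open Filter Topology TopologicalSpace
open scoped BoundedContinuousFunction ComplexOrder

namespace Vale.Agent.P095.NU

open Vale.Agent.P101

universe u v w

namespace RExc

open ConePos in
/-- a selfadjoint matrix on which all positive functionals of a rich class are nonnegative is
positive -/
theorem pos_of_class {A : Type u} [CStarAlgebra A] {P : (A →ₗ[ℂ] ℂ) → Prop} {k : ℕ}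
    (hE : ∀ y : A, IsPos y → y ≠ 0 → ∃ lam : A →ₗ[ℂ] ℂ, P lam ∧
      (∀ a, 0 ≤ lam (star a * a)) ∧ (∀ a, lam (star a) = star (lam a)) ∧ 0 < (lam y).re)
    (X : Matrix (Fin k) (Fin k) A) (hX : star X = X)
    (h : ∀ lam : A →ₗ[ℂ] ℂ, P lam → (∀ a, 0 ≤ lam (star a * a)) →
      (∀ a, lam (star a) = star (lam a)) → ∀ b : Fin k → A,
      0 ≤ (∑ i, ∑ j, lam (star (b i) * X i j * b j)).re) : IsPos X := by
  classical
  let _ : PartialOrder A := CStarAlgebra.spectralOrder A
  have _ : StarOrderedRing A := CStarAlgebra.spectralOrderedRing A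
  let _ : PartialOrder (CStarMatrix (Fin k) (Fin k) A) := CStarAlgebra.spectralOrder _
  have _ : StarOrderedRing (CStarMatrix (Fin k) (Fin k) A) := CStarAlgebra.spectralOrderedRing _
  obtain ⟨n, W, hn, hW, h0⟩ := negPart_cube (CStarMatrix.ofMatrix X) (by
    rw [IsSelfAdjoint]; exact hX)
  have key : W * n = 0 := by
    by_contra hne
    have : ∃ i l, (W * n) i l ≠ 0 := by
      by_contra hall
      push Not at hall
      exact hne (CStarMatrix.ext hall)
    obtain ⟨i0, l, hil⟩ := this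
    have e1 : (star (W * n) * (W * n)) l l = ∑ i, star ((W * n) i l) * (W * n) i l := by
      rw [CStarMatrix.mul_apply]
      simp only [CStarMatrix.star_apply]
    have hnn : ∀ i ∈ Finset.univ, 0 ≤ star ((W * n) i l) * (W * n) i l :=
      fun i _ => star_mul_self_nonneg _
    have e2 : 0 ≤ (star (W * n) * (W * n)) l l := by
      rw [e1]
      exact Finset.sum_nonneg hnn
    have e3 : (star (W * n) * (W * n)) l l ≠ 0 := by
      intro h5
      rw [e1, Finset.sum_eq_zero_iff_of_nonneg hnn] at h5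
      exact hil ((CStarRing.star_mul_self_eq_zero_iff _).1 (h5 i0 (Finset.mem_univ _)))
    obtain ⟨lam, hl1, hl2, hl3, hl4⟩ := hE _ (isPos_of_nonneg e2) e3
    have h6 := h lam hl1 hl2 hl3 (fun j => n j l)
    have e4 : (star (W * n) * (W * n)) l l = -∑ i, ∑ j, star (n i l) * X i j * n j l := by
      rw [hW, CStarMatrix.neg_apply, CStarMatrix.mul_apply]
      congr 1
      rw [Finset.sum_comm]
      refine Finset.sum_congr rfl fun j _ => ?_
      rw [CStarMatrix.mul_apply, Finset.sum_mul]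
      refine Finset.sum_congr rfl fun i _ => ?_
      rw [CStarMatrix.star_apply_of_isSelfAdjoint hn]
      rfl
    rw [e4, map_neg, Complex.neg_re, map_sum] at hl4
    simp only [map_sum] at hl4
    linarith
  obtain ⟨Y, hY⟩ := isPos_of_nonneg (h0 key)
  exact ⟨CStarMatrix.ofMatrix.symm Y, hY⟩


section Cone

open Cone

variable {A : Type u} [CStarAlgebra A] {P : (A →ₗ[ℂ] ℂ) → Prop} {k : ℕ} {F : Finset A}

/-- the generators -/
def gens (P : (A →ₗ[ℂ] ℂ) → Prop) (F : Finset A) (k : ℕ) : Set (Idx F k → ℂ) :=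
  {X | ∃ (lam : A →ₗ[ℂ] ℂ) (b : Fin k → A), P lam ∧ (∀ a, 0 ≤ lam (star a * a)) ∧
    (∀ a, lam (star a) = star (lam a)) ∧ X = psi F lam b}

/-- the cone -/
def cone (P : (A →ₗ[ℂ] ℂ) → Prop) (F : Finset A) (k : ℕ) : AddSubmonoid (Idx F k → ℂ) :=
  AddSubmonoid.closure (gens P F k)

theorem gens_smul {t : ℝ} (ht : 0 ≤ t) {X : Idx F k → ℂ} (hX : X ∈ gens P F k) :
    t • X ∈ gens P F k := by
  obtain ⟨lam, b, h1, h2, h3, rfl⟩ := hX
  refine ⟨lam, fun i => ((√t : ℝ) : ℂ) • b i, h1, h2, h3, ?_⟩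
  funext s
  unfold psi
  rw [Pi.smul_apply, star_smul, smul_mul_assoc, smul_mul_assoc, mul_smul_comm, map_smul, map_smul,
    smul_smul, smul_eq_mul]
  have : star ((√t : ℝ) : ℂ) * ((√t : ℝ) : ℂ) = (t : ℂ) := by
    rw [Complex.star_def, Complex.conj_ofReal, ← Complex.ofReal_mul, Real.mul_self_sqrt ht]
  rw [this]
  simp

theorem cone_smul {t : ℝ} (ht : 0 ≤ t) {X : Idx F k → ℂ} (hX : X ∈ cone P F k) :
    t • X ∈ cone P F k := by
  unfold cone at hX ⊢
  induction hX using AddSubmonoid.closure_induction with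
  | mem x hx => exact AddSubmonoid.subset_closure (gens_smul ht hx)
  | zero => rw [smul_zero]; exact AddSubmonoid.zero_mem _
  | add x y _ _ hx hy => rw [smul_add]; exact AddSubmonoid.add_mem _ hx hy

theorem cone_convex : Convex ℝ (cone P F k : Set (Idx F k → ℂ)) := by
  intro x hx y hy s t hs ht _
  exact (cone P F k).add_mem (cone_smul hs hx) (cone_smul ht hy)

theorem cone_rep {X : Idx F k → ℂ} (hX : X ∈ cone P F k) :
    ∃ (m : ℕ) (lam : Fin m → A →ₗ[ℂ] ℂ) (b : Fin m → Fin k → A), (∀ p, P (lam p)) ∧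
      X = ∑ p, psi F (lam p) (b p) := by
  unfold cone at hX
  induction hX using AddSubmonoid.closure_induction with
  | mem x hx =>
    obtain ⟨lam, b, h1, h2, h3, rfl⟩ := hx
    exact ⟨1, fun _ => lam, fun _ => b, fun _ => h1, by simp⟩
  | zero => exact ⟨0, Fin.elim0, Fin.elim0, fun p => p.elim0, by simp⟩
  | add x y _ _ hx hy =>
    obtain ⟨m, lam, b, h1, rfl⟩ := hx
    obtain ⟨m', lam', b', h1', rfl⟩ := hy
    refine ⟨m + m', Fin.append lam lam', Fin.append b b', fun p => ?_, ?_⟩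
    · refine Fin.addCases (fun i => ?_) (fun i => ?_) p
      · rw [Fin.append_left]; exact h1 i
      · rw [Fin.append_right]; exact h1' i
    · rw [Fin.sum_univ_add]
      simp only [Fin.append_left, Fin.append_right]

theorem mem_closure (hE : ∀ y : A, IsPos y → y ≠ 0 → ∃ lam : A →ₗ[ℂ] ℂ, P lam ∧
      (∀ a, 0 ≤ lam (star a * a)) ∧ (∀ a, lam (star a) = star (lam a)) ∧ 0 < (lam y).re) {φ : A →ₗ[ℂ] Matrix (Fin k) (Fin k) ℂ} (hφ : IsCP φ) :
    (fun t : Idx F k => φ t.1 t.2.1 t.2.2) ∈ closure (cone P F k : Set (Idx F k → ℂ)) := by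
  classical
  by_contra hn
  obtain ⟨f, u, h1, h2⟩ := geometric_hahn_banach_closed_point (cone_convex (P := P) (F := F) (k := k)).closure
    isClosed_closure hn
  have hu : 0 < u := by
    have := h1 0 (subset_closure (cone P F k).zero_mem)
    simpa using this
  have hneg : ∀ X ∈ cone P F k, f X ≤ 0 := by
    intro X hX
    by_contra hc
    push Not at hc
    have h3 := h1 ((u / f X) • X) (subset_closure (cone_smul (by positivity) hX))
    rw [map_smul, smul_eq_mul, div_mul_cancel₀ _ hc.ne'] at h3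
    exact lt_irrefl _ h3
  set w : Idx F k → ℂ := fun t =>
    -((f (Pi.single t 1) : ℂ) - Complex.I * (f (Pi.single t Complex.I) : ℂ)) with hw
  have hf : ∀ X, (∑ t, w t * X t).re = - f X := by
    intro X
    rw [func_eq f X, ← Complex.neg_re, ← Finset.sum_neg_distrib]
    congr 1
    refine Finset.sum_congr rfl fun t _ => ?_
    rw [hw]
    ring
  have hpos : IsPos (Hm w) := by
    refine pos_of_class hE (Hm w) (Hm_star w) fun lam hl1 hl2 hl3 b => ?_
    have := re_sum_Hm w (fun i j => lam ∘ₗ (LinearMap.mulRight ℂ (b j)) ∘ₗ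
      (LinearMap.mulLeft ℂ (star (b i)))) (by
        intro i j a
        simp only [LinearMap.comp_apply, LinearMap.mulRight_apply, LinearMap.mulLeft_apply]
        rw [← hl3, star_mul, star_mul, star_star, mul_assoc])
    simp only [LinearMap.comp_apply, LinearMap.mulRight_apply, LinearMap.mulLeft_apply] at this
    rw [this]
    have h3 := hf (psi F lam b)
    unfold psi at h3
    rw [h3]
    have := hneg (psi F lam b) (AddSubmonoid.subset_closure ⟨lam, b, hl1, hl2, hl3, rfl⟩)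
    unfold psi at this
    linarith
  have h3 := pair_nonneg hφ hpos
  have h4 := re_sum_Hm w (fun i j => (Matrix.entryLinearMap ℂ ℂ i j) ∘ₗ φ) (by
    intro i j a
    simp only [LinearMap.comp_apply, Matrix.entryLinearMap_apply]
    rw [map_star hφ, Matrix.star_apply])
  simp only [LinearMap.comp_apply, Matrix.entryLinearMap_apply] at h4
  rw [h4, hf] at h3
  linarith


theorem exists_cone_approx_class {A : Type u} [CStarAlgebra A] {P : (A →ₗ[ℂ] ℂ) → Prop} {k : ℕ}
    (hE : ∀ y : A, IsPos y → y ≠ 0 → ∃ lam : A →ₗ[ℂ] ℂ, P lam ∧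
      (∀ a, 0 ≤ lam (star a * a)) ∧ (∀ a, lam (star a) = star (lam a)) ∧ 0 < (lam y).re)
    (φ : A →ₗ[ℂ] Matrix (Fin k) (Fin k) ℂ) (hφ : IsCP φ) (F : Finset A) (ε : ℝ) (hε : 0 < ε) :
    ∃ (m : ℕ) (lam : Fin m → A →ₗ[ℂ] ℂ) (b : Fin m → Fin k → A), (∀ p, P (lam p)) ∧
      ∀ a ∈ F, ∀ i j, ‖φ a i j - ∑ p, lam p (star (b p i) * a * b p j)‖ < ε := by
  obtain ⟨X, hX, hd⟩ := Metric.mem_closure_iff.mp (mem_closure (F := F) hE hφ) ε hε
  obtain ⟨m, lam, b, h1, rfl⟩ := cone_rep hX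
  refine ⟨m, lam, b, h1, fun a ha i j => ?_⟩
  rw [dist_pi_lt_iff hε] at hd
  have := hd (⟨a, ha⟩, i, j)
  rw [dist_eq_norm, Finset.sum_apply] at this
  exact this


end Cone

theorem exists_real {M : Type u} [CStarAlgebra M] {lam : M →ₗ[ℂ] ℂ}
    (h2 : ∀ a, 0 ≤ lam (star a * a)) {b : M} (hb : IsPos b) : lam b = (((lam b).re : ℝ) : ℂ) := by
  obtain ⟨y, rfl⟩ := hb
  have h := (Complex.nonneg_iff.1 (h2 y)).2
  apply Complex.ext
  · simp
  · simpa using h.symm

/-- an excisable functional which does not vanish on the ideal is excisable by elements of the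
ideal -/
theorem excisableIn_of_pos {M : Type u} [CStarAlgebra M] {A : Set M} (hA : IsCore A)
    {lam : M →ₗ[ℂ] ℂ} (h1 : Excisable lam) (h2 : ∀ a, 0 ≤ lam (star a * a)) {b : M} (hbA : b ∈ A)
    (hb : IsPos b) (hb0 : 0 < (lam b).re) : ExcisableIn A lam := by
  classical
  intro F δ hδ
  obtain ⟨r, hr⟩ : ∃ r : ℝ, r = (lam b).re := ⟨_, rfl⟩
  rw [← hr] at hb0
  have hlb : lam b = (r : ℂ) := by rw [hr]; exact exists_real h2 hb
  obtain ⟨C, hC⟩ : ∃ C : ℝ, C = ∑ c ∈ F, (‖c‖ + ‖lam c‖) := ⟨_, rfl⟩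
  have hC0 : 0 ≤ C := by
    rw [hC]
    exact Finset.sum_nonneg fun c _ => by positivity
  have hCle : ∀ c ∈ F, ‖c‖ + ‖lam c‖ ≤ C := fun c hc => by
    rw [hC]
    exact Finset.single_le_sum (f := fun c => ‖c‖ + ‖lam c‖) (fun c _ => by positivity) hc
  obtain ⟨d, hd⟩ : ∃ d : ℝ, d = min (r / 2) (δ / (4 * (1 + 3 * C / r))) := ⟨_, rfl⟩
  have hD : 0 < 1 + 3 * C / r := by positivity
  have hd0 : 0 < d := by
    rw [hd]
    exact lt_min (half_pos hb0) (by positivity)
  have hd1 : d / r ≤ 1 / 2 := by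
    rw [div_le_iff₀ hb0]
    have := min_le_left (r / 2) (δ / (4 * (1 + 3 * C / r)))
    rw [← hd] at this
    linarith
  have hd2 : 4 * (d + 3 * (d / r) * C) ≤ δ := by
    have h3 := min_le_right (r / 2) (δ / (4 * (1 + 3 * C / r)))
    rw [← hd, le_div_iff₀ (by positivity)] at h3
    have h4 : d * (4 * (1 + 3 * C / r)) = 4 * (d + 3 * (d / r) * C) := by
      field_simp
    linarith
  obtain ⟨v, hv, hvn, hv1⟩ := h1 (insert b F) d hd0
  obtain ⟨η, hη⟩ : ∃ η : ℝ, η = d / r := ⟨_, rfl⟩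
  have hη0 : 0 ≤ η := by rw [hη]; positivity
  rw [← hη] at hd1 hd2
  have hvs : star v = v := by
    obtain ⟨y, rfl⟩ := hv
    rw [star_mul, star_star]
  have hvv : ‖v * v‖ = 1 := by
    have := CStarRing.norm_star_mul_self (x := v)
    rw [hvs, hvn, mul_one] at this
    exact this
  obtain ⟨x, hx⟩ : ∃ x : M, x = ((r⁻¹ : ℝ) : ℂ) • (v * b * v) := ⟨_, rfl⟩
  have hxA : x ∈ A := by
    rw [hx]
    exact hA.smul _ _ (hA.right _ _ (hA.left _ _ hbA))
  have hxv : ‖x - v * v‖ ≤ η := by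
    have h3 := hv1 b (Finset.mem_insert_self _ _)
    rw [hlb] at h3
    have h4 : x - v * v = ((r⁻¹ : ℝ) : ℂ) • (v * b * v - (r : ℂ) • (v * v)) := by
      rw [hx, smul_sub, smul_smul, ← Complex.ofReal_mul, inv_mul_cancel₀ hb0.ne', Complex.ofReal_one,
        one_smul]
    rw [h4, norm_smul, Complex.norm_real, Real.norm_eq_abs, abs_of_pos (inv_pos.2 hb0), hη,
      div_eq_inv_mul]
    exact mul_le_mul_of_nonneg_left h3 (inv_pos.2 hb0).le
  have hxn : 1 / 2 ≤ ‖x‖ := by
    have h3 : ‖v * v‖ ≤ ‖x‖ + ‖x - v * v‖ := by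
      have := norm_sub_le x (x - v * v)
      rwa [sub_sub_cancel] at this
    linarith
  have hxn2 : ‖x‖ ≤ 3 / 2 := by
    have h3 : ‖x‖ ≤ ‖x - v * v‖ + ‖v * v‖ := by
      have := norm_add_le (x - v * v) (v * v)
      rwa [sub_add_cancel] at this
    linarith
  have hxpos : 0 < ‖x‖ := by linarith
  have key : ∀ c ∈ F, ‖x * c * x - lam c • (x * x)‖ ≤ d + 3 * η * C := by
    intro c hc
    have h3 := hv1 c (Finset.mem_insert_of_mem hc)
    have e : x * c * x - lam c • (x * x) =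
        v * (v * c * v - lam c • (v * v)) * v +
        ((x - v * v) * c * x + (v * v) * c * (x - v * v) -
          lam c • ((x - v * v) * x + (v * v) * (x - v * v))) := by
      simp only [sub_mul, mul_sub, smul_sub, smul_add, mul_smul_comm, smul_mul_assoc, mul_assoc]
      abel
    have b1 : ‖v * (v * c * v - lam c • (v * v)) * v‖ ≤ d := by
      calc ‖v * (v * c * v - lam c • (v * v)) * v‖
          ≤ ‖v‖ * ‖v * c * v - lam c • (v * v)‖ * ‖v‖ :=
            (norm_mul_le _ _).trans (mul_le_mul_of_nonneg_right (norm_mul_le _ _) (norm_nonneg _))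
        _ ≤ d := by rw [hvn, one_mul, mul_one]; exact h3
    have b2 : ‖(x - v * v) * c * x‖ ≤ η * ‖c‖ * (3 / 2) := by
      calc ‖(x - v * v) * c * x‖ ≤ ‖x - v * v‖ * ‖c‖ * ‖x‖ :=
            (norm_mul_le _ _).trans (mul_le_mul_of_nonneg_right (norm_mul_le _ _) (norm_nonneg _))
        _ ≤ η * ‖c‖ * (3 / 2) := by gcongr
    have b3 : ‖(v * v) * c * (x - v * v)‖ ≤ ‖c‖ * η := by
      calc ‖(v * v) * c * (x - v * v)‖ ≤ ‖v * v‖ * ‖c‖ * ‖x - v * v‖ :=
            (norm_mul_le _ _).trans (mul_le_mul_of_nonneg_right (norm_mul_le _ _) (norm_nonneg _))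
        _ ≤ ‖c‖ * η := by rw [hvv, one_mul]; gcongr
    have b4 : ‖(x - v * v) * x‖ ≤ η * (3 / 2) :=
      (norm_mul_le _ _).trans (by gcongr)
    have b5 : ‖(v * v) * (x - v * v)‖ ≤ η := by
      refine (norm_mul_le _ _).trans ?_
      rw [hvv, one_mul]
      exact hxv
    have b6 : ‖lam c • ((x - v * v) * x + (v * v) * (x - v * v))‖ ≤
        ‖lam c‖ * (η * (3 / 2) + η) := by
      rw [norm_smul]
      exact mul_le_mul_of_nonneg_left ((norm_add_le _ _).trans (add_le_add b4 b5)) (norm_nonneg _)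
    rw [e]
    have b7 := norm_add_le (v * (v * c * v - lam c • (v * v)) * v)
      ((x - v * v) * c * x + (v * v) * c * (x - v * v) -
          lam c • ((x - v * v) * x + (v * v) * (x - v * v)))
    have b8 := norm_sub_le ((x - v * v) * c * x + (v * v) * c * (x - v * v))
      (lam c • ((x - v * v) * x + (v * v) * (x - v * v)))
    have b9 := norm_add_le ((x - v * v) * c * x) ((v * v) * c * (x - v * v))
    have b10 := mul_le_mul_of_nonneg_left (hCle c hc) hη0
    have b11 : 0 ≤ η * ‖c‖ := by positivity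
    have b12 : 0 ≤ η * ‖lam c‖ := by positivity
    nlinarith
  refine ⟨((‖x‖⁻¹ : ℝ) : ℂ) • x, hA.smul _ _ hxA, ?_, ?_, ?_⟩
  · obtain ⟨w, hw⟩ := hb
    refine ⟨((√(‖x‖⁻¹ * r⁻¹) : ℝ) : ℂ) • (w * v), ?_⟩
    have h5 : star ((√(‖x‖⁻¹ * r⁻¹) : ℝ) : ℂ) * ((√(‖x‖⁻¹ * r⁻¹) : ℝ) : ℂ) =
        ((‖x‖⁻¹ * r⁻¹ : ℝ) : ℂ) := by
      rw [Complex.star_def, Complex.conj_ofReal, ← Complex.ofReal_mul,
        Real.mul_self_sqrt (by positivity)]
    have h6 : v * star w * (w * v) = v * b * v := by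
      rw [hw]
      simp only [mul_assoc]
    rw [star_smul, smul_mul_smul_comm, h5, star_mul, hvs, Complex.ofReal_mul, ← smul_smul, h6,
      ← hx]
  · rw [norm_smul, Complex.norm_real, norm_inv, norm_norm, inv_mul_cancel₀ hxpos.ne']
  · intro c hc
    have e : ((‖x‖⁻¹ : ℝ) : ℂ) • x * c * (((‖x‖⁻¹ : ℝ) : ℂ) • x) -
        lam c • (((‖x‖⁻¹ : ℝ) : ℂ) • x * ((‖x‖⁻¹ : ℝ) : ℂ) • x) =
        ((‖x‖⁻¹ * ‖x‖⁻¹ : ℝ) : ℂ) • (x * c * x - lam c • (x * x)) := by
      rw [smul_sub, smul_mul_assoc, smul_mul_smul_comm, smul_mul_smul_comm, smul_smul, smul_smul,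
        ← Complex.ofReal_mul, mul_comm (lam c)]
    rw [e, norm_smul, Complex.norm_real, Real.norm_eq_abs, abs_of_nonneg (by positivity)]
    have h6 : ‖x‖⁻¹ ≤ 2 := by
      rw [inv_le_comm₀ hxpos two_pos]
      linarith
    have h7 := key c hc
    have h8 : 0 ≤ d + 3 * η * C := (norm_nonneg _).trans h7
    calc ‖x‖⁻¹ * ‖x‖⁻¹ * ‖x * c * x - lam c • (x * x)‖ ≤ 2 * 2 * (d + 3 * η * C) := by
          gcongr
      _ ≤ δ := by linarith

/-- every nonzero positive element is seen by a state which is excisable in the ideal -/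
theorem exists_excisableIn {M : Type u} [CStarAlgebra M] [SeparableSpace M] {A : Set M}
    (hA : IsCore A) (y : M) (hy : IsPos y) (hy0 : y ≠ 0) :
    ∃ lam : M →ₗ[ℂ] ℂ, ExcisableIn A lam ∧ (∀ a, 0 ≤ lam (star a * a)) ∧
      (∀ a, lam (star a) = star (lam a)) ∧ 0 < (lam y).re := by
  let _ := CStarAlgebra.spectralOrder M
  have _ := CStarAlgebra.spectralOrderedRing M
  have hy' : 0 ≤ y := Excision.nonneg_of_isPos hy
  -- the square root
  obtain ⟨s, hs, hsy⟩ : ∃ s : M, 0 ≤ s ∧ s * s = y :=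
    ⟨CFC.sqrt y, CFC.sqrt_nonneg y, CFC.sqrt_mul_sqrt_self y hy'⟩
  have hs0 : s ≠ 0 := by
    rintro rfl
    exact hy0 (by rw [← hsy, mul_zero])
  have hss : star s = s := hs.isSelfAdjoint.star_eq
  obtain ⟨a, haA, ha0⟩ : ∃ a ∈ A, s * a ≠ 0 := by
    by_contra hc
    push Not at hc
    exact hs0 (hA.ess s hc)
  obtain ⟨b, hb⟩ : ∃ b : M, b = s * a * star (s * a) := ⟨_, rfl⟩
  have hbA : b ∈ A := by
    rw [hb]
    exact hA.right _ _ (hA.left _ _ haA)
  have hbp : IsPos b := ⟨star (s * a), by rw [hb, star_star]⟩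
  have hb0 : b ≠ 0 := by
    rw [hb]
    intro h
    exact ha0 ((CStarRing.mul_star_self_eq_zero_iff _).1 h)
  obtain ⟨lam, h1, h2, h3, h4⟩ := exists_excisable b hbp hb0
  refine ⟨lam, excisableIn_of_pos hA h1 h2 hbA hbp h4, h2, h3, ?_⟩
  have hle : b ≤ (‖a‖ ^ 2 : ℝ) • y := by
    have h5 : a * star a ≤ algebraMap ℝ M (‖a‖ ^ 2) := by
      have h6 := IsSelfAdjoint.le_algebraMap_norm_self (a := a * star a)
        (IsSelfAdjoint.mul_star_self a)
      rwa [CStarRing.norm_self_mul_star, ← pow_two] at h6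
    have h7 := star_left_conjugate_le_conjugate h5 s
    rw [hss] at h7
    have e1 : s * (a * star a) * s = b := by
      rw [hb, star_mul, hss]
      simp only [mul_assoc]
    have e2 : s * algebraMap ℝ M (‖a‖ ^ 2) * s = (‖a‖ ^ 2 : ℝ) • y := by
      rw [Algebra.algebraMap_eq_smul_one, mul_smul_comm, mul_one, smul_mul_assoc, hsy]
    rwa [e1, e2] at h7
  have h8 : (lam b).re ≤ (lam ((‖a‖ ^ 2 : ℝ) • y)).re := IsPosTrace.re_mono h2 hle
  have h9 : (lam ((‖a‖ ^ 2 : ℝ) • y)).re = ‖a‖ ^ 2 * (lam y).re := by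
    rw [← Complex.coe_smul, map_smul, smul_eq_mul, Complex.re_ofReal_mul]
  rw [h9] at h8
  have h10 : 0 < ‖a‖ ^ 2 * (lam y).re := lt_of_lt_of_le h4 h8
  exact (pos_iff_pos_of_mul_pos h10).1 (by
    have : a ≠ 0 := by
      rintro rfl
      exact ha0 (mul_zero _)
    have := norm_pos_iff.2 this
    positivity)

end RExc

open RExc in
theorem excApproxIn_of_isNuclear {M : Type u} [CStarAlgebra M] [SeparableSpace M] {A : Set M}
    (hA : IsCore A) (hn : IsNuclear M) : ExcApproxIn A := by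
  classical
  intro F ε hε
  obtain ⟨k, φ, ψ, hφ, hψ, hF⟩ := hn F (ε / 2) (half_pos hε)
  obtain ⟨Y, hY⟩ := hψ k _ (NucExcAux.matUnits_pos k)
  have hψe : ∀ i j, ψ (Matrix.single i j 1) = ∑ l, star (Y l i) * Y l j := by
    intro i j
    have h1 := congrFun (congrFun hY i) j
    rw [Matrix.mul_apply] at h1
    exact h1
  obtain ⟨C, hC⟩ : ∃ C : ℝ, C = ∑ i, ∑ j, ‖ψ (Matrix.single i j 1)‖ := ⟨_, rfl⟩
  have hC0 : 0 ≤ C := by
    rw [hC]
    exact Finset.sum_nonneg fun i _ => Finset.sum_nonneg fun j _ => norm_nonneg _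
  obtain ⟨m, lam, b, hlam, hb⟩ := exists_cone_approx_class (P := ExcisableIn A)
    (fun y hy hy0 => exists_excisableIn hA y hy hy0) φ hφ F (ε / 2 / (C + 1)) (by positivity)
  let e : Fin m × Fin k ≃ Fin (m * k) := finProdFinEquiv
  refine ⟨m * k, k, fun q => lam (e.symm q).1, fun q => b (e.symm q).1, fun q => Y (e.symm q).2,
    fun q => hlam _, fun a ha => ?_⟩
  have h1 : ∑ q : Fin (m * k), ∑ i, ∑ j,
      lam (e.symm q).1 (star (b (e.symm q).1 i) * a * b (e.symm q).1 j) •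
        (star (Y (e.symm q).2 i) * Y (e.symm q).2 j) =
      ∑ i, ∑ j, (∑ p, lam p (star (b p i) * a * b p j)) • ψ (Matrix.single i j 1) := by
    rw [← Equiv.sum_comp e, Fintype.sum_prod_type]
    simp only [Equiv.symm_apply_apply]
    calc ∑ p, ∑ l, ∑ i, ∑ j, lam p (star (b p i) * a * b p j) • (star (Y l i) * Y l j)
        = ∑ p, ∑ i, ∑ l, ∑ j, lam p (star (b p i) * a * b p j) • (star (Y l i) * Y l j) :=
          Finset.sum_congr rfl fun p _ => Finset.sum_comm
      _ = ∑ p, ∑ i, ∑ j, ∑ l, lam p (star (b p i) * a * b p j) • (star (Y l i) * Y l j) :=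
          Finset.sum_congr rfl fun p _ => Finset.sum_congr rfl fun i _ => Finset.sum_comm
      _ = ∑ p, ∑ i, ∑ j, lam p (star (b p i) * a * b p j) • ψ (Matrix.single i j 1) := by
          refine Finset.sum_congr rfl fun p _ => Finset.sum_congr rfl fun i _ =>
            Finset.sum_congr rfl fun j _ => ?_
          rw [hψe, Finset.smul_sum]
      _ = ∑ i, ∑ p, ∑ j, lam p (star (b p i) * a * b p j) • ψ (Matrix.single i j 1) :=
          Finset.sum_comm
      _ = ∑ i, ∑ j, ∑ p, lam p (star (b p i) * a * b p j) • ψ (Matrix.single i j 1) :=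
          Finset.sum_congr rfl fun i _ => Finset.sum_comm
      _ = _ := by
          refine Finset.sum_congr rfl fun i _ => Finset.sum_congr rfl fun j _ => ?_
          rw [Finset.sum_smul]
  have h2 : ψ (φ a) = ∑ i, ∑ j, φ a i j • ψ (Matrix.single i j 1) := by
    conv_lhs => rw [Matrix.matrix_eq_sum_single (φ a)]
    rw [map_sum]
    refine Finset.sum_congr rfl fun i _ => ?_
    rw [map_sum]
    refine Finset.sum_congr rfl fun j _ => ?_
    rw [← map_smul, Matrix.smul_single, smul_eq_mul, mul_one]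
  rw [h1]
  have h3 : (∑ i, ∑ j, (∑ p, lam p (star (b p i) * a * b p j)) • ψ (Matrix.single i j 1)) - a =
      -(∑ i, ∑ j, (φ a i j - ∑ p, lam p (star (b p i) * a * b p j)) •
        ψ (Matrix.single i j 1)) + (ψ (φ a) - a) := by
    rw [h2]
    simp only [sub_smul, Finset.sum_sub_distrib]
    abel
  rw [h3]
  have h4 : ‖∑ i, ∑ j, (φ a i j - ∑ p, lam p (star (b p i) * a * b p j)) •
      ψ (Matrix.single i j 1)‖ ≤ ε / 2 / (C + 1) * C := by
    rw [hC, Finset.mul_sum, ← hC]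
    refine (norm_sum_le _ _).trans (Finset.sum_le_sum fun i _ => ?_)
    rw [Finset.mul_sum]
    refine (norm_sum_le _ _).trans (Finset.sum_le_sum fun j _ => ?_)
    rw [norm_smul]
    exact mul_le_mul_of_nonneg_right (hb a ha i j).le (norm_nonneg _)
  have h5 : ε / 2 / (C + 1) * C ≤ ε / 2 := by
    rw [div_mul_eq_mul_div, div_le_iff₀ (by positivity)]
    nlinarith
  calc _ ≤ ‖-(∑ i, ∑ j, (φ a i j - ∑ p, lam p (star (b p i) * a * b p j)) •
        ψ (Matrix.single i j 1))‖ + ‖ψ (φ a) - a‖ := norm_add_le _ _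
    _ < ε / 2 + ε / 2 := by
        rw [norm_neg]
        exact add_lt_add_of_le_of_lt (h4.trans h5) (hF a ha)
    _ = ε := add_halves ε

end Vale.Agent.P095.NU
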