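import Vale.Agent.P095.NU.NormDiag
import Vale.Agent.P095.Excisors

/-!
# P095 (T7, row G22): excisors in the ideal with orthogonal orbits
-/

open Filter Topology TopologicalSpace
open scoped BoundedContinuousFunction ComplexOrder

namespace Vale.Agent.P095.NU

open Vale.Agent.P101

universe u v w

variable {G : Type*} [Group G] [Countable G] {ω : Ultrafilter ℕ} {M : Type u} [CStarAlgebra M]
  [SeparableSpace M] {A : Set M} {α : G →* (M ≃⋆ₐ[ℂ] M)} {B : Type u} [CStarAlgebra B]
  {q : centralSeq ω M →⋆ₐ[ℂ] B} {β : G →* (B ≃⋆ₐ[ℂ] B)} {κ : ℕ → ℕ → M}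

theorem exists_excisors_rel (R : RelSys ω A α q β) {m : ℕ} (lam : Fin m → M →ₗ[ℂ] ℂ)
    (hlam : ∀ p, ExcisableIn A (lam p)) (F : Finset M) (K : Finset G)
    (hH : ∃ H : Fin m → B, (∀ p, IsPos (H p)) ∧ (∀ p, ‖H p‖ = 1) ∧
      (∀ p q, p ≠ q → H p * H q = 0) ∧ ∀ p q, ∀ g ∈ K, H p * β g (H q) = 0)
    (δ : ℝ) (hδ : 0 < δ) :
    ∃ x y : Fin m → M, (∀ p, x p ∈ A) ∧ (∀ p, y p ∈ A) ∧ (∀ p, IsPos (x p)) ∧
      (∀ p, x p ≠ 0) ∧ (∀ p, ‖y p‖ ≤ 1) ∧
      (∀ p, IsSelfAdjoint (y p)) ∧ (∀ p, y p * x p = x p) ∧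
      (∀ p, ∀ a ∈ F, ‖y p * a * y p - lam p a • (y p * y p)‖ ≤ δ) ∧
      (∀ p q, p ≠ q → ∀ a ∈ F, ‖y p * a * y q‖ ≤ δ) ∧
      ∀ p q, ∀ g ∈ K, ∀ a ∈ F, ‖y p * a * α g (y q)‖ ≤ δ := by
  classical
  obtain ⟨H0, hH1, hH2, hH3, hH4⟩ := hH
  choose h0 hh0 using hH1
  choose h hqh hhn using fun p => R.lift (h0 p)
  obtain ⟨H, hh⟩ : ∃ H : Fin m → centralSeq ω M, ∀ p, H p = star (h p) * h p := ⟨_, fun _ => rfl⟩
  have hqH : ∀ p, q (H p) = H0 p := fun p => by
    rw [hh, map_mul, map_star, hqh, hh0]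
  have hh1 : ∀ p, ‖h p‖ * ‖h p‖ = 1 := fun p => by
    rw [hhn, ← CStarRing.norm_star_mul_self, ← hh0, hH2]
  have hHn' : ∀ p, ‖H p‖ = 1 := fun p => by
    rw [hh]
    exact (CStarRing.norm_star_mul_self (x := (h p : Ultra ω M))).trans (hh1 p)
  choose v hvA hv1 hv2 hv3 using fun p => hlam p F (δ / 8) (by positivity)
  choose w hw using hv1
  have hev : ∀ (z : ℕ →ᵇ M) (ε : ℝ), ‖Ultra.mk ω z‖ < ε → ∀ᶠ n in (ω : Filter ℕ), ‖z n‖ < ε :=
    fun z ε hz => (Ultra.tendsto_norm_mk z).eventually (gt_mem_nhds hz)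
  have hcomm : ∀ (a : M) (c : centralSeq ω M),
      Ultra.diag ω a * (c : Ultra ω M) = c * Ultra.diag ω a := fun a c =>
    (mem_centralSeq_iff.1 c.2 a).eq
  let Y : Fin m → Ultra ω M := fun p => Ultra.diag ω (w p) * (h p : Ultra ω M)
  have hHc : ∀ p, (H p : Ultra ω M) = star (h p : Ultra ω M) * h p := fun p =>
    congrArg Subtype.val (hh p)
  have hX : ∀ p, star (Y p) * Y p = Ultra.diag ω (v p) * (H p : Ultra ω M) := by
    intro p
    show star (Ultra.diag ω (w p) * (h p : Ultra ω M)) * (Ultra.diag ω (w p) * (h p : Ultra ω M)) = _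
    have h1 : star (h p : Ultra ω M) * Ultra.diag ω (star (w p) * w p) =
        Ultra.diag ω (star (w p) * w p) * star (h p : Ultra ω M) :=
      (hcomm (star (w p) * w p) (star (h p))).symm
    rw [star_mul, ← map_star, hHc, hw p]
    calc star (h p : Ultra ω M) * Ultra.diag ω (star (w p)) *
          (Ultra.diag ω (w p) * (h p : Ultra ω M))
        = star (h p : Ultra ω M) * Ultra.diag ω (star (w p) * w p) * (h p : Ultra ω M) := by
          rw [map_mul]
          simp only [mul_assoc]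
      _ = _ := by rw [h1, mul_assoc]
  have hXn : ∀ p, ‖Ultra.diag ω (v p) * (H p : Ultra ω M)‖ = 1 := by
    intro p
    rw [hcomm, norm_mul_diag R _ _ (hvA p), hqH, hH2, hv2 p, one_mul]
  have hYn : ∀ p, ‖Y p‖ ≤ 1 := by
    intro p
    have h1 : ‖Y p‖ * ‖Y p‖ = 1 := by
      rw [← CStarRing.norm_star_mul_self, hX p, hXn p]
    nlinarith [norm_nonneg (Y p)]
  choose hs hhs using fun p => Ultra.mk_surjective (h p : Ultra ω M)
  obtain ⟨y, hyd⟩ : ∃ y : Fin m → (ℕ →ᵇ M), ∀ p, y p = Ultra.const (w p) * hs p :=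
    ⟨_, fun _ => rfl⟩
  have hy : ∀ p, Ultra.mk ω (y p) = Y p := fun p => by
    rw [hyd, map_mul, hhs, ← Ultra.diag_apply]
  obtain ⟨t, htd⟩ : ∃ t : Fin m → (ℕ →ᵇ M), t = fun p => star (y p) * y p := ⟨_, rfl⟩
  have ht : ∀ p, Ultra.mk ω (t p) = Ultra.diag ω (v p) * (H p : Ultra ω M) := by
    intro p
    rw [htd]
    show Ultra.mk ω (star (y p) * y p) = _
    rw [map_mul, map_star, hy, hX]
  have hHn : ∀ p, ‖(H p : Ultra ω M)‖ = 1 := hHn'
  -- the four conditions
  have E1 : ∀ᶠ n in (ω : Filter ℕ), ∀ p, 1 / 2 < ‖t p n‖ := by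
    rw [Filter.eventually_all]
    intro p
    have h1 := Ultra.tendsto_norm_mk (ω := ω) (t p)
    rw [ht, hXn] at h1
    exact h1.eventually (lt_mem_nhds (by norm_num))
  have E2 : ∀ᶠ n in (ω : Filter ℕ), ∀ p, ∀ a ∈ F,
      ‖t p n * a * t p n - lam p a • (t p n * t p n)‖ < δ / 4 := by
    rw [Filter.eventually_all]
    intro p
    rw [Filter.eventually_all_finset]
    intro a ha
    refine hev (t p * Ultra.const a * t p - lam p a • (t p * t p)) (δ / 4) ?_
    rw [map_sub, map_mul, map_mul, map_smul, map_mul, ht, ← Ultra.diag_apply]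
    have h1 : Ultra.diag ω (v p) * (H p : Ultra ω M) * Ultra.diag ω a *
        (Ultra.diag ω (v p) * (H p : Ultra ω M)) - lam p a • (Ultra.diag ω (v p) *
          (H p : Ultra ω M) * (Ultra.diag ω (v p) * (H p : Ultra ω M))) =
        Ultra.diag ω (v p * a * v p - lam p a • (v p * v p)) *
          ((H p : Ultra ω M) * (H p : Ultra ω M)) := by
      rw [map_sub, map_smul, map_mul, map_mul, map_mul, sub_mul, smul_mul_assoc]
      congr 1
      · calc Ultra.diag ω (v p) * (H p : Ultra ω M) * Ultra.diag ω a *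
              (Ultra.diag ω (v p) * (H p : Ultra ω M))
            = Ultra.diag ω (v p) * ((H p : Ultra ω M) * Ultra.diag ω (a * v p)) *
              (H p : Ultra ω M) := by
              rw [map_mul]
              simp only [mul_assoc]
          _ = _ := by
              rw [← hcomm, map_mul]
              simp only [mul_assoc]
      · congr 1
        calc Ultra.diag ω (v p) * (H p : Ultra ω M) * (Ultra.diag ω (v p) * (H p : Ultra ω M))
            = Ultra.diag ω (v p) * ((H p : Ultra ω M) * Ultra.diag ω (v p)) *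
              (H p : Ultra ω M) := by
              simp only [mul_assoc]
          _ = _ := by
              rw [← hcomm]
              simp only [mul_assoc]
    rw [h1]
    have h2 : ‖(H p : Ultra ω M) * (H p : Ultra ω M)‖ ≤ 1 := by
      refine (norm_mul_le _ _).trans ?_
      rw [hHn, one_mul]
    calc ‖Ultra.diag ω (v p * a * v p - lam p a • (v p * v p)) *
          ((H p : Ultra ω M) * (H p : Ultra ω M))‖
        ≤ ‖Ultra.diag ω (v p * a * v p - lam p a • (v p * v p))‖ *
          ‖(H p : Ultra ω M) * (H p : Ultra ω M)‖ := norm_mul_le _ _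
      _ ≤ (δ / 8) * 1 := by
          refine mul_le_mul ?_ h2 (norm_nonneg _) (by positivity)
          rw [Ultra.norm_diag]
          exact hv3 p a ha
      _ < δ / 4 := by linarith
  have E3 : ∀ᶠ n in (ω : Filter ℕ), ∀ p q, p ≠ q → ∀ a ∈ F, ‖t p n * a * t q n‖ < δ / 4 := by
    rw [Filter.eventually_all]
    intro p
    rw [Filter.eventually_all]
    intro q
    by_cases hpq : p ≠ q
    · have h0 : ∀ᶠ n in (ω : Filter ℕ), ∀ a ∈ F, ‖t p n * a * t q n‖ < δ / 4 := by
        rw [Filter.eventually_all_finset]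
        intro a ha
        refine hev (t p * Ultra.const a * t q) (δ / 4) ?_
        rw [map_mul, map_mul, ht, ht, ← Ultra.diag_apply]
        have h2 : (H p : Ultra ω M) * (H q : Ultra ω M) * Ultra.diag ω (v p) = 0 :=
          (R.ker (H p * H q)).1 (by rw [map_mul, hqH, hqH, hH3 p q hpq]) _ (hvA p)
        have h1 : Ultra.diag ω (v p) * (H p : Ultra ω M) * Ultra.diag ω a *
            (Ultra.diag ω (v q) * (H q : Ultra ω M)) = 0 := by
          calc Ultra.diag ω (v p) * (H p : Ultra ω M) * Ultra.diag ω a *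
                (Ultra.diag ω (v q) * (H q : Ultra ω M))
              = Ultra.diag ω (v p) * ((H p : Ultra ω M) * Ultra.diag ω (a * v q)) *
                (H q : Ultra ω M) := by
                rw [map_mul]
                simp only [mul_assoc]
            _ = Ultra.diag ω (v p) * Ultra.diag ω (a * v q) *
                ((H p * H q : centralSeq ω M) : Ultra ω M) := by
                rw [← hcomm]
                simp only [mul_assoc]
                rfl
            _ = ((H p : Ultra ω M) * (H q : Ultra ω M) * Ultra.diag ω (v p)) *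
                Ultra.diag ω (a * v q) := by
                rw [← map_mul, hcomm, map_mul, ← mul_assoc]
                rfl
            _ = 0 := by rw [h2, zero_mul]
        rw [h1, norm_zero]
        positivity
      filter_upwards [h0] with n hn _
      exact hn
    · exact Eventually.of_forall fun n h => absurd h hpq
  have E4 : ∀ᶠ n in (ω : Filter ℕ), ∀ p q, ∀ g ∈ K, ∀ a ∈ F,
      ‖t p n * a * α g (t q n)‖ < δ / 4 := by
    rw [Filter.eventually_all]
    intro p
    rw [Filter.eventually_all]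
    intro q
    rw [Filter.eventually_all_finset]
    intro g hg
    rw [Filter.eventually_all_finset]
    intro a ha
    refine hev (t p * Ultra.const a * seqMap (α g : M →⋆ₐ[ℂ] M) (t q)) (δ / 4) ?_
    rw [map_mul, map_mul, ← ultraAct_mk, ht, ht, ← Ultra.diag_apply, map_mul, ultraAct_diag]
    have h2 : (H p : Ultra ω M) * ultraAct ω α g (H q : Ultra ω M) * Ultra.diag ω (v p) = 0 :=
      (R.ker (H p * centralAct ω α g (H q))).1
        (by rw [map_mul, ← R.act, hqH, hqH, hH4 p q g hg]) _ (hvA p)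
    have h1 : Ultra.diag ω (v p) * (H p : Ultra ω M) * Ultra.diag ω a *
        (Ultra.diag ω (α g (v q)) * ultraAct ω α g (H q : Ultra ω M)) = 0 := by
      calc Ultra.diag ω (v p) * (H p : Ultra ω M) * Ultra.diag ω a *
            (Ultra.diag ω (α g (v q)) * ultraAct ω α g (H q : Ultra ω M))
          = Ultra.diag ω (v p) * ((H p : Ultra ω M) * Ultra.diag ω (a * α g (v q))) *
            ultraAct ω α g (H q : Ultra ω M) := by
            rw [map_mul]
            simp only [mul_assoc]
        _ = Ultra.diag ω (v p) * Ultra.diag ω (a * α g (v q)) *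
            ((H p * centralAct ω α g (H q) : centralSeq ω M) : Ultra ω M) := by
            rw [← hcomm]
            simp only [mul_assoc]
            rfl
        _ = ((H p : Ultra ω M) * ultraAct ω α g (H q : Ultra ω M) * Ultra.diag ω (v p)) *
            Ultra.diag ω (a * α g (v q)) := by
            rw [← map_mul, hcomm, map_mul, ← mul_assoc]
            rfl
        _ = 0 := by rw [h2, zero_mul]
    rw [h1, norm_zero]
    positivity
  obtain ⟨n, hn1, hn2, hn3, hn4⟩ := (E1.and (E2.and (E3.and E4))).exists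
  have htn : ∀ p, IsSelfAdjoint (t p n) := fun p => by
    rw [htd]
    exact IsSelfAdjoint.star_mul_self (y p n)
  have htA : ∀ p, t p n ∈ A := fun p => by
    have h1 : t p n = star (hs p n) * v p * hs p n := by
      rw [htd]
      show star (y p n) * y p n = _
      have h2 : y p n = w p * hs p n := by
        rw [hyd]
        rfl
      rw [h2, hw p, star_mul]
      simp only [mul_assoc]
    rw [h1]
    exact R.core.right _ _ (R.core.left _ _ (hvA p))
  choose L Yc X c1 c2 c3 c4 c5 c6 c7 c8 using fun p => Excis.exists_cut (t p n) (htn p) (hn1 p)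
  have hYA : ∀ p, Yc p ∈ A := fun p => by
    rw [← c1 p]
    exact R.core.left _ _ (htA p)
  have hXA : ∀ p, X p ∈ A := fun p => by
    rw [← c8 p]
    exact R.core.right _ _ (hYA p)
  have key : ∀ (L₁ L₂ b : M), ‖L₁‖ ≤ 2 → ‖L₂‖ ≤ 2 → ‖b‖ < δ / 4 → ‖L₁ * b * L₂‖ ≤ δ := by
    intro L₁ L₂ b h1 h2 h3
    calc ‖L₁ * b * L₂‖ ≤ ‖L₁‖ * ‖b‖ * ‖L₂‖ :=
          (norm_mul_le _ _).trans (mul_le_mul_of_nonneg_right (norm_mul_le _ _) (norm_nonneg _))
      _ ≤ 2 * (δ / 4) * 2 := by
          refine mul_le_mul (mul_le_mul h1 h3.le (norm_nonneg _) (by norm_num)) h2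
            (norm_nonneg _) (by positivity)
      _ = δ := by ring
  refine ⟨X, Yc, hXA, hYA, c6, c7, c4, c5, c8, ?_, ?_, ?_⟩
  · intro p a ha
    have h1 : Yc p * a * Yc p - lam p a • (Yc p * Yc p) =
        L p * (t p n * a * t p n - lam p a • (t p n * t p n)) * L p := by
      rw [mul_sub, sub_mul, mul_smul_comm, smul_mul_assoc]
      congr 1
      · nth_rewrite 1 [← c1 p]
        rw [← c2 p]
        simp only [mul_assoc]
      · congr 1
        nth_rewrite 1 [← c1 p]
        rw [← c2 p]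
        simp only [mul_assoc]
    rw [h1]
    exact key _ _ _ (c3 p) (c3 p) (hn2 p a ha)
  · intro p q hpq a ha
    have h1 : Yc p * a * Yc q = L p * (t p n * a * t q n) * L q := by
      rw [← c1 p, ← c2 q]
      simp only [mul_assoc]
    rw [h1]
    exact key _ _ _ (c3 p) (c3 q) (hn3 p q hpq a ha)
  · intro p q g hg a ha
    have h1 : Yc p * a * α g (Yc q) = L p * (t p n * a * α g (t q n)) * α g (L q) := by
      rw [← c1 p, ← c2 q, map_mul]
      simp only [mul_assoc]
    rw [h1]
    have h2 : ‖α g (L q)‖ ≤ 2 := (norm_act α g (L q)).le.trans (c3 q)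
    exact key _ _ _ (c3 p) h2 (hn4 p q g hg a ha)

end Vale.Agent.P095.NU
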