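import Vale.Agent.P095.NU.Units
import Vale.Agent.P095.Act
import Vale.Agent.P101.EpsTest

/-!
# P095, T7, row G31: quasicentral approximate units, and the local units fixed by the action
-/

open Filter Topology TopologicalSpace
open scoped BoundedContinuousFunction ComplexOrder

namespace Vale.Agent.P095.NU.RFlipP

open Vale.Agent.P101

universe u v w

/-- An approximate unit of `A`, asymptotically fixed by the action. -/
theorem exists_e {G : Type*} [Group G] [Countable G] {A : Type u} [NonUnitalCStarAlgebra A]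
    [SeparableSpace A] (hA : IsCore (Set.range (Unitization.inr : A → Unitization ℂ A)))
    {α : G →* (A ≃⋆ₐ[ℂ] A)} {α' : G →* (Unitization ℂ A ≃⋆ₐ[ℂ] Unitization ℂ A)}
    (hα' : ∀ g (a : A), α' g (a : Unitization ℂ A) = ((α g a : A) : Unitization ℂ A)) :
    ∃ e : ℕ → A, (∀ k, ‖e k‖ ≤ 1) ∧ (∀ k, IsSelfAdjoint (e k)) ∧
      (∀ a, Tendsto (fun k => ‖e k * a - a‖) atTop (𝓝 0)) ∧
      (∀ a, Tendsto (fun k => ‖a * e k - a‖) atTop (𝓝 0)) ∧
      ∀ g, Tendsto (fun k => ‖α g (e k) - e k‖) atTop (𝓝 0) := by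
  classical
  have hne : Nonempty A := ⟨0⟩
  obtain ⟨d, hd⟩ := exists_dense_seq A
  obtain ⟨gg, hgg⟩ := exists_surjective_nat G
  have hinv : ∀ g, ∀ a ∈ Set.range (Unitization.inr : A → Unitization ℂ A),
      α' g a ∈ Set.range (Unitization.inr : A → Unitization ℂ A) := by
    rintro g _ ⟨a, rfl⟩
    exact ⟨α g a, (hα' g a).symm⟩
  have key : ∀ n : ℕ, ∃ e : A, ‖e‖ ≤ 1 ∧ IsSelfAdjoint e ∧
      (∀ i ≤ n, ‖e * d i - d i‖ < 1 / ((n : ℝ) + 1) ∧ ‖d i * e - d i‖ < 1 / ((n : ℝ) + 1)) ∧
      ∀ i ≤ n, ‖α (gg i) e - e‖ < 1 / ((n : ℝ) + 1) := by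
    intro n
    obtain ⟨h, ⟨e, rfl⟩, hpos, hn, h1, -, h2⟩ := exists_quasi_unit hA α' hinv
      ((Finset.range (n + 1)).image fun i => ((d i : A) : Unitization ℂ A))
      (by
        intro a ha
        rw [Finset.mem_image] at ha
        obtain ⟨i, -, rfl⟩ := ha
        exact ⟨d i, rfl⟩) ∅ ((Finset.range (n + 1)).image gg) (1 / ((n : ℝ) + 1)) (by positivity)
    refine ⟨e, ?_, ?_, ?_, ?_⟩
    · rwa [Unitization.norm_inr] at hn
    · obtain ⟨y, hy⟩ := hpos
      have h3 : IsSelfAdjoint ((e : A) : Unitization ℂ A) := by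
        rw [hy]
        exact IsSelfAdjoint.star_mul_self y
      have h4 : ((star e : A) : Unitization ℂ A) = (e : Unitization ℂ A) := by
        rw [Unitization.inr_star]
        exact h3.star_eq
      exact Unitization.inr_injective h4
    · intro i hi
      have h3 := h1 _ (Finset.mem_image_of_mem _ (Finset.mem_range.2 (Nat.lt_succ_of_le hi)))
      rw [← Unitization.inr_mul, ← Unitization.inr_sub, Unitization.norm_inr,
        ← Unitization.inr_mul, ← Unitization.inr_sub, Unitization.norm_inr] at h3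
      exact h3
    · intro i hi
      have h3 := h2 _ (Finset.mem_image_of_mem _ (Finset.mem_range.2 (Nat.lt_succ_of_le hi)))
      rw [hα', ← Unitization.inr_sub, Unitization.norm_inr] at h3
      exact h3
  choose e he1 he2 he3 he4 using key
  have hlim : Tendsto (fun n : ℕ => 1 / ((n : ℝ) + 1)) atTop (𝓝 0) :=
    tendsto_one_div_add_atTop_nhds_zero_nat
  refine ⟨e, he1, he2, fun a => ?_, fun a => ?_, fun g => ?_⟩
  · rw [Metric.tendsto_atTop]
    intro ε hε
    obtain ⟨i, hi⟩ := hd.exists_dist_lt a (by positivity : 0 < ε / 4)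
    rw [dist_eq_norm] at hi
    obtain ⟨N, hN⟩ := (Metric.tendsto_atTop.1 hlim) (ε / 2) (by positivity)
    refine ⟨max i N, fun k hk => ?_⟩
    have h1 := (he3 k i ((le_max_left _ _).trans hk)).1
    have h2 := hN k ((le_max_right _ _).trans hk)
    rw [Real.dist_eq, sub_zero] at h2
    have h2' := (le_abs_self _).trans_lt h2
    rw [Real.dist_eq, sub_zero, abs_of_nonneg (norm_nonneg _)]
    have h3 : e k * a - a = e k * (a - d i) + (e k * d i - d i) - (a - d i) := by
      rw [mul_sub]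
      abel
    rw [h3]
    have h4 : ‖e k * (a - d i)‖ ≤ ‖a - d i‖ := by
      refine (norm_mul_le _ _).trans ?_
      calc ‖e k‖ * ‖a - d i‖ ≤ 1 * ‖a - d i‖ :=
            mul_le_mul_of_nonneg_right (he1 k) (norm_nonneg _)
        _ = _ := one_mul _
    have h5 := norm_sub_le (e k * (a - d i) + (e k * d i - d i)) (a - d i)
    have h6 := norm_add_le (e k * (a - d i)) (e k * d i - d i)
    linarith
  · rw [Metric.tendsto_atTop]
    intro ε hε
    obtain ⟨i, hi⟩ := hd.exists_dist_lt a (by positivity : 0 < ε / 4)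
    rw [dist_eq_norm] at hi
    obtain ⟨N, hN⟩ := (Metric.tendsto_atTop.1 hlim) (ε / 2) (by positivity)
    refine ⟨max i N, fun k hk => ?_⟩
    have h1 := (he3 k i ((le_max_left _ _).trans hk)).2
    have h2 := hN k ((le_max_right _ _).trans hk)
    rw [Real.dist_eq, sub_zero] at h2
    have h2' := (le_abs_self _).trans_lt h2
    rw [Real.dist_eq, sub_zero, abs_of_nonneg (norm_nonneg _)]
    have h3 : a * e k - a = (a - d i) * e k + (d i * e k - d i) - (a - d i) := by
      rw [sub_mul]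
      abel
    rw [h3]
    have h4 : ‖(a - d i) * e k‖ ≤ ‖a - d i‖ := by
      refine (norm_mul_le _ _).trans ?_
      calc ‖a - d i‖ * ‖e k‖ ≤ ‖a - d i‖ * 1 :=
            mul_le_mul_of_nonneg_left (he1 k) (norm_nonneg _)
        _ = _ := mul_one _
    have h5 := norm_sub_le ((a - d i) * e k + (d i * e k - d i)) (a - d i)
    have h6 := norm_add_le ((a - d i) * e k) (d i * e k - d i)
    linarith
  · obtain ⟨i, rfl⟩ := hgg g
    refine squeeze_zero' (Eventually.of_forall fun _ => norm_nonneg _) ?_ hlim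
    filter_upwards [eventually_ge_atTop i] with k hk
    exact (he4 k i hk).le

/-- A local unit in the ultrapower, fixed by the action, which makes `H` fixed. -/
theorem exists_P {G : Type*} [Group G] [Countable G] {A : Type u} [NonUnitalCStarAlgebra A]
    [SeparableSpace A] {S : Type u} [CStarAlgebra S] {ω : Ultrafilter ℕ}
    (hω : (ω : Filter ℕ) ≤ cofinite) {α : G →* (A ≃⋆ₐ[ℂ] A)} {γ' : G →* (S ≃⋆ₐ[ℂ] S)}
    {ι : Unitization ℂ A →⋆ₐ[ℂ] S}
    (hγι : ∀ g (a : A), γ' g (ι (a : Unitization ℂ A)) = ι ((α g a : A) : Unitization ℂ A))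
    {e : ℕ → A} (he1 : ∀ k, ‖e k‖ ≤ 1) (he2 : ∀ k, IsSelfAdjoint (e k))
    (he3 : ∀ a, Tendsto (fun k => ‖e k * a - a‖) atTop (𝓝 0))
    (he5 : ∀ g, Tendsto (fun k => ‖α g (e k) - e k‖) atTop (𝓝 0))
    (H : Ultra ω S) (hH : ∀ a : A, Commute H (Ultra.diag ω (ι (a : Unitization ℂ A))))
    (hH' : ∀ g (a : A), ultraAct ω γ' g H * Ultra.diag ω (ι (a : Unitization ℂ A)) =
      H * Ultra.diag ω (ι (a : Unitization ℂ A))) :
    ∃ P : Ultra ω S, IsSelfAdjoint P ∧
      (∀ a : A, P * Ultra.diag ω (ι (a : Unitization ℂ A)) =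
        Ultra.diag ω (ι (a : Unitization ℂ A))) ∧
      (∀ g, ultraAct ω γ' g P = P) ∧ ∀ g, P * ultraAct ω γ' g H = P * H := by
  classical
  have hne : Nonempty A := ⟨0⟩
  obtain ⟨d, hd⟩ := exists_dense_seq A
  obtain ⟨gg, hgg⟩ := exists_surjective_nat G
  obtain ⟨y, rfl⟩ := Ultra.mk_surjective H
  -- the commutation of `diag (ι a)` with the translate
  have hcomm : ∀ g (a : A), Commute (ultraAct ω γ' g (Ultra.mk ω y))
      (Ultra.diag ω (ι (a : Unitization ℂ A))) := by
    intro g a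
    have h1 := (hH ((α g)⁻¹ a)).map (ultraAct ω γ' g)
    rw [ultraAct_diag, hγι] at h1
    have h2 : α g ((α g)⁻¹ a) = a := by
      rw [← StarAlgEquiv.mul_apply, mul_inv_cancel]
      rfl
    rwa [h2] at h1
  have hzero : ∀ g (a : A), Tendsto (fun n => ‖ι (a : Unitization ℂ A) * (γ' g (y n) - y n)‖) ω
      (𝓝 0) := by
    intro g a
    have h1 : Ultra.diag ω (ι (a : Unitization ℂ A)) *
        (ultraAct ω γ' g (Ultra.mk ω y) - Ultra.mk ω y) = 0 := by
      rw [mul_sub, ← (hcomm g a).eq, ← (hH a).eq, hH' g a, sub_self]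
    rw [ultraAct_mk, Ultra.diag_apply, ← map_sub, ← map_mul, Ultra.mk_eq_zero_iff] at h1
    exact h1
  let f : ℕ → (n : ℕ) → ℕ → ℝ := fun k n i =>
    ‖e i * d k - d k‖ + ‖α (gg k) (e i) - e i‖ +
      ‖ι ((e i : A) : Unitization ℂ A) * (γ' (gg k) (y n) - y n)‖
  obtain ⟨x, hx⟩ := eps_test (X := fun _ => ℕ) (ω : Filter ℕ) hω f
    (fun k n i => by positivity) (by
      intro m ε hε
      have h1 : ∀ k ∈ Finset.range (m + 1), ∀ᶠ i in atTop,
          ‖e i * d k - d k‖ < ε / 3 ∧ ‖α (gg k) (e i) - e i‖ < ε / 3 := fun k _ =>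
        ((he3 (d k)).eventually (gt_mem_nhds (by positivity))).and
          ((he5 (gg k)).eventually (gt_mem_nhds (by positivity)))
      obtain ⟨i, hi⟩ := ((Filter.eventually_all_finset (Finset.range (m + 1))).2 h1).exists
      refine ⟨fun _ => i, fun k hk => ?_⟩
      have h2 := hi k (Finset.mem_range.2 (Nat.lt_succ_of_le hk))
      filter_upwards [(hzero (gg k) (e i)).eventually (gt_mem_nhds (by positivity : 0 < ε / 3))]
        with n hn
      show ‖e i * d k - d k‖ + ‖α (gg k) (e i) - e i‖ +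
        ‖ι ((e i : A) : Unitization ℂ A) * (γ' (gg k) (y n) - y n)‖ < ε
      linarith [h2.1, h2.2])
  have hx1 : ∀ k, Tendsto (fun n => ‖e (x n) * d k - d k‖) ω (𝓝 0) := fun k =>
    squeeze_zero (fun _ => norm_nonneg _) (fun n => by
      show _ ≤ f k n (x n)
      simp only [f]
      linarith [norm_nonneg (α (gg k) (e (x n)) - e (x n)),
        norm_nonneg (ι ((e (x n) : A) : Unitization ℂ A) * (γ' (gg k) (y n) - y n))]) (hx k)
  have hx2 : ∀ k, Tendsto (fun n => ‖α (gg k) (e (x n)) - e (x n)‖) ω (𝓝 0) := fun k =>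
    squeeze_zero (fun _ => norm_nonneg _) (fun n => by
      show _ ≤ f k n (x n)
      simp only [f]
      linarith [norm_nonneg (e (x n) * d k - d k),
        norm_nonneg (ι ((e (x n) : A) : Unitization ℂ A) * (γ' (gg k) (y n) - y n))]) (hx k)
  have hx3 : ∀ k, Tendsto (fun n => ‖ι ((e (x n) : A) : Unitization ℂ A) *
      (γ' (gg k) (y n) - y n)‖) ω (𝓝 0) := fun k =>
    squeeze_zero (fun _ => norm_nonneg _) (fun n => by
      show _ ≤ f k n (x n)
      simp only [f]
      linarith [norm_nonneg (e (x n) * d k - d k),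
        norm_nonneg (α (gg k) (e (x n)) - e (x n))]) (hx k)
  -- the local unit
  let p : ℕ →ᵇ S := BoundedContinuousFunction.ofNormedAddCommGroupDiscrete
    (fun n => ι ((e (x n) : A) : Unitization ℂ A)) 1 (fun n => by
      refine (NonUnitalStarAlgHom.norm_apply_le ι _).trans ?_
      rw [Unitization.norm_inr]
      exact he1 _)
  have hp : ∀ n, p n = ι ((e (x n) : A) : Unitization ℂ A) := fun n => rfl
  have hιn : ∀ a : A, ‖ι (a : Unitization ℂ A)‖ ≤ ‖a‖ := fun a => by
    refine (NonUnitalStarAlgHom.norm_apply_le ι _).trans ?_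
    rw [Unitization.norm_inr]
  refine ⟨Ultra.mk ω p, ?_, ?_, ?_, ?_⟩
  · rw [IsSelfAdjoint, ← map_star]
    congr 1
    ext n
    show star (p n) = p n
    rw [hp, ← map_star, ← Unitization.inr_star, (he2 _).star_eq]
  · have hcl : IsClosed {a : A | Ultra.mk ω p * Ultra.diag ω (ι (a : Unitization ℂ A)) =
        Ultra.diag ω (ι (a : Unitization ℂ A))} := by
      have hc : Continuous fun a : A => Ultra.diag ω (ι (a : Unitization ℂ A)) := by
        have hc1 : Continuous (Ultra.diag ω : S →⋆ₐ[ℂ] Ultra ω S) :=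
          AddMonoidHomClass.continuous_of_bound _ 1 fun x => by
            rw [one_mul]
            exact NonUnitalStarAlgHom.norm_apply_le _ x
        have hc2 : Continuous ι := AddMonoidHomClass.continuous_of_bound _ 1 fun x => by
          rw [one_mul]
          exact NonUnitalStarAlgHom.norm_apply_le _ x
        exact hc1.comp (hc2.comp (Unitization.isometry_inr (𝕜 := ℂ) (A := A)).continuous)
      exact isClosed_eq (continuous_const.mul hc) hc
    have hr : Set.range d ⊆ {a : A | Ultra.mk ω p * Ultra.diag ω (ι (a : Unitization ℂ A)) =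
        Ultra.diag ω (ι (a : Unitization ℂ A))} := by
      rintro _ ⟨k, rfl⟩
      show Ultra.mk ω p * Ultra.diag ω (ι ((d k : A) : Unitization ℂ A)) =
        Ultra.diag ω (ι ((d k : A) : Unitization ℂ A))
      rw [Ultra.diag_apply, ← map_mul, Ultra.mk_eq_mk_iff]
      refine squeeze_zero (fun _ => norm_nonneg _) (fun n => ?_) (hx1 k)
      show ‖p n * ι ((d k : A) : Unitization ℂ A) - ι ((d k : A) : Unitization ℂ A)‖ ≤ _
      rw [hp, ← map_mul, ← map_sub, ← Unitization.inr_mul, ← Unitization.inr_sub]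
      exact hιn _
    intro a
    exact closure_minimal hr hcl (hd a)
  · intro g
    obtain ⟨k, rfl⟩ := hgg g
    rw [ultraAct_mk, Ultra.mk_eq_mk_iff]
    refine squeeze_zero (fun _ => norm_nonneg _) (fun n => ?_) (hx2 k)
    show ‖γ' (gg k) (p n) - p n‖ ≤ _
    rw [hp, hγι, ← map_sub, ← Unitization.inr_sub]
    exact hιn _
  · intro g
    obtain ⟨k, rfl⟩ := hgg g
    rw [← sub_eq_zero, ← mul_sub, ultraAct_mk, ← map_sub, ← map_mul, Ultra.mk_eq_zero_iff]
    exact hx3 k

end Vale.Agent.P095.NU.RFlipP
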