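import Vale.Agent.P095.NU.RFlipHom
import Vale.Agent.P095.NU.RFlipP

/-!
# P095, T7, row G31: the flip in the ultrapower of `T`, relative to the annihilator of `A`
-/

open Filter Topology TopologicalSpace
open scoped BoundedContinuousFunction ComplexOrder

namespace Vale.Agent.P095.NU

open Vale.Agent.P101

universe u v w

section Tensor

variable {G : Type*} [Group G] {Z : Type v} [CStarAlgebra Z]
  {A : Type u} [NonUnitalCStarAlgebra A] [SeparableSpace A] {T : Type u}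
  [NonUnitalCStarAlgebra T] {t : A →ₗ[ℂ] Z →ₗ[ℂ] T}
  {α : G →* (A ≃⋆ₐ[ℂ] A)} {α' : G →* (Unitization ℂ A ≃⋆ₐ[ℂ] Unitization ℂ A)}
  {ω : Ultrafilter ℕ} {B : Type u} [CStarAlgebra B]
  {q : centralSeq ω (Unitization ℂ A) →⋆ₐ[ℂ] B} {β : G →* (B ≃⋆ₐ[ℂ] B)}

theorem exists_flip_rel [Countable G] (hflip : HasExpHalfFlip.{v, u} Z) (ht : IsTensorNU t)
    (hα' : ∀ g (a : A), α' g (a : Unitization ℂ A) = ((α g a : A) : Unitization ℂ A))
    (hω : (ω : Filter ℕ) ≤ cofinite)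
    (R : RelSys ω (Set.range (Unitization.inr : A → Unitization ℂ A)) α' q β)
    (ρ : Z →⋆ₐ[ℂ] B) (hρ : ∀ g z, β g (ρ z) = ρ z)
    (γ : G →* (T ≃⋆ₐ[ℂ] T)) (hγ : ∀ g a z, γ g (t a z) = t (α g a) z)
    (γ' : G →* (Unitization ℂ T ≃⋆ₐ[ℂ] Unitization ℂ T))
    (hγ' : ∀ g (x : T), γ' g (x : Unitization ℂ T) = ((γ g x : T) : Unitization ℂ T))
    (ι : Unitization ℂ A →⋆ₐ[ℂ] Unitization ℂ T)
    (hι : ∀ a : A, ι (a : Unitization ℂ A) = ((t a 1 : T) : Unitization ℂ T))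
    (Fz : Finset Z) (Fa : Finset A) (ε : ℝ) (hε : 0 < ε) :
    ∃ V ∈ unitary (Ultra ω (Unitization ℂ T)),
      (∀ a : A, Commute V (Ultra.diag ω (ι (a : Unitization ℂ A)))) ∧
      (∀ g, ultraAct ω γ' g V = V) ∧
      ∀ z ∈ Fz, ∀ a ∈ Fa, ∀ x : centralSeq ω (Unitization ℂ A), q x = ρ z →
        ‖star V * Ultra.diag ω ((t a z : T) : Unitization ℂ T) * V -
          Ultra.diag ω (ι (a : Unitization ℂ A)) * ultraMap ω ι (x : Ultra ω _)‖ < ε := by
  obtain ⟨e, he1, he2, he3, he4, he5⟩ := RFlipP.exists_e R.core hα'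
  have hωt : (ω : Filter ℕ) ≤ atTop := by
    rw [← Nat.cofinite_eq_atTop]
    exact hω
  have hγι : ∀ g (a : A), γ' g (ι (a : Unitization ℂ A)) = ι ((α g a : A) : Unitization ℂ A) := by
    intro g a
    rw [hι, hι, hγ', hγ]
  exact RF.flip_of hflip ht hα' R ρ hρ γ hγ γ' hγ' ι hι e he1
    (fun a => (he3 a).mono_left hωt) (fun a => (he4 a).mono_left hωt)
    (fun g => (he5 g).mono_left hωt)
    (fun H h1 h2 => RFlipP.exists_P hω hγι he1 he2 he3 he5 H h1 h2) Fz Fa ε hε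

end Tensor

end Vale.Agent.P095.NU
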