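import Vale.Agent.P095.NU.Defs
import Vale.Agent.P095.NU.QuotCStar
import Vale.Agent.P095.Act

/-!
# P095, T7, row G31: the half flip modulo the annihilator of a set (abstract part)
-/

open Filter Topology TopologicalSpace
open scoped BoundedContinuousFunction ComplexOrder

namespace Vale.Agent.P095.NU

open Vale.Agent.P101

universe u v w

namespace RF

/-- factoring a homomorphism through a surjection -/
theorem exists_factor {C B Q : Type*} [CStarAlgebra C] [CStarAlgebra B] [CStarAlgebra Q]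
    (q : C →⋆ₐ[ℂ] B) (hq : Function.Surjective q) (f : C →⋆ₐ[ℂ] Q)
    (h : ∀ x, q x = 0 → f x = 0) : ∃ f' : B →⋆ₐ[ℂ] Q, ∀ x, f' (q x) = f x := by
  have key : ∀ x y, q x = q y → f x = f y := by
    intro x y hxy
    have h1 := h (x - y) (by rw [map_sub, hxy, sub_self])
    rw [map_sub] at h1
    exact sub_eq_zero.1 h1
  choose s hs using hq
  refine ⟨{ toFun := fun b => f (s b)
            map_one' := ?_
            map_mul' := fun a b => ?_
            map_zero' := ?_
            map_add' := fun a b => ?_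
            commutes' := fun c => ?_
            map_star' := fun a => ?_ }, fun x => key _ _ (hs _)⟩
  · rw [key _ 1 (by rw [hs, map_one]), map_one]
  · rw [← map_mul]
    exact key _ _ (by rw [hs, map_mul, hs, hs])
  · rw [key _ 0 (by rw [hs, map_zero]), map_zero]
  · rw [← map_add]
    exact key _ _ (by rw [hs, map_add, hs, hs])
  · show f (s (algebraMap ℂ B c)) = _
    rw [key _ (algebraMap ℂ C c) (by rw [hs]; exact (AlgHomClass.commutes q c).symm)]
    exact AlgHomClass.commutes f c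
  · show f (s (star a)) = star (f (s a))
    rw [← map_star]
    exact key _ _ (by rw [hs, map_star, hs])

theorem map_expUnitary {C Q : Type*} [CStarAlgebra C] [CStarAlgebra Q] (f : C →⋆ₐ[ℂ] Q)
    (x : selfAdjoint C) (y : selfAdjoint Q) (h : f (x : C) = (y : Q)) :
    f (selfAdjoint.expUnitary x : C) = (selfAdjoint.expUnitary y : Q) := by
  rw [selfAdjoint.expUnitary_coe, selfAdjoint.expUnitary_coe, ← h]
  have h1 : Continuous f := AddMonoidHomClass.continuous_of_bound f 1 fun x => by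
    rw [one_mul]
    exact NonUnitalStarAlgHom.norm_apply_le f x
  letI : NormedAlgebra ℚ C := .restrictScalars ℚ ℂ C
  letI : NormedAlgebra ℚ Q := .restrictScalars ℚ ℂ Q
  rw [NormedSpace.map_exp f h1, map_smul]

theorem exists_prod_lift {C Q : Type*} [CStarAlgebra C] [CStarAlgebra Q] (f : C →⋆ₐ[ℂ] Q)
    (l : List (selfAdjoint Q)) (h : ∀ y ∈ l, ∃ x : selfAdjoint C, f (x : C) = (y : Q)) :
    ∃ V ∈ unitary C, f V = ((l.map selfAdjoint.expUnitary).prod : Q) := by
  induction l with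
  | nil => exact ⟨1, one_mem _, by simp⟩
  | cons y l ih =>
    obtain ⟨V, hV, hf⟩ := ih fun y' hy' => h y' (List.mem_cons_of_mem _ hy')
    obtain ⟨x, hx⟩ := h y List.mem_cons_self
    refine ⟨(selfAdjoint.expUnitary x : C) * V,
      mul_mem (selfAdjoint.expUnitary x).2 hV, ?_⟩
    rw [map_mul, hf, map_expUnitary f x y hx]
    simp

/-- `Λ` is a homomorphism modulo the annihilator of `𝒟`. -/
structure IsHomMod {U : Type u} [CStarAlgebra U] (𝒟 : Set U) {Z : Type v} [CStarAlgebra Z]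
    (Λ : Z → U) : Prop where
  comm : ∀ z, ∀ d ∈ 𝒟, Commute (Λ z) d
  add : ∀ z w, ∀ d ∈ 𝒟, Λ (z + w) * d = (Λ z + Λ w) * d
  smul : ∀ (c : ℂ) z, ∀ d ∈ 𝒟, Λ (c • z) * d = (c • Λ z) * d
  mul : ∀ z w, ∀ d ∈ 𝒟, Λ (z * w) * d = Λ z * Λ w * d
  one : ∀ d ∈ 𝒟, Λ 1 * d = d
  star : ∀ z, ∀ d ∈ 𝒟, Λ (star z) * d = star (Λ z) * d

theorem abs_flip {U : Type u} [CStarAlgebra U] {𝒟 : Set U} (hst : ∀ d ∈ 𝒟, star d ∈ 𝒟)
    {G : Type*} [Group G] (act : G →* (U ≃⋆ₐ[ℂ] U)) (hact : ∀ g, ∀ d ∈ 𝒟, act g d ∈ 𝒟)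
    {Z : Type v} [CStarAlgebra Z] (hflip : HasExpHalfFlip.{v, u} Z) {Λ Θ : Z → U}
    (hΛ : IsHomMod 𝒟 Λ) (hΘ : IsHomMod 𝒟 Θ)
    (hc : ∀ z w, ∀ d ∈ 𝒟, Λ z * Θ w * d = Θ w * Λ z * d)
    (hΛf : ∀ g z, ∀ d ∈ 𝒟, act g (Λ z) * d = Λ z * d)
    (hΘf : ∀ g z, ∀ d ∈ 𝒟, act g (Θ z) * d = Θ z * d)
    (hP : ∀ H : U, (∀ d ∈ 𝒟, Commute H d) → (∀ g, ∀ d ∈ 𝒟, act g H * d = H * d) →
      ∃ P : U, IsSelfAdjoint P ∧ (∀ d ∈ 𝒟, P * d = d) ∧ (∀ g, act g P = P) ∧
        ∀ g, P * act g H = P * H)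
    (Fz : Finset Z) (ε : ℝ) (hε : 0 < ε) :
    ∃ V ∈ unitary U, (∀ d ∈ 𝒟, Commute V d) ∧ (∀ g, act g V = V) ∧
      ∀ z ∈ Fz, ∀ d ∈ 𝒟, ‖(V * Λ z * star V - Θ z) * d‖ ≤ ε * ‖d‖ := by
  classical
  let C' : StarSubalgebra ℂ U := StarSubalgebra.centralizer ℂ 𝒟
  have hmem : ∀ x : U, x ∈ C' ↔ ∀ d ∈ 𝒟, Commute x d := by
    intro x
    rw [StarSubalgebra.mem_centralizer_iff]
    constructor
    · intro h d hd
      exact (h d hd).1.symm
    · intro h d hd
      exact ⟨(h d hd).eq.symm, (h _ (hst d hd)).eq.symm⟩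
  have hcl : IsClosed (C' : Set U) := by
    rw [StarSubalgebra.coe_centralizer]
    exact Set.isClosed_centralizer _
  let N : Set C' := {x | ∀ d ∈ 𝒟, (x : U) * d = 0}
  obtain ⟨Q, _, p, hps, hpk, hpl⟩ := exists_quotient N (by
      have h1 : N = ⋂ d ∈ 𝒟, {x : C' | (x : U) * d = 0} := by
        ext x
        simp [N]
      rw [h1]
      exact isClosed_biInter fun d _ =>
        isClosed_eq ((continuous_subtype_val).mul continuous_const) continuous_const)
    (fun d _ => by simp) (fun x hx y hy d hd => by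
      show ((x : U) + (y : U)) * d = 0
      rw [add_mul, hx d hd, hy d hd, add_zero])
    (fun c x hx d hd => by
      show ((c : U) * (x : U)) * d = 0
      rw [mul_assoc, hx d hd, mul_zero])
    (fun c x hx d hd => by
      show ((x : U) * (c : U)) * d = 0
      rw [mul_assoc, ((hmem c).1 c.2 d hd).eq, ← mul_assoc, hx d hd, zero_mul])
    (fun x hx d hd => by
      show star (x : U) * d = 0
      have h1 := ((hmem x).1 x.2 _ (hst d hd)).eq
      rw [hx _ (hst d hd)] at h1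
      have h2 := congrArg star h1
      rw [star_mul, star_star, star_zero] at h2
      exact h2.symm)
  have hpeq : ∀ x y : C', p x = p y ↔ ∀ d ∈ 𝒟, (x : U) * d = (y : U) * d := by
    intro x y
    rw [← sub_eq_zero, ← map_sub, hpk]
    constructor
    · intro h d hd
      have h1 : ((x : U) - (y : U)) * d = 0 := h d hd
      rw [sub_mul] at h1
      exact sub_eq_zero.1 h1
    · intro h d hd
      show ((x : U) - (y : U)) * d = 0
      rw [sub_mul, h d hd, sub_self]
  -- homomorphisms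
  have hmk : ∀ {Λ : Z → U}, IsHomMod 𝒟 Λ → ∃ π : Z →⋆ₐ[ℂ] Q, ∀ z (h : Λ z ∈ C'),
      π z = p ⟨Λ z, h⟩ := by
    intro Λ hΛ
    have hm : ∀ z, Λ z ∈ C' := fun z => (hmem _).2 (hΛ.comm z)
    refine ⟨{ toFun := fun z => p ⟨Λ z, hm z⟩
              map_one' := ?_
              map_mul' := fun a b => ?_
              map_zero' := ?_
              map_add' := fun a b => ?_
              commutes' := fun c => ?_
              map_star' := fun a => ?_ }, fun z h => rfl⟩
    · rw [← map_one p, hpeq]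
      intro d hd
      show Λ 1 * d = 1 * d
      rw [hΛ.one d hd, one_mul]
    · rw [← map_mul, hpeq]
      exact hΛ.mul a b
    · rw [← map_zero p, hpeq]
      intro d hd
      show Λ 0 * d = 0 * d
      have h1 := hΛ.smul 0 0 d hd
      rw [zero_smul, zero_smul] at h1
      exact h1
    · rw [← map_add, hpeq]
      exact hΛ.add a b
    · show p ⟨Λ (algebraMap ℂ Z c), _⟩ = algebraMap ℂ Q c
      rw [← AlgHomClass.commutes p c, hpeq]
      intro d hd
      show Λ (algebraMap ℂ Z c) * d = algebraMap ℂ U c * d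
      rw [Algebra.algebraMap_eq_smul_one, hΛ.smul c 1 d hd, smul_mul_assoc, hΛ.one d hd,
        Algebra.algebraMap_eq_smul_one, smul_mul_assoc, one_mul]
    · show p ⟨Λ (star a), _⟩ = star (p ⟨Λ a, _⟩)
      rw [← map_star, hpeq]
      exact hΛ.star a
  obtain ⟨π₁, hπ₁⟩ := hmk hΛ
  obtain ⟨π₂, hπ₂⟩ := hmk hΘ
  have hmΛ : ∀ z, Λ z ∈ C' := fun z => (hmem _).2 (hΛ.comm z)
  have hmΘ : ∀ z, Θ z ∈ C' := fun z => (hmem _).2 (hΘ.comm z)
  have hcomm : ∀ x y, Commute (π₁ x) (π₂ y) := by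
    intro x y
    rw [hπ₁ x (hmΛ x), hπ₂ y (hmΘ y), commute_iff_eq, ← map_mul, ← map_mul, hpeq]
    exact hc x y
  -- the induced action
  have hres : ∀ g, ∀ x ∈ C', act g x ∈ C' := by
    intro g x hx
    rw [hmem] at hx ⊢
    intro d hd
    have h1 := (hx _ (hact g⁻¹ d hd)).map (act g)
    have h2 : act g (act g⁻¹ d) = d := by
      rw [← StarAlgEquiv.mul_apply, ← map_mul, mul_inv_cancel, map_one]
      rfl
    rwa [h2] at h1
  let r : G → (C' →⋆ₐ[ℂ] C') := fun g =>
    { toFun := fun x => ⟨act g x, hres g x x.2⟩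
      map_one' := Subtype.ext (map_one _)
      map_mul' := fun x y => Subtype.ext (map_mul _ _ _)
      map_zero' := Subtype.ext (map_zero _)
      map_add' := fun x y => Subtype.ext (map_add _ _ _)
      commutes' := fun c => Subtype.ext (AlgHomClass.commutes (act g) c)
      map_star' := fun x => Subtype.ext (map_star _ _) }
  have hind : ∀ g, ∃ f : Q →⋆ₐ[ℂ] Q, ∀ x, f (p x) = p (r g x) := by
    intro g
    obtain ⟨f, hf⟩ := exists_factor p hps (p.comp (r g)) (fun x hx => by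
      rw [hpk] at hx
      show p (r g x) = 0
      rw [hpk]
      intro d hd
      show act g (x : U) * d = 0
      have h2 : act g (act g⁻¹ d) = d := by
        rw [← StarAlgEquiv.mul_apply, ← map_mul, mul_inv_cancel, map_one]
        rfl
      rw [← h2, ← map_mul, hx _ (hact g⁻¹ d hd), map_zero])
    exact ⟨f, hf⟩
  choose γ hγ using hind
  -- the flip
  obtain ⟨l, hl, hlz⟩ := hflip Q π₁ π₂ hcomm Fz ε hε
  -- fixed elements
  have hfix : ∀ g, ∀ h ∈ closure (Algebra.adjoin ℂ (Set.range π₁ ∪ Set.range π₂) : Set Q),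
      γ g h = h := by
    intro g
    have hcg : Continuous (γ g) := AddMonoidHomClass.continuous_of_bound (γ g) 1 fun x => by
      rw [one_mul]
      exact NonUnitalStarAlgHom.norm_apply_le (γ g) x
    have h1 : (Algebra.adjoin ℂ (Set.range π₁ ∪ Set.range π₂) : Set Q) ⊆
        {h | γ g h = h} := by
      intro h hh
      have h2 : Algebra.adjoin ℂ (Set.range π₁ ∪ Set.range π₂) ≤
          AlgHom.equalizer (γ g : Q →ₐ[ℂ] Q) (AlgHom.id ℂ Q) := by
        apply Algebra.adjoin_le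
        rintro _ (⟨z, rfl⟩ | ⟨z, rfl⟩)
        · show γ g (π₁ z) = π₁ z
          rw [hπ₁ z (hmΛ z), hγ, hpeq]
          exact hΛf g z
        · show γ g (π₂ z) = π₂ z
          rw [hπ₂ z (hmΘ z), hγ, hpeq]
          exact hΘf g z
      exact h2 hh
    intro h hh
    exact closure_minimal h1 (isClosed_eq hcg continuous_id) hh
  -- the fixed commutant
  let C₀ : StarSubalgebra ℂ U := C' ⊓ fixedAlg act
  have hcl0 : IsClosed (C₀ : Set U) := by
    have h1 : (C₀ : Set U) = (C' : Set U) ∩ (fixedAlg act : Set U) := rfl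
    rw [h1]
    exact hcl.inter (isClosed_fixedAlg act)
  have hle : C₀ ≤ C' := inf_le_left
  let p₀ : C₀ →⋆ₐ[ℂ] Q := p.comp (StarSubalgebra.inclusion hle)
  have hlift : ∀ h ∈ l, ∃ h' : selfAdjoint C₀, p₀ (h' : C₀) = (h : Q) := by
    intro h hh
    obtain ⟨x, hx⟩ := hps (h : Q)
    have hhs : star (h : Q) = h := h.2
    let H : C' := (1 / 2 : ℂ) • (x + star x)
    have hH : p H = h := by
      simp only [H]
      rw [map_smul, map_add, map_star, hx, hhs, ← two_smul ℂ (h : Q), smul_smul]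
      norm_num
    have hHs : star H = H := by
      simp only [H]
      rw [star_smul, star_add, star_star, add_comm]
      congr 1
      norm_num
    have hHsU : star (H : U) = H := congrArg Subtype.val hHs
    have hHf : ∀ g, ∀ d ∈ 𝒟, act g (H : U) * d = (H : U) * d := by
      intro g
      have h1 : p (r g H) = p H := by
        rw [← hγ, hH, hfix g _ (hl h hh)]
      exact (hpeq _ _).1 h1
    obtain ⟨P, hPs, hPd, hPa, hPH⟩ := hP (H : U) ((hmem _).1 H.2) hHf
    have hPd' : ∀ d ∈ 𝒟, d * P = d := by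
      intro d hd
      have h1 := congrArg star (hPd _ (hst d hd))
      rw [star_mul, star_star, hPs.star_eq] at h1
      exact h1
    have hcH := (hmem _).1 H.2
    have e1 : ∀ d ∈ 𝒟, P * (H : U) * P * d = (H : U) * d := by
      intro d hd
      rw [mul_assoc, hPd d hd, mul_assoc, (hcH d hd).eq, ← mul_assoc, hPd d hd]
    have e2 : ∀ d ∈ 𝒟, d * (P * (H : U) * P) = d * (H : U) := by
      intro d hd
      rw [← mul_assoc, ← mul_assoc, hPd' d hd, ← (hcH d hd).eq, mul_assoc, hPd' d hd]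
    have hm' : P * (H : U) * P ∈ C₀ := by
      refine ⟨(hmem _).2 fun d hd => ?_, fun g => ?_⟩
      · rw [commute_iff_eq, e1 d hd, e2 d hd, (hcH d hd).eq]
      · rw [map_mul, map_mul, hPa, hPH]
    refine ⟨⟨⟨P * (H : U) * P, hm'⟩, ?_⟩, ?_⟩
    · apply Subtype.ext
      show star (P * (H : U) * P) = P * (H : U) * P
      rw [star_mul, star_mul, hPs.star_eq, hHsU, mul_assoc]
    · rw [← hH]
      show p ⟨P * (H : U) * P, _⟩ = p H
      rw [hpeq]
      exact e1
  obtain ⟨V, hV, hVp⟩ := exists_prod_lift p₀ l hlift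
  have hVU : (V : U) ∈ unitary U := by
    rw [Unitary.mem_iff] at hV ⊢
    exact ⟨congrArg Subtype.val hV.1, congrArg Subtype.val hV.2⟩
  have hVC : (V : U) ∈ C' := hle V.2
  refine ⟨V, hVU, (hmem _).1 hVC, V.2.2, ?_⟩
  intro z hz d hd
  let V' : C' := ⟨V, hVC⟩
  let Y : C' := V' * ⟨Λ z, hmΛ z⟩ * star V' - ⟨Θ z, hmΘ z⟩
  have hpV : p V' = ((l.map selfAdjoint.expUnitary).prod : Q) := hVp
  have hY : ‖p Y‖ < ε := by
    have h1 := hlz z hz
    rw [hπ₁ z (hmΛ z), hπ₂ z (hmΘ z), ← hpV, ← map_star, ← map_mul, ← map_mul, ← map_sub] at h1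
    exact h1
  obtain ⟨Y', hY', hYn⟩ := hpl (p Y)
  have h2 := (hpeq _ _).1 hY' d hd
  show ‖(Y : U) * d‖ ≤ ε * ‖d‖
  rw [← h2]
  refine (norm_mul_le _ _).trans ?_
  have h3 : ‖(Y' : U)‖ = ‖Y'‖ := rfl
  rw [h3, hYn]
  exact mul_le_mul_of_nonneg_right hY.le (norm_nonneg _)

end RF

end Vale.Agent.P095.NU
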