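import Vale.Agent.P095.NU.Defs

/-!
# P095, T7: `Z` acts by multipliers on a tensor product `A ⊗ Z`
-/

open Filter Topology
open scoped TensorProduct

namespace Vale.Agent.P095.NU

universe u v w

namespace ZMult

/-- Extension of a bounded linear map from the dense range of an injective linear map. -/
theorem exists_extend {E T F : Type*} [AddCommGroup E] [Module ℂ E] [NormedAddCommGroup T]
    [NormedSpace ℂ T] [NormedAddCommGroup F] [NormedSpace ℂ F] [CompleteSpace F]
    (L : E →ₗ[ℂ] T) (hinj : Function.Injective L) (hd : DenseRange L) (Ψ : E →ₗ[ℂ] F) (C : ℝ)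
    (h : ∀ s, ‖Ψ s‖ ≤ C * ‖L s‖) : ∃ J : T →L[ℂ] F, ∀ s, J (L s) = Ψ s := by
  let e : E ≃ₗ[ℂ] LinearMap.range L := LinearEquiv.ofInjective L hinj
  have he : ∀ s, ((e s : LinearMap.range L) : T) = L s := fun s => rfl
  let f : LinearMap.range L →L[ℂ] F :=
    (Ψ ∘ₗ e.symm.toLinearMap).mkContinuous C (fun x => by
      obtain ⟨s, rfl⟩ := e.surjective x
      show ‖Ψ (e.symm (e s))‖ ≤ C * ‖(e s : LinearMap.range L)‖
      rw [LinearEquiv.symm_apply_apply]
      exact h s)
  have hfe : ∀ s, f (e s) = Ψ s := fun s => by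
    show Ψ (e.symm (e s)) = Ψ s
    rw [LinearEquiv.symm_apply_apply]
  have dr : DenseRange (LinearMap.range L).subtypeL := by
    have : Set.range (LinearMap.range L).subtypeL = Set.range L := by
      ext y
      constructor
      · rintro ⟨x, rfl⟩
        obtain ⟨s, rfl⟩ := e.surjective x
        exact ⟨s, rfl⟩
      · rintro ⟨s, rfl⟩
        exact ⟨e s, rfl⟩
    show Dense _
    rw [this]
    exact hd
  have ue : IsUniformInducing (LinearMap.range L).subtypeL :=
    isUniformEmbedding_subtype_val.isUniformInducing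
  refine ⟨f.extend (LinearMap.range L).subtypeL, fun s => ?_⟩
  rw [← he, ← hfe]
  exact ContinuousLinearMap.extend_eq f dr ue (e s)

variable {A : Type u} {Z : Type v} {T : Type w} [NonUnitalCStarAlgebra A] [CStarAlgebra Z]
  [NonUnitalCStarAlgebra T] {t : A →ₗ[ℂ] Z →ₗ[ℂ] T}

/-- A closed property of elements of `T`, stable under sums, holds if it holds for `t a z`. -/
theorem induct (hT : IsTensorNU t) {P : T → Prop} (hc : IsClosed {y | P y}) (h0 : P 0)
    (h1 : ∀ a z, P (t a z)) (h2 : ∀ x y, P x → P y → P (x + y)) (y : T) : P y := by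
  refine DenseRange.induction_on hT.dense y hc fun s => ?_
  induction s using TensorProduct.induction_on with
  | zero => rw [map_zero]; exact h0
  | tmul a z => rw [TensorProduct.lift.tmul]; exact h1 a z
  | add x y hx hy => rw [map_add]; exact h2 _ _ hx hy

theorem clm_ext (hT : IsTensorNU t) {F : Type*} [NormedAddCommGroup F] [NormedSpace ℂ F]
    {f g : T →L[ℂ] F} (h : ∀ a z, f (t a z) = g (t a z)) : f = g := by
  ext y
  refine induct hT (P := fun y => f y = g y) (isClosed_eq f.continuous g.continuous) ?_ h ?_ y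
  · rw [map_zero, map_zero]
  · intro x y hx hy
    rw [map_add, map_add, hx, hy]

/-- The norm estimate for left multiplication by `z`. -/
theorem norm_mul_left_le (hT : IsTensorNU t) (z : Z) (s : A ⊗[ℂ] Z) :
    ‖TensorProduct.lift t (LinearMap.lTensor A (LinearMap.mulLeft ℂ z) s)‖ ≤
      ‖z‖ * ‖TensorProduct.lift t s‖ := by
  classical
  let _ := CStarAlgebra.spectralOrder Z
  let _ := CStarAlgebra.spectralOrderedRing Z
  let _ := CStarAlgebra.spectralOrder T
  let _ := CStarAlgebra.spectralOrderedRing T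
  obtain ⟨S, rfl⟩ := TensorProduct.exists_finset s
  have h1 : ∀ w : Z, TensorProduct.lift t (LinearMap.lTensor A (LinearMap.mulLeft ℂ w)
      (∑ i ∈ S, i.1 ⊗ₜ[ℂ] i.2)) = ∑ i ∈ S, t i.1 (w * i.2) := by
    intro w
    rw [map_sum, map_sum]
    exact Finset.sum_congr rfl fun i _ => by
      rw [LinearMap.lTensor_tmul, TensorProduct.lift.tmul, LinearMap.mulLeft_apply]
  have h2 : TensorProduct.lift t (∑ i ∈ S, i.1 ⊗ₜ[ℂ] i.2) = ∑ i ∈ S, t i.1 i.2 := by
    rw [map_sum]
    exact Finset.sum_congr rfl fun i _ => by rw [TensorProduct.lift.tmul]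
  rw [h1, h2]
  have h3 : ∀ w : Z, star (∑ i ∈ S, t i.1 (w * i.2)) * (∑ i ∈ S, t i.1 (w * i.2)) =
      ∑ i ∈ S, ∑ k ∈ S, t (star i.1 * k.1) (star i.2 * (star w * w) * k.2) := by
    intro w
    rw [star_sum, Finset.sum_mul]
    refine Finset.sum_congr rfl fun i _ => ?_
    rw [Finset.mul_sum]
    refine Finset.sum_congr rfl fun k _ => ?_
    rw [hT.star, hT.mul, star_mul]
    congr 1
    simp only [mul_assoc]
  have h5 : ∃ w : Z, algebraMap ℂ Z ((‖z‖ : ℂ) ^ 2) - star z * z = star w * w := by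
    have h6 : 0 ≤ algebraMap ℂ Z ((‖z‖ : ℂ) ^ 2) - star z * z := by
      rw [sub_nonneg]
      have h7 := CStarAlgebra.star_mul_le_algebraMap_norm_sq (a := z)
      have h8 : algebraMap ℂ Z ((‖z‖ : ℂ) ^ 2) = algebraMap ℝ Z (‖z‖ ^ 2) := by
        rw [IsScalarTower.algebraMap_apply ℝ ℂ Z]
        congr 1
        push_cast
        rfl
      rw [h8]
      exact h7
    obtain ⟨w, hw⟩ := CStarAlgebra.nonneg_iff_eq_star_mul_self.1 h6
    exact ⟨w, hw⟩
  obtain ⟨w, hw⟩ := h5
  have h9 : star (∑ i ∈ S, t i.1 (z * i.2)) * (∑ i ∈ S, t i.1 (z * i.2)) +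
      star (∑ i ∈ S, t i.1 (w * i.2)) * (∑ i ∈ S, t i.1 (w * i.2)) =
      ((‖z‖ : ℂ) ^ 2) • (star (∑ i ∈ S, t i.1 i.2) * (∑ i ∈ S, t i.1 i.2)) := by
    have h10 := h3 1
    simp only [one_mul, star_one, mul_one] at h10
    rw [h3 z, h3 w, h10, Finset.smul_sum, ← Finset.sum_add_distrib]
    refine Finset.sum_congr rfl fun i _ => ?_
    rw [Finset.smul_sum, ← Finset.sum_add_distrib]
    refine Finset.sum_congr rfl fun k _ => ?_
    rw [← map_add, ← hw, ← map_smul]
    congr 1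
    rw [mul_sub, sub_mul, add_sub_cancel, Algebra.algebraMap_eq_smul_one]
    simp
  have h11 : star (∑ i ∈ S, t i.1 (z * i.2)) * (∑ i ∈ S, t i.1 (z * i.2)) ≤
      ((‖z‖ : ℂ) ^ 2) • (star (∑ i ∈ S, t i.1 i.2) * (∑ i ∈ S, t i.1 i.2)) := by
    rw [← h9]
    exact le_add_of_nonneg_right (star_mul_self_nonneg _)
  have h12 := CStarAlgebra.norm_le_norm_of_nonneg_of_le (star_mul_self_nonneg _) h11
  rw [norm_smul, CStarRing.norm_star_mul_self, CStarRing.norm_star_mul_self, norm_pow,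
    Complex.norm_real, norm_norm] at h12
  refine le_of_sq_le_sq ?_ (by positivity)
  nlinarith [h12]

/-- The homomorphism `a ↦ a ⊗ 1`. -/
noncomputable def inl (hT : IsTensorNU t) : A →⋆ₙₐ[ℂ] T where
  toFun a := t a 1
  map_smul' c a := by rw [map_smul, LinearMap.smul_apply]; rfl
  map_zero' := by rw [map_zero, LinearMap.zero_apply]
  map_add' a b := by rw [map_add, LinearMap.add_apply]
  map_mul' a b := by rw [hT.mul, one_mul]
  map_star' a := by rw [hT.star, star_one]

end ZMult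

/-- The cross norm estimate. -/
theorem norm_t_le {A : Type u} {Z : Type v} {T : Type w} [NonUnitalCStarAlgebra A]
    [CStarAlgebra Z] [NonUnitalCStarAlgebra T] {t : A →ₗ[ℂ] Z →ₗ[ℂ] T} (hT : IsTensorNU t)
    (a : A) (z : Z) : ‖t a z‖ ≤ ‖a‖ * ‖z‖ := by
  have h1 := ZMult.norm_mul_left_le hT z (a ⊗ₜ[ℂ] (1 : Z))
  rw [LinearMap.lTensor_tmul, TensorProduct.lift.tmul, TensorProduct.lift.tmul,
    LinearMap.mulLeft_apply, mul_one] at h1
  have h2 : ‖t a 1‖ ≤ ‖a‖ := NonUnitalStarAlgHom.norm_apply_le (ZMult.inl hT) a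
  calc ‖t a z‖ ≤ ‖z‖ * ‖t a 1‖ := h1
    _ ≤ ‖z‖ * ‖a‖ := mul_le_mul_of_nonneg_left h2 (norm_nonneg z)
    _ = ‖a‖ * ‖z‖ := mul_comm _ _

end Vale.Agent.P095.NU
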