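import Vale.Agent.P095.NU.RFlipAbs
import Vale.Agent.P095.NU.ZMult

/-!
# P095, T7, row G31: the two homomorphisms `Z → (commutant of A)/(annihilator)` and the assembly
-/

open Filter Topology TopologicalSpace
open scoped BoundedContinuousFunction ComplexOrder

namespace Vale.Agent.P095.NU

open Vale.Agent.P101

universe u v w

namespace RF

theorem mk_eq_diag {ω : Ultrafilter ℕ} {S : Type u} [CStarAlgebra S] (y : ℕ →ᵇ S) (s : S)
    (c : ℕ → ℝ) (hc : Tendsto c ω (𝓝 0)) (h : ∀ n, ‖y n - s‖ ≤ c n) :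
    Ultra.mk ω y = Ultra.diag ω s := by
  rw [Ultra.diag_apply, Ultra.mk_eq_mk_iff]
  exact squeeze_zero (fun n => norm_nonneg _) h hc

section

variable {Z : Type v} [CStarAlgebra Z] {A : Type u} [NonUnitalCStarAlgebra A] {T : Type u}
  [NonUnitalCStarAlgebra T] {t : A →ₗ[ℂ] Z →ₗ[ℂ] T} {ω : Ultrafilter ℕ}

/-- the sequence `e n ⊗ z` -/
noncomputable def seqT (ht : IsTensorNU t) (e : ℕ → A) (he : ∀ n, ‖e n‖ ≤ 1) (z : Z) :
    ℕ →ᵇ Unitization ℂ T :=
  BoundedContinuousFunction.ofNormedAddCommGroup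
    (fun n => ((t (e n) z : T) : Unitization ℂ T))
    continuous_of_discreteTopology ‖z‖ (fun n => by
      rw [Unitization.norm_inr]
      refine (norm_t_le ht _ _).trans ?_
      calc ‖e n‖ * ‖z‖ ≤ 1 * ‖z‖ := mul_le_mul_of_nonneg_right (he n) (norm_nonneg _)
        _ = ‖z‖ := one_mul _)

theorem seqT_mul_diag (ht : IsTensorNU t) (e : ℕ → A) (he : ∀ n, ‖e n‖ ≤ 1)
    (hea : ∀ a, Tendsto (fun n => ‖e n * a - a‖) ω (𝓝 0)) (z w : Z) (a : A) :
    Ultra.mk ω (seqT ht e he z) * Ultra.diag ω ((t a w : T) : Unitization ℂ T) =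
      Ultra.diag ω ((t a (z * w) : T) : Unitization ℂ T) := by
  rw [Ultra.diag_apply ((t a w : T) : Unitization ℂ T), ← map_mul]
  refine mk_eq_diag _ _ (fun n => ‖e n * a - a‖ * ‖z * w‖) ?_ fun n => ?_
  · simpa using (hea a).mul_const ‖z * w‖
  · show ‖((t (e n) z : T) : Unitization ℂ T) * ((t a w : T) : Unitization ℂ T) -
      ((t a (z * w) : T) : Unitization ℂ T)‖ ≤ _
    rw [← Unitization.inr_mul, ← Unitization.inr_sub, Unitization.norm_inr, ht.mul]
    have h1 : t (e n * a) (z * w) - t a (z * w) = t (e n * a - a) (z * w) := by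
      rw [map_sub]; rfl
    rw [h1]
    exact norm_t_le ht _ _

theorem diag_mul_seqT (ht : IsTensorNU t) (e : ℕ → A) (he : ∀ n, ‖e n‖ ≤ 1)
    (hae : ∀ a, Tendsto (fun n => ‖a * e n - a‖) ω (𝓝 0)) (z w : Z) (a : A) :
    Ultra.diag ω ((t a w : T) : Unitization ℂ T) * Ultra.mk ω (seqT ht e he z) =
      Ultra.diag ω ((t a (w * z) : T) : Unitization ℂ T) := by
  rw [Ultra.diag_apply ((t a w : T) : Unitization ℂ T), ← map_mul]
  refine mk_eq_diag _ _ (fun n => ‖a * e n - a‖ * ‖w * z‖) ?_ fun n => ?_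
  · simpa using (hae a).mul_const ‖w * z‖
  · show ‖((t a w : T) : Unitization ℂ T) * ((t (e n) z : T) : Unitization ℂ T) -
      ((t a (w * z) : T) : Unitization ℂ T)‖ ≤ _
    rw [← Unitization.inr_mul, ← Unitization.inr_sub, Unitization.norm_inr, ht.mul]
    have h1 : t (a * e n) (w * z) - t a (w * z) = t (a * e n - a) (w * z) := by
      rw [map_sub]; rfl
    rw [h1]
    exact norm_t_le ht _ _

theorem ι_apply {ι : Unitization ℂ A →⋆ₐ[ℂ] Unitization ℂ T}
    (hι : ∀ a : A, ι (a : Unitization ℂ A) = ((t a 1 : T) : Unitization ℂ T))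
    (m : Unitization ℂ A) :
    ι m = algebraMap ℂ (Unitization ℂ T) m.fst + ((t m.snd 1 : T) : Unitization ℂ T) := by
  conv_lhs => rw [← Unitization.inl_fst_add_inr_snd_eq m]
  rw [map_add, hι, ← Unitization.algebraMap_eq_inl]
  congr 1
  exact AlgHomClass.commutes ι _

theorem diag_mul_ultraMap (ht : IsTensorNU t) {ι : Unitization ℂ A →⋆ₐ[ℂ] Unitization ℂ T}
    (hι : ∀ a : A, ι (a : Unitization ℂ A) = ((t a 1 : T) : Unitization ℂ T))
    (x : Ultra ω (Unitization ℂ A)) (hx : x ∈ centralSeq ω (Unitization ℂ A)) (a : A) (z : Z) :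
    Ultra.diag ω ((t a z : T) : Unitization ℂ T) * ultraMap ω ι x =
      ultraMap ω ι x * Ultra.diag ω ((t a z : T) : Unitization ℂ T) := by
  obtain ⟨y, rfl⟩ := Ultra.mk_surjective x
  rw [ultraMap_mk, Ultra.diag_apply, ← map_mul, ← map_mul, Ultra.mk_eq_mk_iff]
  have h1 := mk_mem_centralSeq_iff.1 hx (a : Unitization ℂ A)
  refine squeeze_zero (fun n => norm_nonneg _) (fun n => ?_)
    (by simpa using h1.mul_const ‖z‖)
  show ‖((t a z : T) : Unitization ℂ T) * ι (y n) - ι (y n) * ((t a z : T) : Unitization ℂ T)‖ ≤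
    ‖(a : Unitization ℂ A) * y n - y n * (a : Unitization ℂ A)‖ * ‖z‖
  have e1 : ∀ m : Unitization ℂ A, (a : Unitization ℂ A) * m - m * (a : Unitization ℂ A) =
      ((a * m.snd - m.snd * a : A) : Unitization ℂ A) := by
    intro m
    have h2 : m = algebraMap ℂ (Unitization ℂ A) m.fst + ((m.snd : A) : Unitization ℂ A) := by
      rw [Unitization.algebraMap_eq_inl]
      exact (Unitization.inl_fst_add_inr_snd_eq m).symm
    conv_lhs => rw [h2]
    rw [mul_add, add_mul, ← Algebra.commutes m.fst, add_sub_add_left_eq_sub,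
      ← Unitization.inr_mul, ← Unitization.inr_mul, ← Unitization.inr_sub]
  have e2 : ∀ m : Unitization ℂ A, ((t a z : T) : Unitization ℂ T) * ι m -
      ι m * ((t a z : T) : Unitization ℂ T) =
      ((t (a * m.snd - m.snd * a) z : T) : Unitization ℂ T) := by
    intro m
    rw [ι_apply hι, mul_add, add_mul, ← Algebra.commutes m.fst, add_sub_add_left_eq_sub,
      ← Unitization.inr_mul, ← Unitization.inr_mul, ← Unitization.inr_sub, ht.mul, ht.mul,
      mul_one, one_mul, map_sub]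
    rfl
  rw [e1, e2, Unitization.norm_inr, Unitization.norm_inr]
  exact norm_t_le ht _ _

theorem act_ι {G : Type*} [Group G] {α : G →* (A ≃⋆ₐ[ℂ] A)}
    {α' : G →* (Unitization ℂ A ≃⋆ₐ[ℂ] Unitization ℂ A)}
    (hα' : ∀ g (a : A), α' g (a : Unitization ℂ A) = ((α g a : A) : Unitization ℂ A))
    (γ : G →* (T ≃⋆ₐ[ℂ] T)) (hγ : ∀ g a z, γ g (t a z) = t (α g a) z)
    (γ' : G →* (Unitization ℂ T ≃⋆ₐ[ℂ] Unitization ℂ T))
    (hγ' : ∀ g (x : T), γ' g (x : Unitization ℂ T) = ((γ g x : T) : Unitization ℂ T))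
    (ι : Unitization ℂ A →⋆ₐ[ℂ] Unitization ℂ T)
    (hι : ∀ a : A, ι (a : Unitization ℂ A) = ((t a 1 : T) : Unitization ℂ T))
    (g : G) (m : Unitization ℂ A) : γ' g (ι m) = ι (α' g m) := by
  rw [ι_apply hι m]
  conv_rhs => rw [← Unitization.inl_fst_add_inr_snd_eq m, ← Unitization.algebraMap_eq_inl]
  rw [map_add, map_add, map_add, hα', hγ', hγ, hι]
  congr 1
  rw [show α' g (algebraMap ℂ (Unitization ℂ A) m.fst) = algebraMap ℂ (Unitization ℂ A) m.fst from
    AlgHomClass.commutes (α' g) _]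
  rw [show ι (algebraMap ℂ (Unitization ℂ A) m.fst) = algebraMap ℂ (Unitization ℂ T) m.fst from
    AlgHomClass.commutes ι _]
  exact AlgHomClass.commutes (γ' g) _

theorem isHomMod_seqT (ht : IsTensorNU t) (e : ℕ → A) (he : ∀ n, ‖e n‖ ≤ 1)
    (hea : ∀ a, Tendsto (fun n => ‖e n * a - a‖) ω (𝓝 0))
    (hae : ∀ a, Tendsto (fun n => ‖a * e n - a‖) ω (𝓝 0))
    {ι : Unitization ℂ A →⋆ₐ[ℂ] Unitization ℂ T}
    (hι : ∀ a : A, ι (a : Unitization ℂ A) = ((t a 1 : T) : Unitization ℂ T)) :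
    IsHomMod (Set.range fun a : A => Ultra.diag ω (ι (a : Unitization ℂ A)))
      (fun z : Z => Ultra.mk ω (seqT ht e he z)) := by
  have k1 := seqT_mul_diag (ω := ω) ht e he hea
  have k2 := diag_mul_seqT (ω := ω) ht e he hae
  refine ⟨?_, ?_, ?_, ?_, ?_, ?_⟩
  · rintro z _ ⟨a, rfl⟩
    show Ultra.mk ω (seqT ht e he z) * Ultra.diag ω (ι (a : Unitization ℂ A)) =
      Ultra.diag ω (ι (a : Unitization ℂ A)) * Ultra.mk ω (seqT ht e he z)
    rw [hι, k1, k2, mul_one, one_mul]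
  · rintro z w _ ⟨a, rfl⟩
    show Ultra.mk ω (seqT ht e he (z + w)) * Ultra.diag ω (ι (a : Unitization ℂ A)) =
      (Ultra.mk ω (seqT ht e he z) + Ultra.mk ω (seqT ht e he w)) *
        Ultra.diag ω (ι (a : Unitization ℂ A))
    rw [add_mul, hι, k1, k1, k1, mul_one, mul_one, mul_one, map_add, Unitization.inr_add, map_add]
  · rintro c z _ ⟨a, rfl⟩
    show Ultra.mk ω (seqT ht e he (c • z)) * Ultra.diag ω (ι (a : Unitization ℂ A)) =
      (c • Ultra.mk ω (seqT ht e he z)) * Ultra.diag ω (ι (a : Unitization ℂ A))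
    rw [smul_mul_assoc, hι, k1, k1, mul_one, mul_one, map_smul, Unitization.inr_smul, map_smul]
  · rintro z w _ ⟨a, rfl⟩
    show Ultra.mk ω (seqT ht e he (z * w)) * Ultra.diag ω (ι (a : Unitization ℂ A)) =
      Ultra.mk ω (seqT ht e he z) * Ultra.mk ω (seqT ht e he w) *
        Ultra.diag ω (ι (a : Unitization ℂ A))
    rw [mul_assoc, hι, k1, k1, k1, mul_one, mul_one]
  · rintro _ ⟨a, rfl⟩
    show Ultra.mk ω (seqT ht e he 1) * Ultra.diag ω (ι (a : Unitization ℂ A)) =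
      Ultra.diag ω (ι (a : Unitization ℂ A))
    rw [hι, k1, mul_one]
  · rintro z _ ⟨a, rfl⟩
    show Ultra.mk ω (seqT ht e he (star z)) * Ultra.diag ω (ι (a : Unitization ℂ A)) =
      star (Ultra.mk ω (seqT ht e he z)) * Ultra.diag ω (ι (a : Unitization ℂ A))
    have h1 : star (Ultra.mk ω (seqT ht e he z)) * Ultra.diag ω (ι (a : Unitization ℂ A)) =
        star (Ultra.diag ω (ι ((star a : A) : Unitization ℂ A)) *
          Ultra.mk ω (seqT ht e he z)) := by
      rw [star_mul, Unitization.inr_star, map_star, map_star, star_star]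
    rw [h1, hι, hι, k1, k2, mul_one, one_mul, ← map_star, ← Unitization.inr_star, ht.star,
      star_star]

theorem flip_of {G : Type*} [Group G] {α : G →* (A ≃⋆ₐ[ℂ] A)}
    {α' : G →* (Unitization ℂ A ≃⋆ₐ[ℂ] Unitization ℂ A)} {B : Type u} [CStarAlgebra B]
    {q : centralSeq ω (Unitization ℂ A) →⋆ₐ[ℂ] B} {β : G →* (B ≃⋆ₐ[ℂ] B)}
    (hflip : HasExpHalfFlip.{v, u} Z) (ht : IsTensorNU t)
    (hα' : ∀ g (a : A), α' g (a : Unitization ℂ A) = ((α g a : A) : Unitization ℂ A))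
    (R : RelSys ω (Set.range (Unitization.inr : A → Unitization ℂ A)) α' q β)
    (ρ : Z →⋆ₐ[ℂ] B) (hρ : ∀ g z, β g (ρ z) = ρ z)
    (γ : G →* (T ≃⋆ₐ[ℂ] T)) (hγ : ∀ g a z, γ g (t a z) = t (α g a) z)
    (γ' : G →* (Unitization ℂ T ≃⋆ₐ[ℂ] Unitization ℂ T))
    (hγ' : ∀ g (x : T), γ' g (x : Unitization ℂ T) = ((γ g x : T) : Unitization ℂ T))
    (ι : Unitization ℂ A →⋆ₐ[ℂ] Unitization ℂ T)
    (hι : ∀ a : A, ι (a : Unitization ℂ A) = ((t a 1 : T) : Unitization ℂ T))
    (e : ℕ → A) (he : ∀ n, ‖e n‖ ≤ 1)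
    (hea : ∀ a, Tendsto (fun n => ‖e n * a - a‖) ω (𝓝 0))
    (hae : ∀ a, Tendsto (fun n => ‖a * e n - a‖) ω (𝓝 0))
    (heα : ∀ g, Tendsto (fun n => ‖α g (e n) - e n‖) ω (𝓝 0))
    (hP : ∀ H : Ultra ω (Unitization ℂ T),
      (∀ a : A, Commute H (Ultra.diag ω (ι (a : Unitization ℂ A)))) →
      (∀ g, ∀ a : A, ultraAct ω γ' g H * Ultra.diag ω (ι (a : Unitization ℂ A)) =
        H * Ultra.diag ω (ι (a : Unitization ℂ A))) →
      ∃ P : Ultra ω (Unitization ℂ T), IsSelfAdjoint P ∧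
        (∀ a : A, P * Ultra.diag ω (ι (a : Unitization ℂ A)) =
          Ultra.diag ω (ι (a : Unitization ℂ A))) ∧
        (∀ g, ultraAct ω γ' g P = P) ∧ ∀ g, P * ultraAct ω γ' g H = P * H)
    (Fz : Finset Z) (Fa : Finset A) (ε : ℝ) (hε : 0 < ε) :
    ∃ V ∈ unitary (Ultra ω (Unitization ℂ T)),
      (∀ a : A, Commute V (Ultra.diag ω (ι (a : Unitization ℂ A)))) ∧
      (∀ g, ultraAct ω γ' g V = V) ∧
      ∀ z ∈ Fz, ∀ a ∈ Fa, ∀ x : centralSeq ω (Unitization ℂ A), q x = ρ z →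
        ‖star V * Ultra.diag ω ((t a z : T) : Unitization ℂ T) * V -
          Ultra.diag ω (ι (a : Unitization ℂ A)) * ultraMap ω ι (x : Ultra ω _)‖ < ε := by
  have hmd : ∀ m : Unitization ℂ A, ultraMap ω ι (Ultra.diag ω m) = Ultra.diag ω (ι m) := by
    intro m
    rw [Ultra.diag_apply, Ultra.diag_apply, ultraMap_mk]
    rfl
  have hlift : ∀ z : Z, ∃ x : centralSeq ω (Unitization ℂ A), q x = ρ z := fun z =>
    let ⟨x, hx, _⟩ := R.lift (ρ z)
    ⟨x, hx⟩
  choose X hX using hlift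
  -- equality modulo the annihilator
  have hq : ∀ x y : centralSeq ω (Unitization ℂ A), q x = q y → ∀ a : A,
      ultraMap ω ι (x : Ultra ω _) * Ultra.diag ω (ι (a : Unitization ℂ A)) =
        ultraMap ω ι (y : Ultra ω _) * Ultra.diag ω (ι (a : Unitization ℂ A)) := by
    intro x y hxy a
    have h1 : q (x - y) = 0 := by rw [map_sub, hxy, sub_self]
    have h2 := (R.ker _).1 h1 _ ⟨a, rfl⟩
    have h3 : ((x : Ultra ω (Unitization ℂ A)) - (y : Ultra ω (Unitization ℂ A))) *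
        Ultra.diag ω (a : Unitization ℂ A) = 0 := h2
    have h4 := congrArg (ultraMap ω ι) h3
    rw [map_mul, map_sub, map_zero, hmd, sub_mul] at h4
    exact sub_eq_zero.1 h4
  have hcomm : ∀ (x : centralSeq ω (Unitization ℂ A)) (a : A),
      Commute (ultraMap ω ι (x : Ultra ω _)) (Ultra.diag ω (ι (a : Unitization ℂ A))) := by
    intro x a
    rw [← hmd]
    exact ((mem_centralSeq_iff.1 x.2 (a : Unitization ℂ A)).map (ultraMap ω ι)).symm
  have k1 := seqT_mul_diag (ω := ω) ht e he hea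
  have k2 := diag_mul_seqT (ω := ω) ht e he hae
  let 𝒟 : Set (Ultra ω (Unitization ℂ T)) :=
    Set.range fun a : A => Ultra.diag ω (ι (a : Unitization ℂ A))
  let Λ : Z → Ultra ω (Unitization ℂ T) := fun z => Ultra.mk ω (seqT ht e he z)
  let Θ : Z → Ultra ω (Unitization ℂ T) := fun z => ultraMap ω ι (X z : Ultra ω _)
  have hΛ : IsHomMod 𝒟 Λ := isHomMod_seqT ht e he hea hae hι
  have hΘ : IsHomMod 𝒟 Θ := by
    refine ⟨?_, ?_, ?_, ?_, ?_, ?_⟩
    · rintro z _ ⟨a, rfl⟩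
      exact hcomm _ a
    · rintro z w _ ⟨a, rfl⟩
      have h1 := hq (X (z + w)) (X z + X w) (by rw [map_add, hX, hX, hX, map_add]) a
      have h2 : ultraMap ω ι ((X z + X w : centralSeq ω (Unitization ℂ A)) : Ultra ω _) =
          Θ z + Θ w := map_add _ _ _
      rw [h2] at h1
      exact h1
    · rintro c z _ ⟨a, rfl⟩
      have h1 := hq (X (c • z)) (c • X z) (by rw [map_smul, hX, hX, map_smul]) a
      have h2 : ultraMap ω ι ((c • X z : centralSeq ω (Unitization ℂ A)) : Ultra ω _) =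
          c • Θ z := map_smul _ _ _
      rw [h2] at h1
      exact h1
    · rintro z w _ ⟨a, rfl⟩
      have h1 := hq (X (z * w)) (X z * X w) (by rw [map_mul, hX, hX, hX, map_mul]) a
      have h2 : ultraMap ω ι ((X z * X w : centralSeq ω (Unitization ℂ A)) : Ultra ω _) =
          Θ z * Θ w := map_mul _ _ _
      rw [h2] at h1
      exact h1
    · rintro _ ⟨a, rfl⟩
      have h1 := hq (X 1) 1 (by rw [map_one, hX, map_one]) a
      have h2 : ultraMap ω ι ((1 : centralSeq ω (Unitization ℂ A)) : Ultra ω _) = 1 :=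
        map_one _
      rw [h2, one_mul] at h1
      exact h1
    · rintro z _ ⟨a, rfl⟩
      have h1 := hq (X (star z)) (star (X z)) (by rw [map_star, hX, hX, map_star]) a
      have h2 : ultraMap ω ι ((star (X z) : centralSeq ω (Unitization ℂ A)) : Ultra ω _) =
          star (Θ z) := map_star _ _
      rw [h2] at h1
      exact h1
  have hst : ∀ d ∈ 𝒟, star d ∈ 𝒟 := by
    rintro _ ⟨a, rfl⟩
    refine ⟨star a, ?_⟩
    show Ultra.diag ω (ι ((star a : A) : Unitization ℂ A)) = _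
    rw [Unitization.inr_star, map_star, map_star]
  have hact : ∀ g, ∀ d ∈ 𝒟, ultraAct ω γ' g d ∈ 𝒟 := by
    rintro g _ ⟨a, rfl⟩
    refine ⟨α g a, ?_⟩
    show Ultra.diag ω (ι ((α g a : A) : Unitization ℂ A)) = ultraAct ω γ' g (Ultra.diag ω _)
    rw [ultraAct_diag, act_ι hα' γ hγ γ' hγ' ι hι, hα']
  have hc : ∀ z w, ∀ d ∈ 𝒟, Λ z * Θ w * d = Θ w * Λ z * d := by
    rintro z w _ ⟨a, rfl⟩
    show Ultra.mk ω (seqT ht e he z) * ultraMap ω ι (X w : Ultra ω _) *
      Ultra.diag ω (ι (a : Unitization ℂ A)) = ultraMap ω ι (X w : Ultra ω _) *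
      Ultra.mk ω (seqT ht e he z) * Ultra.diag ω (ι (a : Unitization ℂ A))
    rw [mul_assoc, (hcomm (X w) a).eq, ← mul_assoc, mul_assoc (ultraMap ω ι (X w : Ultra ω _)),
      hι, k1, mul_one]
    exact diag_mul_ultraMap ht hι _ (X w).2 a z
  have hΛf : ∀ g z, ultraAct ω γ' g (Λ z) = Λ z := by
    intro g z
    show ultraAct ω γ' g (Ultra.mk ω (seqT ht e he z)) = Ultra.mk ω (seqT ht e he z)
    rw [ultraAct_mk, Ultra.mk_eq_mk_iff]
    refine squeeze_zero (fun n => norm_nonneg _) (fun n => ?_)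
      (by simpa using (heα g).mul_const ‖z‖)
    show ‖γ' g ((t (e n) z : T) : Unitization ℂ T) - ((t (e n) z : T) : Unitization ℂ T)‖ ≤
      ‖α g (e n) - e n‖ * ‖z‖
    rw [hγ', hγ, ← Unitization.inr_sub, Unitization.norm_inr]
    have h1 : t (α g (e n)) z - t (e n) z = t (α g (e n) - e n) z := by
      rw [map_sub]; rfl
    rw [h1]
    exact norm_t_le ht _ _
  have hΘf : ∀ g z, ∀ d ∈ 𝒟, ultraAct ω γ' g (Θ z) * d = Θ z * d := by
    rintro g z _ ⟨a, rfl⟩
    have h1 : ultraAct ω γ' g (Θ z) =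
        ultraMap ω ι ((centralAct ω α' g (X z) : centralSeq ω (Unitization ℂ A)) : Ultra ω _) := by
      show ultraAct ω γ' g (ultraMap ω ι (X z : Ultra ω _)) =
        ultraMap ω ι (ultraAct ω α' g (X z : Ultra ω _))
      obtain ⟨y, hy⟩ := Ultra.mk_surjective (X z : Ultra ω (Unitization ℂ A))
      rw [← hy, ultraMap_mk, ultraAct_mk, ultraAct_mk, ultraMap_mk]
      congr 1
      ext n : 1
      exact act_ι hα' γ hγ γ' hγ' ι hι g (y n)
    rw [h1]
    exact hq _ _ (by rw [← R.act, hX, hρ]) a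
  set K : ℝ := ∑ a ∈ Fa, ‖a‖ with hK
  have hK0 : 0 ≤ K := Finset.sum_nonneg fun _ _ => norm_nonneg _
  obtain ⟨V₀, hV₀, hV₀c, hV₀f, hV₀z⟩ := abs_flip hst (ultraAct ω γ') hact hflip hΛ hΘ hc
    (fun g z d _ => by rw [hΛf]) hΘf (fun H h1 h2 => by
      obtain ⟨P, p1, p2, p3, p4⟩ := hP H (fun a => h1 _ ⟨a, rfl⟩) (fun g a => h2 g _ ⟨a, rfl⟩)
      exact ⟨P, p1, by rintro _ ⟨a, rfl⟩; exact p2 a, p3, p4⟩) Fz (ε / (K + 1)) (by positivity)
  refine ⟨star V₀, Unitary.star_mem hV₀, fun a => ?_, fun g => ?_, ?_⟩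
  · have h1 := (hV₀c _ ⟨star a, rfl⟩).star_star
    have h2 : star (Ultra.diag ω (ι ((star a : A) : Unitization ℂ A))) =
        Ultra.diag ω (ι (a : Unitization ℂ A)) := by
      rw [Unitization.inr_star, map_star, map_star, star_star]
    have h3 : Commute (star V₀) (star (Ultra.diag ω (ι ((star a : A) : Unitization ℂ A)))) := h1
    rwa [h2] at h3
  · rw [map_star, hV₀f]
  · intro z hz a ha x hx
    have hVd : Commute V₀ (Ultra.diag ω (ι (a : Unitization ℂ A))) := hV₀c _ ⟨a, rfl⟩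
    have hVd' : Commute (star V₀) (Ultra.diag ω (ι (a : Unitization ℂ A))) := by
      have h1 := (hV₀c _ ⟨star a, rfl⟩).star_star
      have h2 : star (Ultra.diag ω (ι ((star a : A) : Unitization ℂ A))) =
          Ultra.diag ω (ι (a : Unitization ℂ A)) := by
        rw [Unitization.inr_star, map_star, map_star, star_star]
      have h3 : Commute (star V₀) (star (Ultra.diag ω (ι ((star a : A) : Unitization ℂ A)))) := h1
      rwa [h2] at h3
    have h4 : star (star V₀) * Ultra.diag ω ((t a z : T) : Unitization ℂ T) * star V₀ -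
        Ultra.diag ω (ι (a : Unitization ℂ A)) * ultraMap ω ι (x : Ultra ω _) =
        (V₀ * Λ z * star V₀ - Θ z) * Ultra.diag ω (ι (a : Unitization ℂ A)) := by
      have h5 : Ultra.diag ω ((t a z : T) : Unitization ℂ T) =
          Λ z * Ultra.diag ω (ι (a : Unitization ℂ A)) := by
        show _ = Ultra.mk ω (seqT ht e he z) * _
        rw [hι, k1, mul_one]
      have h6 : Ultra.diag ω (ι (a : Unitization ℂ A)) * ultraMap ω ι (x : Ultra ω _) =
          Θ z * Ultra.diag ω (ι (a : Unitization ℂ A)) := by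
        rw [← (hcomm x a).eq]
        exact hq x (X z) (by rw [hx, hX]) a
      rw [star_star, h5, h6, sub_mul]
      congr 1
      rw [mul_assoc, mul_assoc, ← hVd'.eq, ← mul_assoc, ← mul_assoc]
    rw [h4]
    have h7 := hV₀z z hz _ ⟨a, rfl⟩
    refine h7.trans_lt ?_
    have h8 : ‖Ultra.diag ω (ι (a : Unitization ℂ A))‖ ≤ ‖a‖ := by
      rw [Ultra.norm_diag]
      refine (NonUnitalStarAlgHom.norm_apply_le ι _).trans ?_
      rw [Unitization.norm_inr]
    have h9 : ‖a‖ ≤ K := Finset.single_le_sum (f := fun a : A => ‖a‖)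
      (fun _ _ => norm_nonneg _) ha
    have h10 : ε / (K + 1) * ‖Ultra.diag ω (ι (a : Unitization ℂ A))‖ ≤ ε / (K + 1) * K := by
      apply mul_le_mul_of_nonneg_left (h8.trans h9) (by positivity)
    refine h10.trans_lt ?_
    rw [div_mul_eq_mul_div, div_lt_iff₀ (by positivity)]
    nlinarith

end

end RF

end Vale.Agent.P095.NU
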