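import Vale.Agent.P095.NU.Defs

/-!
# P095 [G14]: full sums relative to the ideal
-/

open Filter Topology TopologicalSpace
open scoped BoundedContinuousFunction ComplexOrder

namespace Vale.Agent.P095.NU

open Vale.Agent.P101

universe u v w

namespace RFull

variable {M : Type u} [CStarAlgebra M]

attribute [local instance] CStarAlgebra.spectralOrder CStarAlgebra.spectralOrderedRing

/-- the unit from a positive element: `h = w w`, `h = p r'`, and `‖(1 - h) a‖ ≤ √t`. -/
theorem unit_of (a : M) {t : ℝ} (ht : 0 < t) : ∃ w r : M, IsSelfAdjoint w ∧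
    w * w = a * (star a * r) ∧ ‖w * w‖ ≤ 1 ∧ ‖w * w * a - a‖ ≤ Real.sqrt t := by
  set p : M := a * star a with hp'
  have hps : IsSelfAdjoint p := IsSelfAdjoint.mul_star_self a
  have hp0 : 0 ≤ p := mul_star_self_nonneg a
  have hspec : ∀ s ∈ spectrum ℝ p, 0 ≤ s := fun s hs => spectrum_nonneg_of_nonneg hp0 hs
  have hne : ∀ s ∈ spectrum ℝ p, s + t ≠ 0 := fun s hs => by
    have := hspec s hs
    positivity
  have hc1 : ContinuousOn (fun s : ℝ => s / (s + t)) (spectrum ℝ p) :=
    ContinuousOn.div continuousOn_id (continuousOn_id.add continuousOn_const) hne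
  have hc2 : ContinuousOn (fun s : ℝ => Real.sqrt (s / (s + t))) (spectrum ℝ p) := hc1.sqrt
  have hc3 : ContinuousOn (fun s : ℝ => 1 / (s + t)) (spectrum ℝ p) :=
    ContinuousOn.div continuousOn_const (continuousOn_id.add continuousOn_const) hne
  have hc4 : ContinuousOn (fun s : ℝ => t / (s + t)) (spectrum ℝ p) :=
    ContinuousOn.div continuousOn_const (continuousOn_id.add continuousOn_const) hne
  have hww : cfc (fun s : ℝ => Real.sqrt (s / (s + t))) p *
      cfc (fun s : ℝ => Real.sqrt (s / (s + t))) p = cfc (fun s : ℝ => s / (s + t)) p := by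
    rw [← cfc_mul _ _ p hc2 hc2]
    refine cfc_congr fun s hs => ?_
    have h1 := hspec s hs
    exact Real.mul_self_sqrt (by positivity)
  refine ⟨cfc (fun s : ℝ => Real.sqrt (s / (s + t))) p, cfc (fun s : ℝ => 1 / (s + t)) p,
    cfc_predicate _ _, ?_, ?_, ?_⟩
  · rw [hww, ← mul_assoc, ← hp']
    have h2 : (fun s : ℝ => s / (s + t)) = fun s => s * (1 / (s + t)) := by
      funext s
      ring
    rw [h2, cfc_mul (fun s : ℝ => s) _ p continuousOn_id hc3, cfc_id' ℝ p]
  · rw [hww]
    refine norm_cfc_le zero_le_one fun s hs => ?_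
    have h1 := hspec s hs
    rw [Real.norm_eq_abs, abs_of_nonneg (by positivity), div_le_one (by positivity)]
    linarith
  · rw [hww]
    have h3 : 1 - cfc (fun s : ℝ => s / (s + t)) p = cfc (fun s : ℝ => t / (s + t)) p := by
      have h4 : cfc (fun _ : ℝ => (1 : ℝ)) p = 1 := cfc_const_one ℝ p
      rw [← h4, ← cfc_sub _ _ p continuousOn_const hc1]
      refine cfc_congr fun s hs => ?_
      have := hne s hs
      field_simp
      ring
    have h5 : cfc (fun s : ℝ => s / (s + t)) p * a - a =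
        -(cfc (fun s : ℝ => t / (s + t)) p * a) := by
      rw [← h3, sub_mul, one_mul, neg_sub]
    rw [h5, norm_neg]
    have hsa : IsSelfAdjoint (cfc (fun s : ℝ => t / (s + t)) p) := cfc_predicate _ _
    have h6 : ‖cfc (fun s : ℝ => t / (s + t)) p * a‖ * ‖cfc (fun s : ℝ => t / (s + t)) p * a‖
        ≤ t := by
      rw [← CStarRing.norm_self_mul_star, star_mul, hsa.star_eq]
      have h7 : cfc (fun s : ℝ => t / (s + t)) p * a * (star a *
          cfc (fun s : ℝ => t / (s + t)) p) =
          cfc (fun s : ℝ => t / (s + t) * s * (t / (s + t))) p := by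
        rw [cfc_mul (fun s : ℝ => t / (s + t) * s) _ p (hc4.mul continuousOn_id) hc4,
          cfc_mul _ (fun s : ℝ => s) p hc4 continuousOn_id, cfc_id' ℝ p]
        rw [hp']
        simp only [mul_assoc]
      rw [h7]
      refine norm_cfc_le ht.le fun s hs => ?_
      have h1 := hspec s hs
      rw [Real.norm_eq_abs, abs_of_nonneg (by positivity)]
      have h8 : t / (s + t) * s * (t / (s + t)) = t * (t * s) / (s + t) ^ 2 := by
        field_simp
      rw [h8, div_le_iff₀ (by positivity)]
      nlinarith [mul_nonneg ht.le h1, mul_nonneg ht.le (sq_nonneg s),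
        mul_nonneg ht.le (sq_nonneg t)]
    exact Real.le_sqrt_of_sq_le (by rw [pow_two]; exact h6)

/-- compression by `e = (b + δ)^(-1/2)` -/
theorem inv_of {b : M} (hb : 0 ≤ b) {δ : ℝ} (hδ : 0 < δ) : ∃ e : M, IsSelfAdjoint e ∧
    e * b * e = 1 - (δ : ℂ) • (e * e) ∧ e * (b + (δ : ℂ) • (1 : M)) * e = 1 := by
  have hbs : IsSelfAdjoint b := hb.isSelfAdjoint
  have hspec : ∀ s ∈ spectrum ℝ b, 0 ≤ s := fun s hs => spectrum_nonneg_of_nonneg hb hs
  have hne : ∀ s ∈ spectrum ℝ b, s + δ ≠ 0 := fun s hs => by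
    have := hspec s hs
    positivity
  have hc3 : ContinuousOn (fun s : ℝ => 1 / Real.sqrt (s + δ)) (spectrum ℝ b) :=
    ContinuousOn.div continuousOn_const ((continuousOn_id.add continuousOn_const).sqrt)
      (fun s hs => by
        have := hspec s hs
        have h0 : 0 < Real.sqrt (s + δ) := Real.sqrt_pos.2 (by linarith)
        exact h0.ne')
  have hsa : IsSelfAdjoint (cfc (fun s : ℝ => 1 / Real.sqrt (s + δ)) b) := cfc_predicate _ _
  have h1 : cfc (fun s : ℝ => 1 / Real.sqrt (s + δ)) b * (b + (δ : ℂ) • (1 : M)) *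
      cfc (fun s : ℝ => 1 / Real.sqrt (s + δ)) b = 1 := by
    have h2 : b + (δ : ℂ) • (1 : M) = cfc (fun s : ℝ => s + δ) b := by
      rw [cfc_add_const δ (fun s : ℝ => s) b continuousOn_id, cfc_id' ℝ b]
      congr 1
      rw [Algebra.algebraMap_eq_smul_one]
      exact (Complex.coe_smul δ (1 : M))
    rw [h2, ← cfc_mul _ _ b hc3 (by fun_prop), ← cfc_mul _ _ b (by fun_prop) hc3]
    rw [← cfc_const_one ℝ b]
    refine cfc_congr fun s hs => ?_
    have h3 := hspec s hs
    have h4 : 0 < Real.sqrt (s + δ) := by positivity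
    have h5 := Real.mul_self_sqrt (show 0 ≤ s + δ by positivity)
    have h6 : 1 / Real.sqrt (s + δ) * (s + δ) * (1 / Real.sqrt (s + δ)) = 1 := by
      field_simp
      nlinarith [h5]
    exact h6
  refine ⟨cfc (fun s : ℝ => 1 / Real.sqrt (s + δ)) b, hsa, ?_, h1⟩
  rw [mul_add, add_mul, mul_smul_comm, smul_mul_assoc, mul_one] at h1
  rw [← h1, add_sub_cancel_right]

end RFull

section Sys

variable {G : Type*} [Group G] [Countable G] {ω : Ultrafilter ℕ} {M : Type u} [CStarAlgebra M]
  [SeparableSpace M] {A : Set M} {α : G →* (M ≃⋆ₐ[ℂ] M)} {B : Type u} [CStarAlgebra B]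
  {q : centralSeq ω M →⋆ₐ[ℂ] B} {β : G →* (B ≃⋆ₐ[ℂ] B)} {κ : ℕ → ℕ → M}

attribute [local instance] CStarAlgebra.spectralOrder CStarAlgebra.spectralOrderedRing in
omit [SeparableSpace M] in
theorem exists_full_sum_rel (hA : IsCore A) (x : M) (hx : x ∈ A) (hp : IsPos x) (hx0 : x ≠ 0)
    (a : M) (ha : a ∈ A) (ε : ℝ) (hε : 0 < ε) :
    ∃ (n : ℕ) (dd : Fin n → M), 0 < n ∧ ‖∑ i, star (dd i) * (x * x) * dd i‖ ≤ 2 ∧
      ‖(∑ i, star (dd i) * (x * x) * dd i) * a - a‖ ≤ ε := by
  have hxs : IsSelfAdjoint x := by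
    obtain ⟨y, rfl⟩ := hp
    exact IsSelfAdjoint.star_mul_self y
  have hxx0 : x * x ≠ 0 := by
    intro h0
    have h4 : ‖star x * x‖ = ‖x‖ * ‖x‖ := CStarRing.norm_star_mul_self
    rw [hxs.star_eq, h0, norm_zero] at h4
    exact hx0 (norm_eq_zero.1 (mul_self_eq_zero.1 h4.symm))
  set t : ℝ := (ε / 2) ^ 2 with ht
  have ht0 : 0 < t := by positivity
  have hst : Real.sqrt t = ε / 2 := Real.sqrt_sq (by positivity)
  set δ : ℝ := min 1 (ε / (2 * (‖a‖ + 1))) with hδ
  have hδ0 : 0 < δ := lt_min one_pos (by positivity)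
  have hδ1 : δ ≤ 1 := min_le_left _ _
  have hδa : δ * ‖a‖ ≤ ε / 2 := by
    have h1 : δ ≤ ε / (2 * (‖a‖ + 1)) := min_le_right _ _
    calc δ * ‖a‖ ≤ ε / (2 * (‖a‖ + 1)) * (‖a‖ + 1) := by
          refine mul_le_mul h1 (by linarith) (norm_nonneg _) (by positivity)
      _ = ε / 2 := by
          field_simp
  obtain ⟨w, r0, hw, hww, hw1, hwa⟩ := RFull.unit_of a ht0
  rw [hst] at hwa
  have hhA : w * w ∈ A := by
    rw [hww]
    exact hA.right _ _ ha
  obtain ⟨n, u, v, huv⟩ := hA.simple (x * x) (hA.left _ _ hx) hxx0 (w * w) hhA δ hδ0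
  -- the dominating positive element
  set b : M := ∑ i, (1 / 2 : ℂ) • (u i * (x * x) * star (u i) + star (v i) * (x * x) * v i)
    with hb
  have hnn : ∀ y : M, 0 ≤ star (x * y) * (x * y) := fun y => star_mul_self_nonneg _
  have hexp : ∀ y z : M, star (x * y) * (x * z) = star y * (x * x) * z := fun y z => by
    rw [star_mul, hxs.star_eq]
    simp only [mul_assoc]
  have half_nonneg : ∀ y : M, 0 ≤ y → 0 ≤ (1 / 2 : ℂ) • y := fun y hy => by
    have h1 : (1 / 2 : ℂ) • y = (1 / 2 : ℝ) • y := by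
      rw [← Complex.coe_smul]
      norm_num
    rw [h1]
    exact smul_nonneg (by norm_num) hy
  have hb0 : 0 ≤ b := by
    refine Finset.sum_nonneg fun i _ => half_nonneg _ (add_nonneg ?_ ?_)
    · have h1 := hnn (star (u i))
      rwa [hexp, star_star] at h1
    · have h1 := hnn (v i)
      rwa [hexp] at h1
  set z : M := ∑ i, u i * (x * x) * v i with hz
  have hzb : 0 ≤ b - (1 / 2 : ℂ) • (z + star z) := by
    have h1 : b - (1 / 2 : ℂ) • (z + star z) = ∑ i, (1 / 2 : ℂ) •
        (star (x * (star (u i) - v i)) * (x * (star (u i) - v i))) := by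
      rw [hb, hz, star_sum, ← Finset.sum_add_distrib, Finset.smul_sum, ← Finset.sum_sub_distrib]
      refine Finset.sum_congr rfl fun i _ => ?_
      rw [← smul_sub, hexp, star_sub, star_star, star_mul, star_mul, star_mul, hxs.star_eq]
      congr 1
      noncomm_ring
    rw [h1]
    exact Finset.sum_nonneg fun i _ => half_nonneg _ (star_mul_self_nonneg _)
  have hwws : IsSelfAdjoint (w * w) := by
    rw [isSelfAdjoint_iff, star_mul, hw.star_eq]
  have hle : 0 ≤ b + (δ : ℂ) • (1 : M) - w * w := by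
    set d : M := w * w - (1 / 2 : ℂ) • (z + star z) with hd
    have hds : IsSelfAdjoint d := by
      rw [isSelfAdjoint_iff, hd, star_sub, star_mul, hw.star_eq, star_smul, star_add, star_star,
        add_comm (star z) z]
      norm_num
    have hdn : ‖d‖ ≤ δ := by
      have h1 : d = (1 / 2 : ℂ) • ((w * w - z) + star (w * w - z)) := by
        rw [hd, star_sub, hwws.star_eq]
        have h2 : w * w = (1 / 2 : ℂ) • (w * w + w * w) := by
          rw [← two_smul ℂ (w * w), smul_smul]
          norm_num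
        conv_lhs => rw [h2]
        rw [← smul_sub]
        congr 1
        abel
      rw [h1, norm_smul]
      have h3 : ‖(1 / 2 : ℂ)‖ = 1 / 2 := by norm_num
      rw [h3]
      have h4 := norm_add_le (w * w - z) (star (w * w - z))
      rw [norm_star] at h4
      linarith [huv]
    have h5 : d ≤ algebraMap ℝ M ‖d‖ := hds.le_algebraMap_norm_self
    have h6 : algebraMap ℝ M ‖d‖ ≤ algebraMap ℝ M δ := algebraMap_mono M hdn
    have h7 : algebraMap ℝ M δ = (δ : ℂ) • (1 : M) := by
      rw [Algebra.algebraMap_eq_smul_one, Complex.coe_smul]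
    have h8 : 0 ≤ (δ : ℂ) • (1 : M) - d := by
      rw [← h7]
      exact sub_nonneg.2 (h5.trans h6)
    have h9 : b + (δ : ℂ) • (1 : M) - w * w =
        (b - (1 / 2 : ℂ) • (z + star z)) + ((δ : ℂ) • (1 : M) - d) := by
      rw [hd]
      abel
    rw [h9]
    exact add_nonneg hzb h8
  obtain ⟨e, he, he1, he2⟩ := RFull.inv_of hb0 hδ0
  have hwe : ‖w * e‖ ≤ 1 := by
    have h1 : ‖w * e‖ * ‖w * e‖ = ‖e * (w * w) * e‖ := by
      rw [← CStarRing.norm_star_mul_self, star_mul, hw.star_eq, he.star_eq]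
      simp only [mul_assoc]
    have h2 : 0 ≤ e * (w * w) * e := by
      have := star_mul_self_nonneg (w * e)
      rw [star_mul, hw.star_eq, he.star_eq] at this
      simpa only [mul_assoc] using this
    have h3 : e * (w * w) * e ≤ 1 := by
      have h4 := star_left_conjugate_nonneg hle e
      rw [he.star_eq, mul_sub, sub_mul, he2] at h4
      exact sub_nonneg.1 h4
    have h5 : ‖e * (w * w) * e‖ ≤ 1 := CStarAlgebra.norm_le_one_iff_of_nonneg _ h2 |>.2 h3
    rw [← h1] at h5
    nlinarith [norm_nonneg (w * e)]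
  -- the sum
  set S : M := w * (e * b * e) * w with hS
  have hSh : S = w * w - (δ : ℂ) • ((w * e) * star (w * e)) := by
    rw [hS, he1, mul_sub, sub_mul, mul_one, mul_smul_comm, smul_mul_assoc, star_mul, hw.star_eq,
      he.star_eq]
    congr 2
    simp only [mul_assoc]
  have hdiff : ‖S - w * w‖ ≤ δ := by
    rw [hSh, sub_sub_cancel_left, norm_neg, norm_smul, Complex.norm_real, Real.norm_eq_abs,
      abs_of_pos hδ0, CStarRing.norm_self_mul_star]
    have : ‖w * e‖ * ‖w * e‖ ≤ 1 := mul_le_one₀ hwe (norm_nonneg _) hwe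
    nlinarith
  have hSn : ‖S‖ ≤ 2 := by
    have h1 : S = (S - w * w) + w * w := by abel
    rw [h1]
    refine (norm_add_le _ _).trans ?_
    linarith
  have hSa : ‖S * a - a‖ ≤ ε := by
    have h1 : S * a - a = (S - w * w) * a + (w * w * a - a) := by
      rw [sub_mul]
      abel
    rw [h1]
    refine (norm_add_le _ _).trans ?_
    have h2 : ‖(S - w * w) * a‖ ≤ δ * ‖a‖ :=
      (norm_mul_le _ _).trans (mul_le_mul_of_nonneg_right hdiff (norm_nonneg _))
    linarith
  -- as a sum
  set c : ℂ := ((Real.sqrt (1 / 2) : ℝ) : ℂ) with hc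
  have hcc : star c * c = 1 / 2 := by
    rw [hc, Complex.star_def, Complex.conj_ofReal, ← Complex.ofReal_mul,
      Real.mul_self_sqrt (by norm_num)]
    norm_num
  have hterm : ∀ y : M, star (c • (y * (e * w))) * (x * x) * (c • (y * (e * w))) =
      (1 / 2 : ℂ) • (w * (e * (star y * (x * x) * y) * e) * w) := by
    intro y
    rw [star_smul, smul_mul_assoc, mul_smul_comm, smul_mul_assoc, smul_smul, mul_comm c (star c),
      hcc, star_mul, star_mul, he.star_eq, hw.star_eq]
    simp only [mul_assoc]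
  have hsum : S = ∑ i : Fin n, (star (c • (star (u i) * (e * w))) * (x * x) *
      (c • (star (u i) * (e * w))) + star (c • (v i * (e * w))) * (x * x) *
      (c • (v i * (e * w)))) := by
    rw [hS, hb, Finset.mul_sum, Finset.sum_mul, Finset.mul_sum, Finset.sum_mul]
    refine Finset.sum_congr rfl fun i _ => ?_
    rw [hterm, hterm, star_star, mul_smul_comm, smul_mul_assoc, mul_smul_comm, smul_mul_assoc,
      ← smul_add, mul_add, add_mul, mul_add, add_mul]
  refine ⟨1 + (n + n), Fin.append (fun _ : Fin 1 => (0 : M)) (Fin.append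
    (fun i : Fin n => c • (star (u i) * (e * w))) (fun i : Fin n => c • (v i * (e * w)))),
    by omega, ?_, ?_⟩
  · rw [Fin.sum_univ_add, Fin.sum_univ_add]
    simp only [Fin.append_left, Fin.append_right, star_zero, zero_mul, Finset.sum_const_zero,
      zero_add]
    rw [← Finset.sum_add_distrib, ← hsum]
    exact hSn
  · rw [Fin.sum_univ_add, Fin.sum_univ_add]
    simp only [Fin.append_left, Fin.append_right, star_zero, zero_mul, Finset.sum_const_zero,
      zero_add]
    rw [← Finset.sum_add_distrib, ← hsum]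
    exact hSa

end Sys

end Vale.Agent.P095.NU
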