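import Vale.Agent.P095.NU.NormDiag

/-!
# P095, target T7: homomorphisms of the Jiang-Su algebra into the fixed points of the relative
central sequence algebra (row G28)
-/

open Filter Topology TopologicalSpace
open scoped BoundedContinuousFunction ComplexOrder

namespace Vale.Agent.P095.NU

open Vale.Agent.P101

universe u v w

variable {G : Type*} [Group G] [Countable G] {ω : Ultrafilter ℕ} {M : Type u} [CStarAlgebra M]
  [SeparableSpace M] {A : Set M} {α : G →* (M ≃⋆ₐ[ℂ] M)} {B : Type u} [CStarAlgebra B]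
  {q : centralSeq ω M →⋆ₐ[ℂ] B} {β : G →* (B ≃⋆ₐ[ℂ] B)} {κ : ℕ → ℕ → M}

namespace RHom

omit [SeparableSpace M] in
theorem exists_norm_one (hA : IsCore A) : ∃ a ∈ A, ‖a‖ = 1 := by
  have h1 : ∃ a ∈ A, a ≠ 0 := by
    by_contra hc
    push Not at hc
    apply hA.one
    have h2 : (1 : M) = 0 := hA.ess 1 fun a ha => by rw [hc a ha, mul_zero]
    rw [h2]
    exact hA.zero
  obtain ⟨a, ha, h0⟩ := h1
  refine ⟨((‖a‖⁻¹ : ℝ) : ℂ) • a, hA.smul _ a ha, ?_⟩
  rw [norm_smul, Complex.norm_real, norm_inv, norm_norm, inv_mul_cancel₀ (norm_ne_zero_iff.2 h0)]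

omit [SeparableSpace M] in
/-- The sequences produced by the ε-test. -/
theorem exists_index (hω : (ω : Filter ℕ) ≤ cofinite) (R : RelSys ω A α q β) (a : ℕ → M)
    (a0 : M) (ha0 : a0 ∈ A) (hn0 : ‖a0‖ = 1)
    (N : (ℕ × ℕ × ℕ × ℕ) → ℝ) (ψ : ℕ → ℕ → B)
    (ζ : ℕ → ℕ → centralSeq ω M) (hζ : ∀ k i, q (ζ k i) = ψ k i) (z : ℕ → ℕ → (ℕ →ᵇ M))
    (hz : ∀ k i, Ultra.mk ω (z k i) = (ζ k i : Ultra ω M))
    (h : ∀ c, ∀ ε : ℝ, 0 < ε → ∀ᶠ k in atTop, ‖basicPoly c (ψ k)‖ < N c + ε)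
    (hG : ∀ g i, ∀ᶠ k in atTop, β g (ψ k i) = ψ k i) :
    ∃ κ : ℕ → ℕ,
      (∀ c, Tendsto (fun n => max 0 (‖basicPoly c (fun i => z (κ n) i n) * a0‖ - N c)) ω (𝓝 0)) ∧
      (∀ j i, Tendsto (fun n => ‖a j * z (κ n) i n - z (κ n) i n * a j‖) ω (𝓝 0)) ∧
      ∀ g i, Tendsto (fun n => ‖(α g (z (κ n) i n) - z (κ n) i n) * a0‖) ω (𝓝 0) := by
  classical
  let f : ((ℕ × ℕ × ℕ × ℕ) ⊕ (ℕ × ℕ)) ⊕ (G × ℕ) → (n : ℕ) → ℕ → ℝ := fun k n M =>
    match k with
    | Sum.inl (Sum.inl c) => max 0 (‖basicPoly c (fun i => z M i n) * a0‖ - N c)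
    | Sum.inl (Sum.inr (j, i)) => ‖a j * z M i n - z M i n * a j‖
    | Sum.inr (g, i) => ‖(α g (z M i n) - z M i n) * a0‖
  obtain ⟨κ, hκ⟩ := eps_test_countable (X := fun _ => ℕ) (ω : Filter ℕ) hω f (by
    rintro ((c | ⟨j, i⟩) | ⟨g, i⟩) n m
    · exact le_max_left _ _
    · exact norm_nonneg _
    · exact norm_nonneg _) (by
    intro F ε hε
    have h3 : ∀ᶠ k0 in atTop, ∀ k ∈ F, (∀ c, k = Sum.inl (Sum.inl c) →
        ‖basicPoly c (ψ k0)‖ < N c + ε / 2) ∧ ∀ g i, k = Sum.inr (g, i) →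
        β g (ψ k0 i) = ψ k0 i := by
      rw [Filter.eventually_all_finset]
      rintro ((c | ji) | ⟨g, i⟩) _
      · filter_upwards [h c (ε / 2) (by positivity)] with k0 hM
        refine ⟨fun c' hc' => ?_, fun g i hc' => by cases hc'⟩
        obtain rfl := Sum.inl_injective (Sum.inl_injective hc')
        exact hM
      · refine Eventually.of_forall (fun m => ⟨fun z' hz' => ?_, fun g i hc' => ?_⟩)
        · cases hz'
        · cases hc'
      · filter_upwards [hG g i] with k0 hM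
        refine ⟨fun c' hc' => (by cases hc'), fun g' i' hc' => ?_⟩
        obtain ⟨rfl, rfl⟩ := Prod.mk.inj (Sum.inr_injective hc')
        exact hM
    obtain ⟨k0, hM⟩ := h3.exists
    refine ⟨fun _ => k0, ?_⟩
    rintro ((c | ⟨j, i⟩) | ⟨g, i⟩) hk
    · have h4 := (hM _ hk).1 c rfl
      have h5 : Ultra.mk ω (basicPoly c (z k0)) = (basicPoly c (ζ k0) : centralSeq ω M) := by
        rw [map_basicPoly]
        have := map_basicPoly (centralSeq ω M).subtype c (ζ k0)
        simp only [StarSubalgebra.subtype_apply] at this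
        rw [this]
        congr 1
        funext i
        exact hz k0 i
      have h6 := Ultra.tendsto_norm_mk (ω := ω) (basicPoly c (z k0) * Ultra.const a0)
      rw [map_mul, h5, ← Ultra.diag_apply, norm_mul_diag R _ _ ha0, hn0, mul_one,
        map_basicPoly] at h6
      simp only [hζ] at h6
      have h7 : ‖basicPoly c (fun i => ψ k0 i)‖ < N c + ε := lt_trans h4 (by linarith)
      filter_upwards [h6.eventually (gt_mem_nhds h7)] with n hn
      show max 0 (‖basicPoly c (fun i => z k0 i n) * a0‖ - N c) < ε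
      rw [max_lt_iff]
      refine ⟨hε, ?_⟩
      rw [← LocFin.basicPoly_apply]
      have h8 : ‖(basicPoly c (z k0) * Ultra.const a0) n‖ = ‖(basicPoly c (z k0)) n * a0‖ := rfl
      rw [← h8]
      linarith
    · have h4 := (mk_mem_centralSeq_iff.1
        (by rw [hz]; exact (ζ k0 i).2 : Ultra.mk ω (z k0 i) ∈ _)) (a j)
      exact h4.eventually (gt_mem_nhds hε)
    · have h4 := (hM _ hk).2 g i rfl
      have h5 : q (centralAct ω α g (ζ k0 i) - ζ k0 i) = 0 := by
        rw [map_sub, ← R.act, hζ, h4, sub_self]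
      have h6 := (R.ker _).1 h5 a0 ha0
      have h7 : ((centralAct ω α g (ζ k0 i) - ζ k0 i : centralSeq ω M) : Ultra ω M) =
          ultraAct ω α g (ζ k0 i : Ultra ω M) - (ζ k0 i : Ultra ω M) := rfl
      rw [h7, ← hz, ultraAct_mk, ← map_sub, Ultra.diag_apply, ← map_mul,
        Ultra.mk_eq_zero_iff] at h6
      exact h6.eventually (gt_mem_nhds hε))
  exact ⟨κ, fun c => hκ (Sum.inl (Sum.inl c)), fun j i => hκ (Sum.inl (Sum.inr (j, i))),
    fun g i => hκ (Sum.inr (g, i))⟩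

/-- Approximate homomorphisms of a separable algebra into the fixed points of `B` give a
homomorphism. -/
theorem exists_hom_of_approx (hω : (ω : Filter ℕ) ≤ cofinite) (R : RelSys ω A α q β)
    {D : Type*} [NormedRing D] [NormedAlgebra ℂ D] [StarRing D]
    [ContinuousStar D] [StarModule ℂ D] (d : ℕ → D) (hd : DenseRange d)
    (ψ : ℕ → ℕ → B) (hb : ∀ i, ∃ C, ∀ k, ‖ψ k i‖ ≤ C)
    (h : ∀ c, ∀ ε : ℝ, 0 < ε → ∀ᶠ k in atTop, ‖basicPoly c (ψ k)‖ < ‖basicPoly c d‖ + ε)
    (hG : ∀ g i, ∀ᶠ k in atTop, β g (ψ k i) = ψ k i) :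
    ∃ ρ : D →⋆ₐ[ℂ] B, ∀ g z, β g (ρ z) = ρ z := by
  classical
  obtain ⟨a, ha⟩ := TopologicalSpace.exists_dense_seq M
  obtain ⟨a0, ha0, hn0⟩ := exists_norm_one R.core
  choose ζ hζ hζn using fun k i => R.lift (ψ k i)
  have hlift : ∀ k i, ∃ y : ℕ →ᵇ M, Ultra.mk ω y = (ζ k i : Ultra ω M) ∧ ∀ n, ‖y n‖ ≤ ‖ζ k i‖ :=
    fun k i => Ultra.exists_rep (ζ k i : Ultra ω M)
  choose z hz hzn using hlift
  choose C hC using hb
  obtain ⟨κ, hκ1, hκ2, hκ3⟩ :=
    exists_index hω R a a0 ha0 hn0 (fun c => ‖basicPoly c d‖) ψ ζ hζ z hz h hG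
  obtain ⟨y, hyn⟩ : ∃ y : ℕ → (ℕ →ᵇ M), ∀ i n, y i n = z (κ n) i n :=
    ⟨fun i => BoundedContinuousFunction.ofNormedAddCommGroupDiscrete (fun n => z (κ n) i n) (C i)
      (fun n => (hzn _ _ _).trans ((hζn _ _).le.trans (hC i _))), fun _ _ => rfl⟩
  have hcentral : ∀ i, Ultra.mk ω (y i) ∈ centralSeq ω M := by
    intro i
    refine LocFin.mem_centralSeq_of_dense a ha (y i) fun j => ?_
    refine (hκ2 j i).congr fun n => ?_
    rw [hyn]
  obtain ⟨Ψ, hΨ⟩ : ∃ Ψ : ℕ → centralSeq ω M, ∀ i, (Ψ i : Ultra ω M) = Ultra.mk ω (y i) :=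
    ⟨fun i => ⟨Ultra.mk ω (y i), hcentral i⟩, fun _ => rfl⟩
  have hbound : ∀ c, ‖basicPoly c (fun i => q (Ψ i))‖ ≤ ‖basicPoly c d‖ := by
    intro c
    have h2 : Tendsto (fun n => max 0 (‖basicPoly c (fun i => z (κ n) i n) * a0‖ -
        ‖basicPoly c d‖) + ‖basicPoly c d‖) ω (𝓝 (0 + ‖basicPoly c d‖)) :=
      (hκ1 c).add tendsto_const_nhds
    rw [zero_add] at h2
    have h5 : Ultra.mk ω (basicPoly c y) = (basicPoly c Ψ : centralSeq ω M) := by
      rw [map_basicPoly]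
      have := map_basicPoly (centralSeq ω M).subtype c Ψ
      simp only [StarSubalgebra.subtype_apply] at this
      rw [this]
      congr 1
      funext i
      exact (hΨ i).symm
    have h6 := Ultra.tendsto_norm_mk (ω := ω) (basicPoly c y * Ultra.const a0)
    rw [map_mul, h5, ← Ultra.diag_apply, norm_mul_diag R _ _ ha0, hn0, mul_one,
      map_basicPoly] at h6
    refine le_of_tendsto_of_tendsto h6 h2 (Eventually.of_forall fun n => ?_)
    have h8 : ‖(basicPoly c y * Ultra.const a0) n‖ =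
        ‖basicPoly c (fun i => z (κ n) i n) * a0‖ := by
      have h7 : (basicPoly c y * Ultra.const a0) n = (basicPoly c y) n * a0 := rfl
      rw [h7, LocFin.basicPoly_apply]
      congr 3
      funext i
      exact hyn i n
    have h9 := le_max_right 0 (‖basicPoly c (fun i => z (κ n) i n) * a0‖ - ‖basicPoly c d‖)
    have h10 : ‖(basicPoly c y * Ultra.const a0) n‖ ≤
        max 0 (‖basicPoly c (fun i => z (κ n) i n) * a0‖ - ‖basicPoly c d‖) +
          ‖basicPoly c d‖ := by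
      rw [h8]
      linarith
    exact h10
  obtain ⟨Φ, hΦ, hΦn⟩ := exists_hom_of_dense d hd (fun i => q (Ψ i))
    (fun i j => hbound (0, i, j, 0))
    (fun i j k => hbound (1, i, j, k))
    (fun i j k => hbound (2, i, j, k))
    (fun i k => hbound (3, i, k, 0))
    (fun i k => hbound (4, i, k, 0))
    (fun k => hbound (5, k, 0, 0))
  refine ⟨Φ, fun g x => ?_⟩
  have hΦc : Continuous Φ := AddMonoidHomClass.continuous_of_bound Φ 1
    (fun x => by rw [one_mul]; exact hΦn x)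
  refine hd.induction_on (p := fun x => β g (Φ x) = Φ x) x ?_ ?_
  · exact isClosed_eq ((continuous_act β g).comp hΦc) hΦc
  · intro i
    show β g (Φ (d i)) = Φ (d i)
    rw [hΦ, R.act, ← sub_eq_zero, ← map_sub, ← norm_eq_zero]
    have h1 := norm_mul_diag R (centralAct ω α g (Ψ i) - Ψ i) a0 ha0
    rw [hn0, mul_one] at h1
    rw [← h1, norm_eq_zero]
    have h7 : ((centralAct ω α g (Ψ i) - Ψ i : centralSeq ω M) : Ultra ω M) =
        ultraAct ω α g (Ψ i : Ultra ω M) - (Ψ i : Ultra ω M) := rfl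
    rw [h7, hΨ, ultraAct_mk, ← map_sub, Ultra.diag_apply, ← map_mul, Ultra.mk_eq_zero_iff]
    refine (hκ3 g i).congr fun n => ?_
    show _ = ‖(α g (y i n) - y i n) * a0‖
    rw [hyn]

end RHom

open RHom in
theorem exists_hom_fixed_rel (hω : (ω : Filter ℕ) ≤ cofinite) (R : RelSys ω A α q β)
    {Z : Type v} [CStarAlgebra Z] (hZ : IsDimDropLimit Z)
    (h : ∀ p r : ℕ, 0 < p → 0 < r → Nat.Coprime p r →
      ∃ φ : DimDrop p r →⋆ₐ[ℂ] B, ∀ g x, β g (φ x) = φ x) :
    ∃ ρ : Z →⋆ₐ[ℂ] B, ∀ g z, β g (ρ z) = ρ z := by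
  classical
  obtain ⟨S, hmono, hiso, hdense⟩ := hZ
  choose p r hp hr hpr he using hiso
  let e : ∀ k, S k ≃⋆ₐ[ℂ] DimDrop (p k) (r k) := fun k => (he k).some
  choose θ hθ using fun k => h (p k) (r k) (hp k) (hr k) (hpr k)
  let π : ∀ k, S k →⋆ₐ[ℂ] B := fun k => (θ k).comp (e k : S k →⋆ₐ[ℂ] _)
  have hπ : ∀ k (x : S k), ‖π k x‖ ≤ ‖x‖ := fun k x => norm_map_le_of_dimDrop (S k) (e k) (θ k) x
  have hsep : TopologicalSpace.IsSeparable (⋃ k, (S k : Set Z)) :=
    TopologicalSpace.isSeparable_iUnion.2 (fun k => isSeparable_of_dimDrop (S k) (e k))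
  have := hsep.separableSpace
  obtain ⟨t, htS, htc, htd⟩ := hdense.exists_countable_dense_subset
  have htne : t.Nonempty := htd.nonempty
  obtain ⟨d, rfl⟩ := htc.exists_eq_range htne
  have hd : ∀ i, ∃ k, d i ∈ S k := fun i => by
    have := htS (Set.mem_range_self i)
    simpa using this
  choose K hK using hd
  let d' : ∀ M, ℕ → S M := fun M i => if hM : d i ∈ S M then ⟨d i, hM⟩ else 0
  have hd' : ∀ M i, K i ≤ M → ((d' M i : S M) : Z) = d i := by
    intro M i hM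
    have h1 : d i ∈ S M := hmono hM (hK i)
    simp only [d', dif_pos h1]
  have hd'n : ∀ M i, ‖d' M i‖ ≤ ‖d i‖ := by
    intro M i
    by_cases h1 : d i ∈ S M
    · simp only [d', dif_pos h1]
      exact le_rfl
    · simp only [d', dif_neg h1, norm_zero]
      exact norm_nonneg _
  refine exists_hom_of_approx hω R d htd (fun M i => π M (d' M i))
    (fun i => ⟨‖d i‖, fun M => (hπ _ _).trans (hd'n M i)⟩) ?_ ?_
  · intro c ε hε
    filter_upwards [eventually_ge_atTop (max (K c.2.1) (max (K c.2.2.1) (K c.2.2.2)))] with M hM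
    have h1 : basicPoly c (fun i => π M (d' M i)) = π M (basicPoly c (d' M)) :=
      (map_basicPoly (π M) c (d' M)).symm
    have h2 : ((basicPoly c (d' M) : S M) : Z) = basicPoly c d := by
      have h3 := map_basicPoly (S M).subtype c (d' M)
      simp only [StarSubalgebra.subtype_apply] at h3
      rw [h3]
      apply basicPoly_congr
      · exact hd' M _ ((le_max_left _ _).trans hM)
      · exact hd' M _ ((le_max_left _ _).trans ((le_max_right _ _).trans hM))
      · exact hd' M _ ((le_max_right _ _).trans ((le_max_right _ _).trans hM))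
    rw [h1]
    calc ‖π M (basicPoly c (d' M))‖ ≤ ‖basicPoly c (d' M)‖ := hπ _ _
      _ = ‖basicPoly c d‖ := by rw [← h2]; rfl
      _ < ‖basicPoly c d‖ + ε := by linarith
  · intro g i
    exact Eventually.of_forall fun M => hθ M g _

end Vale.Agent.P095.NU
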