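import Vale.Agent.P095.NU.Defs

/-!
# P095, T7, row G30: the unital extension of `a ↦ a ⊗ 1`, and the norm of `a ⊗ z`
-/

open Filter Topology TopologicalSpace
open scoped BoundedContinuousFunction ComplexOrder

namespace Vale.Agent.P095.NU

open Vale.Agent.P101

universe u v w

section Tensor

variable {Z : Type v} [CStarAlgebra Z] {A : Type u} [NonUnitalCStarAlgebra A] {T : Type u}
  [NonUnitalCStarAlgebra T] {t : A →ₗ[ℂ] Z →ₗ[ℂ] T}

/-- `a ↦ a ⊗ 1` as a `⋆`-homomorphism. -/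
theorem exists_iota₀ (ht : IsTensorNU t) : ∃ ι₀ : A →⋆ₙₐ[ℂ] T, ∀ a, ι₀ a = t a 1 := by
  refine ⟨{ toFun := fun a => t a 1, map_smul' := ?_, map_zero' := ?_, map_add' := ?_,
            map_mul' := ?_, map_star' := ?_ }, fun a => rfl⟩
  · intro c a
    simp
  · simp
  · intro a b
    simp
  · intro a b
    rw [ht.mul, mul_one]
  · intro a
    rw [ht.star, star_one]

theorem exists_iota (ht : IsTensorNU t) :
    ∃ ι : Unitization ℂ A →⋆ₐ[ℂ] Unitization ℂ T,
      ∀ a : A, ι (a : Unitization ℂ A) = ((t a 1 : T) : Unitization ℂ T) := by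
  obtain ⟨ι₀, h⟩ := exists_iota₀ ht
  refine ⟨Unitization.starMap ι₀, fun a => ?_⟩
  rw [Unitization.starMap_inr, h]

end Tensor

end Vale.Agent.P095.NU
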