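import Vale.Agent.P095.NU.Defs
import Vale.Agent.P095.NU.NormDiag
import Vale.Agent.P095.NU.RCopies
import Vale.Agent.P095.Moved
import Vale.Agent.P095.OrthAny

/-!
# P095, target T7: moved elements and orthogonal families (row G23)
-/

open Filter Topology TopologicalSpace
open scoped BoundedContinuousFunction ComplexOrder

namespace Vale.Agent.P095.NU

open Vale.Agent.P101

universe u v w

variable {G : Type*} [Group G] [Countable G] {ω : Ultrafilter ℕ} {M : Type u} [CStarAlgebra M]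
  [SeparableSpace M] {A : Set M} {α : G →* (M ≃⋆ₐ[ℂ] M)} {B : Type u} [CStarAlgebra B]
  {q : centralSeq ω M →⋆ₐ[ℂ] B} {β : G →* (B ≃⋆ₐ[ℂ] B)} {κ : ℕ → ℕ → M}

namespace RMoved

omit [SeparableSpace M] in
theorem exists_ne {A : Set M} (hA : IsCore A) : ∃ a ∈ A, a ≠ 0 := by
  by_contra hcon
  push Not at hcon
  refine hA.one ?_
  rw [hA.ess 1 fun a ha => by rw [hcon a ha, mul_zero]]
  exact hA.zero

omit [SeparableSpace M] in
theorem exists_norm_one {A : Set M} (hA : IsCore A) : ∃ a ∈ A, ‖a‖ = 1 := by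
  obtain ⟨a, ha, ha0⟩ := exists_ne hA
  have hn : 0 < ‖a‖ := norm_pos_iff.2 ha0
  refine ⟨((‖a‖ : ℂ)⁻¹) • a, hA.smul _ _ ha, ?_⟩
  rw [norm_smul, norm_inv, Complex.norm_real, norm_norm, inv_mul_cancel₀ hn.ne']

omit [SeparableSpace M] [Countable G] in
theorem tendsto_norm (R : RelSys ω A α q β) {a : M} (ha : a ∈ A) (ha1 : ‖a‖ = 1)
    (z : ℕ →ᵇ M) (x : centralSeq ω M) (hz : Ultra.mk ω z = (x : Ultra ω M)) :
    Tendsto (fun n => ‖z n * a‖) ω (𝓝 ‖q x‖) := by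
  have h1 := Ultra.tendsto_norm_mk (ω := ω) (z * Ultra.const a)
  have h2 : ‖Ultra.mk ω (z * Ultra.const a)‖ = ‖q x‖ := by
    rw [map_mul, hz, ← Ultra.diag_apply, norm_mul_diag R x a ha, ha1, mul_one]
  rw [h2] at h1
  exact h1

omit [SeparableSpace M] [Countable G] in
theorem nontrivial_B (R : RelSys ω A α q β) : Nontrivial B := by
  obtain ⟨a, ha, ha1⟩ := exists_norm_one R.core
  refine ⟨⟨1, 0, fun h => ?_⟩⟩
  have h1 := norm_mul_diag R 1 a ha
  rw [map_one, h, norm_zero, zero_mul] at h1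
  have h2 : ((1 : centralSeq ω M) : Ultra ω M) * Ultra.diag ω a = Ultra.diag ω a := one_mul _
  rw [h2, Ultra.norm_diag, ha1] at h1
  exact one_ne_zero h1

end RMoved

open RMoved in
theorem exists_moved_rel (hω : (ω : Filter ℕ) ≤ cofinite) (R : RelSys ω A α q β) (g : G)
    (hg : β g ≠ 1) :
    ∃ S : B, IsSelfAdjoint S ∧ Commute S (β g S) ∧ S ≠ β g S := by
  classical
  obtain ⟨d, hd, hS⟩ := exists_mean_field (hasFreeCopies_rel hω R) g hg
  obtain ⟨a, ha, ha1⟩ := exists_norm_one R.core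
  let f : Fin 3 → ℕ → M → ℝ := fun k _ x =>
    if k = 0 then ‖(x - star x) * a‖ else if k = 1 then ‖(x * α g x - α g x * x) * a‖
      else max 0 (d - ‖(x - α g x) * a‖)
  have hf : ∀ k n x, 0 ≤ f k n x := by
    intro k n x
    show 0 ≤ (if k = 0 then ‖(x - star x) * a‖ else if k = 1 then
      ‖(x * α g x - α g x * x) * a‖ else max 0 (d - ‖(x - α g x) * a‖))
    split_ifs
    · exact norm_nonneg _
    · exact norm_nonneg _
    · exact le_max_left _ _
  have hseq : ∀ y : ℕ →ᵇ M, ultraAct ω α g (Ultra.mk ω y) =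
      Ultra.mk ω (seqMap (α g : M →⋆ₐ[ℂ] M) y) := fun y => ultraAct_mk ω α g y
  have hlim0 : ∀ (y : ℕ →ᵇ M) (x : centralSeq ω M), Ultra.mk ω y = (x : Ultra ω M) →
      Tendsto (fun n => ‖(y n - star (y n)) * a‖) ω (𝓝 ‖q x - star (q x)‖) := by
    intro y x hyx
    have h1 := tendsto_norm R ha ha1 (y - star y) (x - star x) (by
      rw [map_sub, map_star, hyx]; rfl)
    rwa [map_sub, map_star] at h1
  have hlim1 : ∀ (y : ℕ →ᵇ M) (x : centralSeq ω M), Ultra.mk ω y = (x : Ultra ω M) →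
      Tendsto (fun n => ‖(y n * α g (y n) - α g (y n) * y n) * a‖) ω
      (𝓝 ‖q x * β g (q x) - β g (q x) * q x‖) := by
    intro y x hyx
    have h1 := tendsto_norm R ha ha1 (y * seqMap (α g : M →⋆ₐ[ℂ] M) y -
      seqMap (α g : M →⋆ₐ[ℂ] M) y * y) (x * centralAct ω α g x - centralAct ω α g x * x) (by
      rw [map_sub, map_mul, map_mul, ← hseq, hyx]; rfl)
    rwa [map_sub, map_mul, map_mul, ← R.act] at h1
  have hlim2 : ∀ (y : ℕ →ᵇ M) (x : centralSeq ω M), Ultra.mk ω y = (x : Ultra ω M) →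
      Tendsto (fun n => ‖(y n - α g (y n)) * a‖) ω (𝓝 ‖q x - β g (q x)‖) := by
    intro y x hyx
    have h1 := tendsto_norm R ha ha1 (y - seqMap (α g : M →⋆ₐ[ℂ] M) y)
      (x - centralAct ω α g x) (by rw [map_sub, ← hseq, hyx]; rfl)
    rwa [map_sub, ← R.act] at h1
  obtain ⟨y, hy1, hy2, hy3⟩ := exists_central_seq hω f hf (by
    intro F ε hε
    obtain ⟨S, hSa, hSn, hSc, hSd⟩ := hS (ε / 2) (half_pos hε)
    obtain ⟨x, hxS, hxn⟩ := R.lift S
    obtain ⟨y, hy, hyn⟩ := Ultra.exists_rep (x : Ultra ω M)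
    refine ⟨y, fun n => (hyn n).trans ?_, by rw [hy]; exact x.2, ?_⟩
    · have h9 : ‖(x : Ultra ω M)‖ = ‖S‖ := hxn
      rw [h9]
      exact hSn
    intro k _
    have b0 : ‖q x - star (q x)‖ < ε := by
      rw [hxS, hSa.star_eq, sub_self, norm_zero]; exact hε
    have b1 : ‖q x * β g (q x) - β g (q x) * q x‖ < ε := by
      rw [hxS]; exact lt_of_le_of_lt hSc (half_lt_self hε)
    have b2 : d - ε < ‖q x - β g (q x)‖ := by
      rw [hxS]; linarith
    have h0 := (hlim0 y x hy).eventually (gt_mem_nhds b0)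
    have h1 := (hlim1 y x hy).eventually (gt_mem_nhds b1)
    have h2 := (hlim2 y x hy).eventually (lt_mem_nhds b2)
    filter_upwards [h0, h1, h2] with n hn0 hn1 hn2
    show (if k = 0 then ‖(y n - star (y n)) * a‖ else if k = 1 then
      ‖(y n * α g (y n) - α g (y n) * y n) * a‖ else max 0 (d - ‖(y n - α g (y n)) * a‖)) < ε
    split_ifs
    · exact hn0
    · exact hn1
    · exact max_lt hε (by linarith))
  have h0 : Tendsto (fun n => ‖(y n - star (y n)) * a‖) ω (𝓝 0) := hy3 0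
  have h1 : Tendsto (fun n => ‖(y n * α g (y n) - α g (y n) * y n) * a‖) ω (𝓝 0) := hy3 1
  have h2 : Tendsto (fun n => max 0 (d - ‖(y n - α g (y n)) * a‖)) ω (𝓝 0) := hy3 2
  have e0 := tendsto_nhds_unique (hlim0 y ⟨Ultra.mk ω y, hy2⟩ rfl) h0
  have e1 := tendsto_nhds_unique (hlim1 y ⟨Ultra.mk ω y, hy2⟩ rfl) h1
  have e2 := tendsto_nhds_unique ((tendsto_const_nhds (x := (0 : ℝ))).max
    ((tendsto_const_nhds (x := d)).sub (hlim2 y ⟨Ultra.mk ω y, hy2⟩ rfl))) h2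
  rw [norm_eq_zero, sub_eq_zero] at e0 e1
  refine ⟨q ⟨Ultra.mk ω y, hy2⟩, e0.symm, e1, fun h => ?_⟩
  rw [← h, sub_self, norm_zero, sub_zero, max_eq_right hd.le] at e2
  exact hd.ne' e2

open RMoved in
theorem exists_orth_families_rel (hω : (ω : Filter ℕ) ≤ cofinite) (R : RelSys ω A α q β)
    (hchar : IsEmpty (B →⋆ₐ[ℂ] ℂ)) (m : ℕ) (K : Finset G) (hK : ∀ g ∈ K, β g ≠ 1) :
    ∃ H : Fin m → B, (∀ p, IsPos (H p)) ∧ (∀ p, ‖H p‖ = 1) ∧
      (∀ p q, p ≠ q → H p * H q = 0) ∧ ∀ p q, ∀ g ∈ K, H p * β g (H q) = 0 := by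
  have hf := hasFreeCopies_rel hω R
  have hnt : Nontrivial B := nontrivial_B R
  obtain ⟨s, hsa, hns⟩ := exists_nonscalar hchar
  obtain ⟨D, D', hD, hD', hn, hn', h0, -⟩ := exists_orth_pair s hsa hns
  refine exists_orth_family_any hf K (fun g hg => ?_) D D' hD hD' hn hn' h0 m
  obtain ⟨T, hT1, hT2, hT3⟩ := exists_moved_rel hω R g (hK g hg)
  exact exists_pos_of_moved (β g) T hT1 hT2 hT3

end Vale.Agent.P095.NU
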