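import Vale.Agent.P095.NucDimExc
import Vale.Agent.P095.RankStepOf
import Vale.Agent.P095.MatSplit

/-!
# P095, row G16: localised finite nuclear dimension
-/

open Filter Topology TopologicalSpace
open scoped BoundedContinuousFunction ComplexOrder

namespace Vale.Agent.P095.NU

open Vale.Agent.P101

universe u v w

namespace RNucLoc

/-! ### spectral compression of a positive matrix -/

theorem exists_V {n : ℕ} (X : Matrix (Fin n) (Fin n) ℂ) (hX : IsPos X) {κ : ℝ} (hκ : 0 < κ) :
    ∃ (r : ℕ) (V : Matrix (Fin n) (Fin r) ℂ) (U : Matrix (Fin n) (Fin n) ℂ) (e : Fin r → Fin n),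
      V.conjTranspose * V = 1 ∧ U.conjTranspose * U = 1 ∧ U * U.conjTranspose = 1 ∧
      (∀ x : Matrix (Fin n) (Fin n) ℂ, V.conjTranspose * x * V =
        (U.conjTranspose * x * U).submatrix e e) ∧
      IsPos (X - ((κ : ℝ) : ℂ) • (V * V.conjTranspose)) ∧
      IsPos (((κ : ℝ) : ℂ) • (1 : Matrix (Fin n) (Fin n) ℂ) -
        (1 - V * V.conjTranspose) * X * (1 - V * V.conjTranspose)) := by
  classical
  obtain ⟨B, rfl⟩ := hX
  obtain ⟨lam, U, hlam, hBU, hU, -⟩ := MatSplit.spec B
  have hU1 : U * U.conjTranspose = 1 := by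
    ext x y
    rw [Matrix.mul_apply, Matrix.one_apply, ← hU x y]
    rfl
  have hU2 : U.conjTranspose * U = 1 := mul_eq_one_comm.1 hU1
  set W : (Fin n → ℝ) → Matrix (Fin n) (Fin n) ℂ := fun f =>
    U * Matrix.diagonal (fun s => ((f s : ℝ) : ℂ)) * U.conjTranspose with hW
  have hWmul : ∀ f g : Fin n → ℝ, W f * W g = W (fun s => f s * g s) := by
    intro f g
    show U * Matrix.diagonal (fun s => ((f s : ℝ) : ℂ)) * U.conjTranspose *
      (U * Matrix.diagonal (fun s => ((g s : ℝ) : ℂ)) * U.conjTranspose) = _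
    calc U * Matrix.diagonal (fun s => ((f s : ℝ) : ℂ)) * U.conjTranspose *
          (U * Matrix.diagonal (fun s => ((g s : ℝ) : ℂ)) * U.conjTranspose)
        = U * Matrix.diagonal (fun s => ((f s : ℝ) : ℂ)) * (U.conjTranspose * U) *
          Matrix.diagonal (fun s => ((g s : ℝ) : ℂ)) * U.conjTranspose := by
            simp only [Matrix.mul_assoc]
      _ = U * (Matrix.diagonal (fun s => ((f s : ℝ) : ℂ)) *
          Matrix.diagonal (fun s => ((g s : ℝ) : ℂ))) * U.conjTranspose := by
            rw [hU2, Matrix.mul_one]; simp only [Matrix.mul_assoc]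
      _ = _ := by
            rw [Matrix.diagonal_mul_diagonal]
            simp only [hW, Complex.ofReal_mul]
  have hWone : W (fun _ => 1) = 1 := by
    show U * Matrix.diagonal (fun _ => ((1 : ℝ) : ℂ)) * U.conjTranspose = 1
    rw [Complex.ofReal_one, Matrix.diagonal_one, Matrix.mul_one, hU1]
  have hWsub : ∀ f g : Fin n → ℝ, W f - W g = W (fun s => f s - g s) := by
    intro f g
    show U * Matrix.diagonal (fun s => ((f s : ℝ) : ℂ)) * U.conjTranspose -
      U * Matrix.diagonal (fun s => ((g s : ℝ) : ℂ)) * U.conjTranspose = _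
    rw [← Matrix.sub_mul, ← Matrix.mul_sub, Matrix.diagonal_sub]
    simp only [hW, Complex.ofReal_sub]
  have hWsmul : ∀ (c : ℝ) (f : Fin n → ℝ), ((c : ℝ) : ℂ) • W f = W (fun s => c * f s) := by
    intro c f
    show ((c : ℝ) : ℂ) • (U * Matrix.diagonal (fun s => ((f s : ℝ) : ℂ)) * U.conjTranspose) = _
    rw [← Matrix.smul_mul, ← Matrix.mul_smul, ← Matrix.diagonal_smul]
    simp only [hW, Complex.ofReal_mul]
    rfl
  have hWpos : ∀ f : Fin n → ℝ, (∀ s, 0 ≤ f s) → IsPos (W f) := by
    intro f hf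
    refine ⟨Matrix.diagonal (fun s => ((Real.sqrt (f s) : ℝ) : ℂ)) * U.conjTranspose, ?_⟩
    rw [Matrix.star_eq_conjTranspose, Matrix.conjTranspose_mul, Matrix.conjTranspose_conjTranspose,
      Matrix.diagonal_conjTranspose]
    have e1 : star (fun s => ((Real.sqrt (f s) : ℝ) : ℂ)) =
        fun s => ((Real.sqrt (f s) : ℝ) : ℂ) := by
      ext s
      rw [Pi.star_apply, Complex.star_def, Complex.conj_ofReal]
    rw [e1]
    calc W f = U * (Matrix.diagonal (fun s => ((Real.sqrt (f s) : ℝ) : ℂ)) *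
          Matrix.diagonal (fun s => ((Real.sqrt (f s) : ℝ) : ℂ))) * U.conjTranspose := by
            rw [Matrix.diagonal_mul_diagonal]
            show U * Matrix.diagonal (fun s => ((f s : ℝ) : ℂ)) * U.conjTranspose = _
            congr 3
            ext s
            rw [← Complex.ofReal_mul, Real.mul_self_sqrt (hf s)]
      _ = _ := by simp only [Matrix.mul_assoc]
  have hXW : star B * B = W lam := by
    ext x y
    rw [Matrix.star_eq_conjTranspose, hBU x y]
    show _ = (U * Matrix.diagonal (fun s => ((lam s : ℝ) : ℂ)) * U.conjTranspose) x y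
    rw [Matrix.mul_apply]
    refine Finset.sum_congr rfl fun s _ => ?_
    rw [Matrix.mul_diagonal, Matrix.conjTranspose_apply]
    ring
  -- the eigenvectors with large eigenvalue
  let T := {s : Fin n // κ ≤ lam s}
  let eT : Fin (Fintype.card T) ≃ T := (Fintype.equivFin T).symm
  let e : Fin (Fintype.card T) → Fin n := fun j => (eT j : Fin n)
  have he : Function.Injective e := Subtype.val_injective.comp eT.injective
  set V : Matrix (Fin n) (Fin (Fintype.card T)) ℂ := U.submatrix id e with hV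
  have hconj : ∀ x : Matrix (Fin n) (Fin n) ℂ, V.conjTranspose * x * V =
      (U.conjTranspose * x * U).submatrix e e := by
    intro x
    ext i j
    simp only [hV, Matrix.mul_apply, Matrix.conjTranspose_apply, Matrix.submatrix_apply, id]
  have hVV : V.conjTranspose * V = 1 := by
    have h1 := hconj 1
    rw [Matrix.mul_one, Matrix.mul_one, hU2, Matrix.submatrix_one _ he] at h1
    exact h1
  have hp : V * V.conjTranspose = W (fun s => if κ ≤ lam s then 1 else 0) := by
    ext x y
    show _ = (U * Matrix.diagonal (fun s => (((if κ ≤ lam s then 1 else 0 : ℝ)) : ℂ)) *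
      U.conjTranspose) x y
    rw [Matrix.mul_apply, Matrix.mul_apply]
    simp only [Matrix.mul_diagonal, Matrix.conjTranspose_apply, hV, Matrix.submatrix_apply, id]
    have h1 : ∑ j, U x (e j) * star (U y (e j)) = ∑ s : T, U x s * star (U y s) :=
      Equiv.sum_comp eT (fun s : T => U x s * star (U y s))
    rw [h1, ← Finset.sum_subtype (Finset.univ.filter fun s => κ ≤ lam s)
      (fun s => by simp) (fun s => U x s * star (U y s)), Finset.sum_filter]
    refine Finset.sum_congr rfl fun s _ => ?_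
    split_ifs <;> simp
  refine ⟨Fintype.card T, V, U, e, hVV, hU2, hU1, hconj, ?_, ?_⟩
  · rw [hp, hXW, hWsmul, hWsub]
    refine hWpos _ fun s => ?_
    split_ifs with h
    · linarith
    · have := hlam s
      linarith
  · rw [hp, hXW, ← hWone, hWsub, hWmul, hWmul, hWsmul, hWsub]
    refine hWpos _ fun s => ?_
    split_ifs with h
    · simp
      exact hκ.le
    · rw [not_le] at h
      linarith

/-! ### Cauchy-Schwarz -/

section CS

variable {M : Type u} [CStarAlgebra M]

theorem cs_le [PartialOrder M] [StarOrderedRing M] {a₀ a₁ b₀ b₁ : M}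
    (hb : star b₀ * b₀ + star b₁ * b₁ ≤ 1) :
    (star a₀ * b₀ + star a₁ * b₁) * star (star a₀ * b₀ + star a₁ * b₁) ≤
      star a₀ * a₀ + star a₁ * a₁ := by
  set c : M := star a₀ * b₀ + star a₁ * b₁ with hc
  have h0 : 0 ≤ star (a₀ - b₀ * star c) * (a₀ - b₀ * star c) +
      star (a₁ - b₁ * star c) * (a₁ - b₁ * star c) :=
    add_nonneg (star_mul_self_nonneg _) (star_mul_self_nonneg _)
  have h1 : c * (star b₀ * b₀ + star b₁ * b₁) * star c ≤ c * star c := by
    have := star_left_conjugate_le_conjugate hb (star c)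
    rwa [star_star, mul_one] at this
  have hcs : star c = star b₀ * a₀ + star b₁ * a₁ := by
    rw [hc]; simp only [star_add, star_mul, star_star]
  have h2 : star (a₀ - b₀ * star c) * (a₀ - b₀ * star c) +
      star (a₁ - b₁ * star c) * (a₁ - b₁ * star c) =
      (star a₀ * a₀ + star a₁ * a₁) - (star a₀ * b₀ + star a₁ * b₁) * star c -
        c * (star b₀ * a₀ + star b₁ * a₁) + c * (star b₀ * b₀ + star b₁ * b₁) * star c := by
    simp only [star_sub, star_mul, star_star]
    noncomm_ring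
  rw [h2, ← hcs, ← hc] at h0
  have h3 : star a₀ * a₀ + star a₁ * a₁ - c * star c =
      ((star a₀ * a₀ + star a₁ * a₁) - c * star c - c * star c +
        c * (star b₀ * b₀ + star b₁ * b₁) * star c) +
      (c * star c - c * (star b₀ * b₀ + star b₁ * b₁) * star c) := by abel
  rw [← sub_nonneg, h3]
  exact add_nonneg h0 (sub_nonneg.2 h1)

variable {F : Type*} [Ring F] [StarRing F] [Module ℂ F]

/-- Schwarz inequality for completely positive maps -/
theorem schwarz {ψ : F →ₗ[ℂ] M} (hψ : IsCP ψ) (x y : F) [PartialOrder M] [StarOrderedRing M]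
    (hy : ψ (star y * y) ≤ 1) : ψ (star x * y) * star (ψ (star x * y)) ≤ ψ (star x * x) := by
  have hX : IsPos (!![star x * x, star x * y; star y * x, star y * y] :
      Matrix (Fin 2) (Fin 2) F) := by
    refine ⟨!![x, y; 0, 0], ?_⟩
    ext i j
    fin_cases i <;> fin_cases j <;>
      simp [Matrix.mul_apply, Matrix.star_apply, Fin.sum_univ_two]
  obtain ⟨Y, hY⟩ := hψ 2 _ hX
  have h00 : ψ (star x * x) = star (Y 0 0) * Y 0 0 + star (Y 1 0) * Y 1 0 := by
    have := congr_fun (congr_fun hY 0) 0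
    simpa [Matrix.mul_apply, Matrix.star_apply, Fin.sum_univ_two] using this
  have h01 : ψ (star x * y) = star (Y 0 0) * Y 0 1 + star (Y 1 0) * Y 1 1 := by
    have := congr_fun (congr_fun hY 0) 1
    simpa [Matrix.mul_apply, Matrix.star_apply, Fin.sum_univ_two] using this
  have h11 : ψ (star y * y) = star (Y 0 1) * Y 0 1 + star (Y 1 1) * Y 1 1 := by
    have := congr_fun (congr_fun hY 1) 1
    simpa [Matrix.mul_apply, Matrix.star_apply, Fin.sum_univ_two] using this
  rw [h11] at hy
  rw [h00, h01]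
  exact cs_le hy

theorem schwarz_norm {ψ : F →ₗ[ℂ] M} (hψ : IsCP ψ) (x y : F) [PartialOrder M]
    [StarOrderedRing M] (hy : ψ (star y * y) ≤ 1) {lam : ℝ} (hlam : 0 ≤ lam)
    (hx : ‖ψ (star x * x)‖ ≤ lam ^ 2) : ‖ψ (star x * y)‖ ≤ lam := by
  have h1 := schwarz hψ x y hy
  have h2 := CStarAlgebra.norm_le_norm_of_nonneg_of_le (mul_star_self_nonneg (ψ (star x * y))) h1
  rw [CStarRing.norm_self_mul_star, ← pow_two] at h2
  exact (sq_le_sq₀ (norm_nonneg _) hlam).1 (h2.trans hx)

end CS

/-! ### completely positive maps into products of matrix algebras -/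

section Pi

variable {M : Type u} [CStarAlgebra M] {m : ℕ} {n : Fin m → ℕ}

theorem isPos_conj {R : Type*} [Ring R] [StarRing R] {z : R} (hz : IsPos z) (w : R) :
    IsPos (star w * z * w) := by
  obtain ⟨y, rfl⟩ := hz
  exact ⟨y * w, by simp only [star_mul, mul_assoc]⟩

/-- Kadison's inequality -/
theorem kadison {φ : M →ₗ[ℂ] (∀ i, Matrix (Fin (n i)) (Fin (n i)) ℂ)} (hφ : IsCP φ)
    (h1 : IsPos (1 - φ 1)) (x : M) : IsPos (φ (x * star x) - φ x * star (φ x)) := by
  have hX : IsPos (!![x * star x, x; star x, 1] : Matrix (Fin 2) (Fin 2) M) := by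
    refine ⟨!![star x, 1; 0, 0], ?_⟩
    ext i j
    fin_cases i <;> fin_cases j <;>
      simp [Matrix.mul_apply, Matrix.star_apply, Fin.sum_univ_two]
  obtain ⟨Y, hY⟩ := hφ 2 _ hX
  have h00 : φ (x * star x) = star (Y 0 0) * Y 0 0 + star (Y 1 0) * Y 1 0 := by
    have := congr_fun (congr_fun hY 0) 0
    simpa [Matrix.mul_apply, Matrix.star_apply, Fin.sum_univ_two] using this
  have h01 : φ x = star (Y 0 0) * Y 0 1 + star (Y 1 0) * Y 1 1 := by
    have := congr_fun (congr_fun hY 0) 1
    simpa [Matrix.mul_apply, Matrix.star_apply, Fin.sum_univ_two] using this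
  have h11 : φ 1 = star (Y 0 1) * Y 0 1 + star (Y 1 1) * Y 1 1 := by
    have := congr_fun (congr_fun hY 1) 1
    simpa [Matrix.mul_apply, Matrix.star_apply, Fin.sum_univ_two] using this
  have hs : star (φ x) = star (Y 0 1) * Y 0 0 + star (Y 1 1) * Y 1 0 := by
    rw [h01]; simp only [star_add, star_mul, star_star]
  have e : φ (x * star x) - φ x * star (φ x) =
      (star (Y 0 0 - Y 0 1 * star (φ x)) * (Y 0 0 - Y 0 1 * star (φ x)) +
      star (Y 1 0 - Y 1 1 * star (φ x)) * (Y 1 0 - Y 1 1 * star (φ x))) +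
      star (star (φ x)) * (1 - φ 1) * star (φ x) := by
    have e1 : star (Y 0 0 - Y 0 1 * star (φ x)) * (Y 0 0 - Y 0 1 * star (φ x)) +
        star (Y 1 0 - Y 1 1 * star (φ x)) * (Y 1 0 - Y 1 1 * star (φ x)) =
        (star (Y 0 0) * Y 0 0 + star (Y 1 0) * Y 1 0) -
        (star (Y 0 0) * Y 0 1 + star (Y 1 0) * Y 1 1) * star (φ x) -
        φ x * (star (Y 0 1) * Y 0 0 + star (Y 1 1) * Y 1 0) +
        φ x * (star (Y 0 1) * Y 0 1 + star (Y 1 1) * Y 1 1) * star (φ x) := by
      simp only [star_sub, star_mul, star_star]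
      noncomm_ring
    rw [e1, ← h00, ← h01, ← hs, ← h11, star_star]
    noncomm_ring
  rw [e]
  exact RankStep.isPos_add_pi (RankStep.isPos_add_pi ⟨_, rfl⟩ ⟨_, rfl⟩) (isPos_conj h1 _)

theorem isPos_pi {x : ∀ i, Matrix (Fin (n i)) (Fin (n i)) ℂ} (h : ∀ i, IsPos (x i)) :
    IsPos x := by
  choose y hy using h
  exact ⟨y, funext hy⟩

theorem isPos_of_le [PartialOrder M] [StarOrderedRing M] {x y : M} (h : x ≤ y) :
    IsPos (y - x) := by
  obtain ⟨b, hb⟩ := CStarAlgebra.nonneg_iff_eq_star_mul_self.1 (sub_nonneg.2 h)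
  exact ⟨b, hb⟩

theorem nonneg_of_isPos [PartialOrder M] [StarOrderedRing M] {x : M} (h : IsPos x) : 0 ≤ x := by
  obtain ⟨y, rfl⟩ := h
  exact star_mul_self_nonneg y

theorem alg_id {R : Type*} [Ring R] [Algebra ℂ R] (q u v w : R) (c k : ℂ) :
    (k * c) • (1 : R) - q * w * q =
      c • (k • (1 : R) - q * u * q) + q * (c • u - v) * q + q * (v - w) * q := by
  rw [smul_sub, smul_smul, mul_comm c k, mul_sub, sub_mul, mul_sub, sub_mul, mul_smul_comm,
    smul_mul_assoc]
  abel

/-- one colour -/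
theorem colour {φ : M →ₗ[ℂ] (∀ i, Matrix (Fin (n i)) (Fin (n i)) ℂ)}
    {ψ : (∀ i, Matrix (Fin (n i)) (Fin (n i)) ℂ) →ₗ[ℂ] M} (hφ : IsCP φ)
    (hφ1 : IsPos (1 - φ 1)) (hψ : IsOrderZero ψ) {f : M} (hf : IsPos f) (hf1 : ‖f‖ ≤ 1)
    {κ : ℝ} (hκ : 0 < κ) :
    ∃ (r : Fin m → ℕ) (φ' : M →ₗ[ℂ] (∀ i, Matrix (Fin (r i)) (Fin (r i)) ℂ))
      (ψ' : (∀ i, Matrix (Fin (r i)) (Fin (r i)) ℂ) →ₗ[ℂ] M),
      IsCP φ' ∧ IsPos (1 - φ' 1) ∧ IsOrderZero ψ' ∧
      (∀ a : M, ‖ψ' (φ' (f * a * f)) - ψ (φ (f * a * f))‖ ≤ 2 * (Real.sqrt κ * ‖a‖)) ∧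
      IsPos (ψ (φ (f * f)) - ((κ : ℝ) : ℂ) • ψ' 1) := by
  classical
  let _ := CStarAlgebra.spectralOrder M
  let _ := CStarAlgebra.spectralOrderedRing M
  have hfs : star f = f := by
    obtain ⟨y, rfl⟩ := hf
    simp
  have hff : IsPos (f * f) := ⟨f, by rw [hfs]⟩
  have hXpos : ∀ i, IsPos (φ (f * f) i) := by
    intro i
    obtain ⟨Y, hY⟩ := RankStep.isPos_map hφ hff
    exact ⟨Y i, by rw [hY]; rfl⟩
  choose r V U e hV hU1 hU2 hVU hlow hup using fun i => exists_V (φ (f * f) i) (hXpos i) hκ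
  -- compression
  let cmp : (∀ i, Matrix (Fin (n i)) (Fin (n i)) ℂ) →ₗ[ℂ]
      (∀ i, Matrix (Fin (r i)) (Fin (r i)) ℂ) :=
    { toFun := fun x i => (V i).conjTranspose * x i * V i
      map_add' := fun x y => by
        funext i
        show (V i).conjTranspose * (x i + y i) * V i = _
        rw [Matrix.mul_add, Matrix.add_mul]
        rfl
      map_smul' := fun c x => by
        funext i
        show (V i).conjTranspose * (c • x i) * V i = _
        rw [Matrix.mul_smul, Matrix.smul_mul]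
        rfl }
  have hcmp : ∀ x i, cmp x i = (V i).conjTranspose * x i * V i := fun _ _ => rfl
  let cnj : ∀ i, (∀ i, Matrix (Fin (n i)) (Fin (n i)) ℂ) →ₗ[ℂ]
      Matrix (Fin (n i)) (Fin (n i)) ℂ := fun i =>
    { toFun := fun x => (U i).conjTranspose * x i * U i
      map_add' := fun x y => by
        show (U i).conjTranspose * (x i + y i) * U i = _
        rw [Matrix.mul_add, Matrix.add_mul]
      map_smul' := fun c x => by
        show (U i).conjTranspose * (c • x i) * U i = _
        rw [Matrix.mul_smul, Matrix.smul_mul]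
        rfl }
  have hcmpCP : IsCP cmp := by
    refine NucDimExc.isCP_pi _ fun i => ?_
    have h1 : LinearMap.proj i ∘ₗ cmp = (NucDimExc.comprL (e i)) ∘ₗ cnj i := by
      refine LinearMap.ext fun x => ?_
      show (V i).conjTranspose * x i * V i = _
      rw [hVU i]
      rfl
    rw [h1]
    refine NucDimExc.isCP_comp (NucDimExc.isCP_comprL _) (NucDimExc.isCP_of_mul _ ?_ ?_)
    · intro x y
      show (U i).conjTranspose * (x i * y i) * U i =
        ((U i).conjTranspose * x i * U i) * ((U i).conjTranspose * y i * U i)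
      calc (U i).conjTranspose * (x i * y i) * U i =
          (U i).conjTranspose * x i * (1 : Matrix (Fin (n i)) (Fin (n i)) ℂ) * y i * U i := by
            simp only [Matrix.mul_assoc, Matrix.one_mul]
        _ = _ := by
            rw [← hU2 i]; simp only [Matrix.mul_assoc]
    · intro x
      show (U i).conjTranspose * star (x i) * U i = star ((U i).conjTranspose * x i * U i)
      simp only [Matrix.star_eq_conjTranspose, Matrix.conjTranspose_mul,
        Matrix.conjTranspose_conjTranspose, Matrix.mul_assoc]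
  -- extension
  let ext : (∀ i, Matrix (Fin (r i)) (Fin (r i)) ℂ) →ₗ[ℂ]
      (∀ i, Matrix (Fin (n i)) (Fin (n i)) ℂ) :=
    { toFun := fun x i => V i * x i * (V i).conjTranspose
      map_add' := fun x y => by
        funext i
        show V i * (x i + y i) * (V i).conjTranspose = _
        rw [Matrix.mul_add, Matrix.add_mul]
        rfl
      map_smul' := fun c x => by
        funext i
        show V i * (c • x i) * (V i).conjTranspose = _
        rw [Matrix.mul_smul, Matrix.smul_mul]
        rfl }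
  have hextmul : ∀ x y, ext (x * y) = ext x * ext y := by
    intro x y
    funext i
    show V i * (x i * y i) * (V i).conjTranspose =
      (V i * x i * (V i).conjTranspose) * (V i * y i * (V i).conjTranspose)
    calc V i * (x i * y i) * (V i).conjTranspose =
        V i * x i * (1 : Matrix (Fin (r i)) (Fin (r i)) ℂ) * y i * (V i).conjTranspose := by
          simp only [Matrix.mul_assoc, Matrix.one_mul]
      _ = _ := by
          rw [← hV i]; simp only [Matrix.mul_assoc]
  have hextstar : ∀ x, ext (star x) = star (ext x) := by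
    intro x
    funext i
    show V i * star (x i) * (V i).conjTranspose = star (V i * x i * (V i).conjTranspose)
    simp only [Matrix.star_eq_conjTranspose, Matrix.conjTranspose_mul,
      Matrix.conjTranspose_conjTranspose, Matrix.mul_assoc]
  have hextCP : IsCP ext := NucDimExc.isCP_of_mul _ hextmul hextstar
  -- the projections
  set p : ∀ i, Matrix (Fin (n i)) (Fin (n i)) ℂ := fun i => V i * (V i).conjTranspose with hp
  have hext1 : ext 1 = p := by
    funext i
    show V i * (1 : Matrix (Fin (r i)) (Fin (r i)) ℂ) * (V i).conjTranspose =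
      V i * (V i).conjTranspose
    rw [Matrix.mul_one]
  have hps : star p = p := by
    rw [← hext1, ← hextstar, star_one]
  have hpp : p * p = p := by
    rw [← hext1, ← hextmul, mul_one]
  set q : ∀ i, Matrix (Fin (n i)) (Fin (n i)) ℂ := 1 - p with hq
  have hqs : star q = q := by rw [hq, star_sub, star_one, hps]
  have hqq : q * q = q := by
    rw [hq, mul_sub, sub_mul, sub_mul, hpp]
    simp
  have hec : ∀ x, ext (cmp x) = p * x * p := by
    intro x
    funext i
    show V i * ((V i).conjTranspose * x i * V i) * (V i).conjTranspose =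
      (V i * (V i).conjTranspose) * x i * (V i * (V i).conjTranspose)
    simp only [Matrix.mul_assoc]
  have hlow' : IsPos (φ (f * f) - ((κ : ℝ) : ℂ) • p) := isPos_pi fun i => hlow i
  have hup' : IsPos (((κ : ℝ) : ℂ) • (1 : ∀ i, Matrix (Fin (n i)) (Fin (n i)) ℂ) -
      q * φ (f * f) * q) := isPos_pi fun i => hup i
  have hψp1 : ‖ψ p‖ ≤ 1 := by
    have h1 : IsPos (ψ 1 - ψ p) := by
      rw [← map_sub]
      exact RankStep.isPos_map hψ.cp ⟨q, by rw [hqs, hqq]⟩
    have h2 : 0 ≤ ψ p := nonneg_of_isPos (RankStep.isPos_map hψ.cp ⟨p, by rw [hps, hpp]⟩)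
    exact (CStarAlgebra.norm_le_norm_of_nonneg_of_le h2
      (sub_nonneg.1 (nonneg_of_isPos h1))).trans hψ.norm_one
  have hψp : ψ p ≤ 1 := by
    have h2 : 0 ≤ ψ p := nonneg_of_isPos (RankStep.isPos_map hψ.cp ⟨p, by rw [hps, hpp]⟩)
    exact (CStarAlgebra.norm_le_one_iff_of_nonneg _ h2).1 hψp1
  have hψ1 : ψ 1 ≤ 1 := by
    have h2 : 0 ≤ ψ 1 := nonneg_of_isPos (RankStep.isPos_map hψ.cp ⟨1, by simp⟩)
    exact (CStarAlgebra.norm_le_one_iff_of_nonneg _ h2).1 hψ.norm_one
  refine ⟨r, cmp ∘ₗ φ, ψ ∘ₗ ext, NucDimExc.isCP_comp hcmpCP hφ, ?_, ?_, ?_, ?_⟩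
  · have h1 : cmp 1 = 1 := by
      funext i
      show (V i).conjTranspose * (1 : Matrix (Fin (n i)) (Fin (n i)) ℂ) * V i = 1
      rw [Matrix.mul_one, hV i]
    have h2 := RankStep.isPos_map hcmpCP hφ1
    rw [map_sub, h1] at h2
    exact h2
  · refine ⟨NucDimExc.isCP_comp hψ.cp hextCP, ?_, ?_⟩
    · intro x y
      show ψ (ext x) * ψ (ext y) = ψ (ext 1) * ψ (ext (x * y))
      rw [hψ.mul (ext x), hψ.mul (ext 1), ← hextmul, ← hextmul, one_mul]
    · show ‖ψ (ext 1)‖ ≤ 1
      rw [hext1]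
      exact hψp1
  · -- the error
    have main : ∀ (a : M) (Y : ∀ i, Matrix (Fin (n i)) (Fin (n i)) ℂ), ψ (star Y * Y) ≤ 1 →
        ‖ψ (q * φ (f * a * f) * Y)‖ ≤ Real.sqrt κ * ‖a‖ := by
      intro a Y hY
      set x : M := f * a * f with hx
      have e1 : q * φ x * Y = star (star (φ x) * q) * Y := by
        rw [star_mul, star_star, hqs]
      rw [e1]
      refine schwarz_norm hψ.cp _ _ hY (by positivity) ?_
      have e2 : star (star (φ x) * q) * (star (φ x) * q) = q * (φ x * star (φ x)) * q := by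
        rw [star_mul, star_star, hqs]
        simp only [mul_assoc]
      rw [e2]
      -- x x* is at most the norm of a squared times f f
      have h1 : IsPos ((((‖a‖ ^ 2 : ℝ)) : ℂ) • (f * f) - x * star x) := by
        have h2 : a * (f * f) * star a ≤ algebraMap ℝ M (‖a‖ ^ 2) := by
          have h3 : a * (f * f) * star a ≤ algebraMap ℝ M ‖a * (f * f) * star a‖ := by
            refine IsSelfAdjoint.le_algebraMap_norm_self ?_
            show star (a * (f * f) * star a) = _
            simp only [star_mul, star_star, hfs, mul_assoc]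
          refine h3.trans ?_
          refine algebraMap_mono M ?_
          calc ‖a * (f * f) * star a‖ ≤ ‖a‖ * (‖f‖ * ‖f‖) * ‖a‖ := by
                refine (norm_mul_le _ _).trans ?_
                rw [norm_star]
                gcongr
                refine (norm_mul_le _ _).trans ?_
                gcongr
                exact norm_mul_le _ _
            _ ≤ ‖a‖ * (1 * 1) * ‖a‖ := by gcongr
            _ = ‖a‖ ^ 2 := by ring
        have h4 := star_left_conjugate_le_conjugate h2 f
        rw [hfs] at h4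
        have e3 : x * star x = f * (a * (f * f) * star a) * f := by
          rw [hx]
          simp only [star_mul, hfs, mul_assoc]
        have e4 : (((‖a‖ ^ 2 : ℝ)) : ℂ) • (f * f) = f * algebraMap ℝ M (‖a‖ ^ 2) * f := by
          rw [Algebra.algebraMap_eq_smul_one, mul_smul_comm, smul_mul_assoc, mul_one]
          exact (Complex.coe_smul _ _)
        rw [e3, e4]
        exact isPos_of_le h4
      have h2 : IsPos ((((‖a‖ ^ 2 : ℝ)) : ℂ) • φ (f * f) - φ (x * star x)) := by
        have := RankStep.isPos_map hφ h1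
        rwa [map_sub, map_smul] at this
      have h3 := kadison hφ hφ1 x
      have h4 : IsPos ((((κ * ‖a‖ ^ 2 : ℝ)) : ℂ) • (1 : ∀ i, Matrix (Fin (n i)) (Fin (n i)) ℂ) -
          q * (φ x * star (φ x)) * q) := by
        have a1 := RankStep.isPos_smul hup' (sq_nonneg ‖a‖ : (0:ℝ) ≤ ‖a‖ ^ 2)
        have a2 := isPos_conj h2 q
        have a3 := isPos_conj h3 q
        have a4 := RankStep.isPos_add_pi (RankStep.isPos_add_pi a1 a2) a3
        have e5 : (((κ * ‖a‖ ^ 2 : ℝ)) : ℂ) • (1 : ∀ i, Matrix (Fin (n i)) (Fin (n i)) ℂ) -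
            q * (φ x * star (φ x)) * q =
            (((‖a‖ ^ 2 : ℝ)) : ℂ) • (((κ : ℝ) : ℂ) •
              (1 : ∀ i, Matrix (Fin (n i)) (Fin (n i)) ℂ) - q * φ (f * f) * q) +
            star q * ((((‖a‖ ^ 2 : ℝ)) : ℂ) • φ (f * f) - φ (x * star x)) * q +
            star q * (φ (x * star x) - φ x * star (φ x)) * q := by
          rw [hqs, Complex.ofReal_mul]
          exact alg_id q _ _ _ _ _
        rw [e5]
        exact a4
      have h5 := nonneg_of_isPos (RankStep.isPos_map hψ.cp h4)
      rw [map_sub, map_smul, sub_nonneg] at h5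
      have h6 : 0 ≤ ψ (q * (φ x * star (φ x)) * q) := by
        refine nonneg_of_isPos (RankStep.isPos_map hψ.cp ⟨star (φ x) * q, ?_⟩)
        rw [e2]
      refine (CStarAlgebra.norm_le_norm_of_nonneg_of_le h6 h5).trans ?_
      rw [norm_smul, Complex.norm_real, Real.norm_of_nonneg (by positivity), mul_pow,
        Real.sq_sqrt hκ.le]
      calc κ * ‖a‖ ^ 2 * ‖ψ 1‖ ≤ κ * ‖a‖ ^ 2 * 1 := by
            gcongr
            exact hψ.norm_one
        _ = _ := mul_one _
    intro a
    show ‖ψ (ext (cmp (φ (f * a * f)))) - ψ (φ (f * a * f))‖ ≤ _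
    rw [hec]
    have e1 : ψ (p * φ (f * a * f) * p) - ψ (φ (f * a * f)) =
        -(ψ (q * φ (f * a * f) * 1) + ψ (p * φ (f * a * f) * q)) := by
      rw [← map_sub, ← map_add, ← map_neg]
      congr 1
      rw [hq]
      noncomm_ring
    rw [e1, norm_neg]
    refine (norm_add_le _ _).trans ?_
    have b1 := main a 1 (by rw [star_one, mul_one]; exact hψ1)
    have b2 : ‖ψ (p * φ (f * a * f) * q)‖ ≤ Real.sqrt κ * ‖a‖ := by
      have b3 := main (star a) p (by rw [hps, hpp]; exact hψp)
      rw [norm_star a] at b3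
      have e6 : ψ (p * φ (f * a * f) * q) = star (ψ (q * φ (f * star a * f) * p)) := by
        rw [← RankStep.map_star_of_isCP hψ.cp]
        congr 1
        rw [star_mul, star_mul, hps, hqs, ← RankStep.map_star_of_isCP hφ]
        simp only [star_mul, star_star, hfs, mul_assoc]
      rw [e6, norm_star]
      exact b3
    linarith
  · show IsPos (ψ (φ (f * f)) - ((κ : ℝ) : ℂ) • ψ (ext 1))
    rw [hext1, ← map_smul, ← map_sub]
    exact RankStep.isPos_map hψ.cp hlow'

end Pi

end RNucLoc

open RNucLoc in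
theorem exists_nuc_local {M : Type u} [CStarAlgebra M] {d : ℕ} (hd : HasNuclearDim M d)
    (f g : M) (hf : IsPos f)
    (hf1 : ‖f‖ ≤ 1) (hg : IsPos g) (hg1 : ‖g‖ ≤ 1) (hgf : g * f = f) (S : Finset M) (ε : ℝ)
    (hε : 0 < ε) :
    ∃ (m : ℕ) (n : Fin (d + 1) → Fin m → ℕ)
      (φ : ∀ c, M →ₗ[ℂ] (∀ i, Matrix (Fin (n c i)) (Fin (n c i)) ℂ))
      (ψ : ∀ c, (∀ i, Matrix (Fin (n c i)) (Fin (n c i)) ℂ) →ₗ[ℂ] M),
      (∀ c, IsCP (φ c)) ∧ (∀ c, IsPos (1 - φ c 1)) ∧ (∀ c, IsOrderZero (ψ c)) ∧
      (∀ a ∈ S, ‖∑ c, ψ c (φ c (f * a * f)) - f * a * f‖ < ε) ∧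
      ∀ c, ‖(1 - g) * ψ c 1‖ < ε := by
  classical
  let _ := CStarAlgebra.spectralOrder M
  let _ := CStarAlgebra.spectralOrderedRing M
  have hfs : star f = f := by
    obtain ⟨y, rfl⟩ := hf
    simp
  have hgs : star g = g := by
    obtain ⟨y, rfl⟩ := hg
    simp
  have hfg : f * g = f := by
    have := congrArg star hgf
    rwa [star_mul, hfs, hgs] at this
  set A : ℝ := 1 + ∑ a ∈ S, ‖a‖ with hA
  have hSnn : 0 ≤ ∑ a ∈ S, ‖a‖ := Finset.sum_nonneg fun _ _ => norm_nonneg _
  have hA0 : 0 < A := by linarith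
  have haA : ∀ a ∈ S, ‖a‖ ≤ A := by
    intro a ha
    have := Finset.single_le_sum (f := fun a : M => ‖a‖) (fun _ _ => norm_nonneg _) ha
    linarith
  have hd0 : (0:ℝ) < (d:ℝ) + 1 := by positivity
  set s : ℝ := ε / (8 * ((d:ℝ) + 1) * A) with hs
  have hs0 : 0 < s := by positivity
  set κ : ℝ := s ^ 2 with hκd
  have hκ : 0 < κ := by positivity
  have hsκ : Real.sqrt κ = s := by rw [hκd, Real.sqrt_sq hs0.le]
  set ε' : ℝ := min (ε / 2) (κ * ε ^ 2 / 2) with hε'
  have hε'0 : 0 < ε' := lt_min (by positivity) (by positivity)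
  obtain ⟨m, n, φ, ψ, hφ, hφ1, hψ, happ⟩ :=
    hd (insert (f * f) (S.image fun a => f * a * f)) ε' hε'0
  choose r φ' ψ' h1 h2 h3 h4 h5 using fun c => colour (hφ c) (hφ1 c) (hψ c) hf hf1 hκ
  refine ⟨m, r, φ', ψ', h1, h2, h3, ?_, ?_⟩
  · intro a ha
    have b1 := happ (f * a * f) (Finset.mem_insert_of_mem (Finset.mem_image_of_mem _ ha))
    have b2 : ‖∑ c, ψ' c (φ' c (f * a * f)) - ∑ c, ψ c (φ c (f * a * f))‖ ≤ ε / 4 := by
      rw [← Finset.sum_sub_distrib]
      refine (norm_sum_le _ _).trans ?_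
      calc ∑ c : Fin (d + 1), ‖ψ' c (φ' c (f * a * f)) - ψ c (φ c (f * a * f))‖
          ≤ ∑ c : Fin (d + 1), 2 * (Real.sqrt κ * ‖a‖) := Finset.sum_le_sum fun c _ => h4 c a
        _ = ((d:ℝ) + 1) * (2 * (s * ‖a‖)) := by
            rw [Finset.sum_const, Finset.card_univ, Fintype.card_fin, nsmul_eq_mul, hsκ]
            push_cast
            ring
        _ ≤ ((d:ℝ) + 1) * (2 * (s * A)) := by
            have := haA a ha
            gcongr
        _ = ε / 4 := by
            rw [hs]
            field_simp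
            ring
    have b3 : ε' ≤ ε / 2 := min_le_left _ _
    calc ‖∑ c, ψ' c (φ' c (f * a * f)) - f * a * f‖ =
        ‖(∑ c, ψ' c (φ' c (f * a * f)) - ∑ c, ψ c (φ c (f * a * f))) +
          (∑ c, ψ c (φ c (f * a * f)) - f * a * f)‖ := by
            congr 1
            abel
      _ ≤ _ := norm_add_le _ _
      _ < ε := by linarith
  · intro c
    set T : M := ψ' c 1 with hT
    have hT0 : 0 ≤ T := nonneg_of_isPos (RankStep.isPos_map (h3 c).cp ⟨1, by simp⟩)
    have hT1 : T ≤ 1 := (CStarAlgebra.norm_le_one_iff_of_nonneg _ hT0).1 (h3 c).norm_one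
    have hTs : star T = T := (IsSelfAdjoint.of_nonneg hT0).star_eq
    have hg0 : 0 ≤ g := nonneg_of_isPos hg
    have hgle : g ≤ 1 := (CStarAlgebra.norm_le_one_iff_of_nonneg _ hg0).1 hg1
    set k : M := 1 - g with hk
    have hk0 : 0 ≤ k := sub_nonneg.2 hgle
    have hk1 : ‖k‖ ≤ 1 := by
      refine (CStarAlgebra.norm_le_one_iff_of_nonneg _ hk0).2 ?_
      rw [hk]
      exact sub_le_self _ hg0
    have hks : star k = k := (IsSelfAdjoint.of_nonneg hk0).star_eq
    have hkf : k * f = 0 := by rw [hk, sub_mul, one_mul, hgf, sub_self]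
    -- the sum over the colours
    set Z : M := ∑ c, ψ c (φ c (f * f)) with hZs
    have hff : IsPos (f * f) := ⟨f, by rw [hfs]⟩
    have hcle : ψ c (φ c (f * f)) ≤ Z := by
      refine Finset.single_le_sum (f := fun c => ψ c (φ c (f * f))) (fun c _ => ?_)
        (Finset.mem_univ c)
      exact nonneg_of_isPos (RankStep.isPos_map (hψ c).cp (RankStep.isPos_map (hφ c) hff))
    have b1 : ((κ : ℝ) : ℂ) • T ≤ Z :=
      (sub_nonneg.1 (nonneg_of_isPos (h5 c))).trans hcle
    have b2 := star_left_conjugate_le_conjugate b1 k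
    rw [hks] at b2
    have b3 : 0 ≤ k * (((κ : ℝ) : ℂ) • T) * k := by
      have e1 : ((κ : ℝ) : ℂ) • T = κ • T := Complex.coe_smul _ _
      rw [e1]
      have := star_left_conjugate_nonneg (smul_nonneg hκ.le hT0) k
      rwa [hks] at this
    have b4 := CStarAlgebra.norm_le_norm_of_nonneg_of_le b3 b2
    have b5 : ‖k * Z * k‖ ≤ ε' := by
      have e2 : k * Z * k = k * (Z - f * f) * k := by
        rw [mul_sub k Z (f * f), ← mul_assoc k f f, hkf, zero_mul, sub_zero]
      rw [e2]
      have b6 := (happ (f * f) (Finset.mem_insert_self _ _)).le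
      calc ‖k * (Z - f * f) * k‖ ≤ ‖k‖ * ‖Z - f * f‖ * ‖k‖ :=
            (norm_mul_le _ _).trans (by gcongr; exact norm_mul_le _ _)
        _ ≤ 1 * ε' * 1 := by gcongr
        _ = ε' := by ring
    have b7 : κ * ‖k * T * k‖ ≤ ε' := by
      have e3 : k * (((κ : ℝ) : ℂ) • T) * k = ((κ : ℝ) : ℂ) • (k * T * k) := by
        rw [mul_smul_comm, smul_mul_assoc]
      rw [e3, norm_smul, Complex.norm_real, Real.norm_of_nonneg hκ.le] at b4
      exact b4.trans b5
    -- pass to the square
    have b8 : T * T ≤ T := by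
      have c1 : 0 ≤ T * (1 - T) := by
        refine Commute.mul_nonneg hT0 (sub_nonneg.2 hT1) ?_
        exact (Commute.one_right T).sub_right (Commute.refl T)
      rw [mul_sub, mul_one, sub_nonneg] at c1
      exact c1
    have b9 := star_left_conjugate_le_conjugate b8 k
    rw [hks] at b9
    have b10 : k * (T * T) * k = (k * T) * star (k * T) := by
      rw [star_mul, hTs, hks]
      simp only [mul_assoc]
    rw [b10] at b9
    have b11 := CStarAlgebra.norm_le_norm_of_nonneg_of_le (mul_star_self_nonneg _) b9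
    rw [CStarRing.norm_self_mul_star, ← pow_two] at b11
    have b12 : κ * ‖k * T‖ ^ 2 ≤ ε' := (mul_le_mul_of_nonneg_left b11 hκ.le).trans b7
    have b13 : ε' ≤ κ * ε ^ 2 / 2 := min_le_right _ _
    have b14 : κ * ‖k * T‖ ^ 2 < κ * ε ^ 2 := by
      have : 0 < κ * ε ^ 2 := by positivity
      linarith
    have b15 : ‖k * T‖ ^ 2 < ε ^ 2 := lt_of_mul_lt_mul_left b14 hκ.le
    exact lt_of_pow_lt_pow_left₀ 2 hε.le b15

end Vale.Agent.P095.NU
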