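import Vale.Agent.P095.NU.Defs
import Vale.Agent.P095.OZData
import Vale.Agent.P095.FreeFam

/-!
# P095, target T7, row G18: matrix units under a small tolerance, commuting copies from free copies
-/

open Filter Topology TopologicalSpace
open scoped BoundedContinuousFunction ComplexOrder

namespace Vale.Agent.P095.NU

open Vale.Agent.P101

theorem exists_oz_data_of_char {B : Type*} [CStarAlgebra B] (hcc : HasCommutingCopies B)
    (hchar : IsEmpty (B →⋆ₐ[ℂ] ℂ)) (N : ℕ) (hN : 0 < N) (ε : ℝ) (hε : 0 < ε) :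
    ∃ (t : B) (v : Fin N → B) (u : Fin (N + 1) → B),
      (∀ i, ‖v i‖ ≤ 1) ∧ (∀ j, ‖u j‖ ≤ 1) ∧ ‖t‖ ≤ 1 ∧
      (∀ i i', star (v i) * v i' = if i = i' then t else 0) ∧
      ‖∑ j, star (u j) * t * u j - 1‖ ≤ ε := by
  let _ := CStarAlgebra.spectralOrder B
  have _ := CStarAlgebra.spectralOrderedRing B
  obtain ⟨n, rfl⟩ : ∃ n, N = n + 1 := ⟨N - 1, by omega⟩
  obtain ⟨ψ, s, hψ, hs, hs'⟩ := exists_small_defect hcc (exists_orthogonal_full hcc hchar) n
  obtain ⟨t, v, u, h1, h2, h3, h4, h5⟩ := OZData.main hψ hs hs' (min ε 1)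
    (lt_min hε one_pos) (min_le_right _ _)
  exact ⟨t, v, u, h1, h2, h3, h4, h5.trans (min_le_left _ _)⟩

theorem hasCommutingCopies_of_free {G : Type*} [Group G] [Countable G] {B : Type*}
    [CStarAlgebra B] {β : G →* (B ≃⋆ₐ[ℂ] B)} (hf : HasFreeCopies β) : HasCommutingCopies B := by
  intro S hS hsep
  have hX : ∀ g, ∀ x ∈ (⋃ g, (β g) '' (S : Set B)), β g x ∈ ⋃ g, (β g) '' (S : Set B) := by
    intro g x hx
    obtain ⟨h, y, hy, rfl⟩ := Set.mem_iUnion.1 hx
    exact Set.mem_iUnion.2 ⟨g * h, y, hy, by rw [map_mul]; rfl⟩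
  have hsub : S ≤ cgen (⋃ g, (β g) '' (S : Set B)) := fun x hx =>
    subset_cgen _ (Set.mem_iUnion.2 ⟨1, x, hx, by rw [map_one]; rfl⟩)
  obtain ⟨Φ, h1, -, -⟩ := hf (cgen (⋃ g, (β g) '' (S : Set B))) (isClosed_cgen _)
    (isSeparable_cgen (IsSeparable.iUnion fun g => hsep.image (continuous_act β g)))
    (cgen_invariant β hX)
  exact ⟨Φ.comp (StarSubalgebra.inclusion hsub), fun x y =>
    h1 (StarSubalgebra.inclusion hsub x) (StarSubalgebra.inclusion hsub y)⟩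

end Vale.Agent.P095.NU
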