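import Vale.Agent.P095.NU.RRankOf
import Vale.Agent.P095.NU.RDecomp
import Vale.Agent.P095.NU.RNucLoc
import Vale.Agent.P095.BlockSplit
import Vale.Agent.P095.OZCalc

/-!
# P095, T7: elements of small trace, localised (row G17)
-/

open Filter Topology TopologicalSpace
open scoped BoundedContinuousFunction ComplexOrder

namespace Vale.Agent.P095.NU

open Vale.Agent.P101

universe u v w

variable {M : Type u} [CStarAlgebra M] {A : Set M}

/-- [G17] -/
theorem exists_rank_small_rel {d : ℕ} (hd : HasNuclearDim M d) {k : ℕ → M} (hk : IsCh A k)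
    (N : ℕ) (hN : 0 < N) (ε : ℝ) (hε : 0 < ε) :
    ∃ η : ℝ, 0 < η ∧ ∀ E : M, IsPos E → ‖E‖ ≤ 1 →
      (∀ τ : M →ₗ[ℂ] ℂ, IsLTrace (k 1) τ →
        (τ (k 3 * E * k 3)).re ≤ η * (τ (k 3 * k 3)).re) →
      ∃ z : Fin (d + 1) → Fin N → M, (∀ j j', ‖∑ c, star (z c j) * z c j' -
        (if j = j' then k 4 * E * k 4 * (k 4 * E * k 4) else 0)‖ ≤ ε) ∧
        ∀ c j, ‖k 0 * z c j - z c j‖ ≤ ε :=
  exists_rank_small_rel_of (A := A)
    (fun hk E hE hE1 η η' h0 hη h ε hε => exists_cp_decomp_rel hk E hE hE1 η η' h0 hη h ε hε)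
    (fun hd f g hf hf1 hg hg1 hgf S ε hε => exists_nuc_local hd f g hf hf1 hg hg1 hgf S ε hε)
    (fun hN Q hQ κ ε hε hκ h => exists_block_split hN Q hQ κ ε hε hκ h)
    (fun ψ hψ X δ hδ => exists_oz_unit ψ hψ X δ hδ) hd hk N hN ε hε

end Vale.Agent.P095.NU
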