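import Vale.Agent.P095.NU.Defs
import Vale.Agent.P095.RankStepOf

/-!
# P095, T7: elements of small trace, localised (row G17)
-/

open Filter Topology TopologicalSpace
open scoped BoundedContinuousFunction ComplexOrder

namespace Vale.Agent.P095.NU

open Vale.Agent.P101 Vale.Agent.P095.RankStep

universe u v w

namespace RRank

/-! ### positivity in finite-dimensional algebras -/

open scoped MatrixOrder in
open scoped Matrix.Norms.L2Operator in
theorem isPos_flip_mat {n : ℕ} {T : Matrix (Fin n) (Fin n) ℂ} {κ : ℝ} (hκ : 0 ≤ κ)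
    (h : IsPos (((κ : ℝ) : ℂ) • (1 : Matrix (Fin n) (Fin n) ℂ) - star T * T)) :
    IsPos (((κ : ℝ) : ℂ) • (1 : Matrix (Fin n) (Fin n) ℂ) - T * star T) := by
  have h1 : (0 : Matrix (Fin n) (Fin n) ℂ) ≤
      ((κ : ℝ) : ℂ) • (1 : Matrix (Fin n) (Fin n) ℂ) - star T * T :=
    CStarAlgebra.nonneg_iff_eq_star_mul_self.2 h
  have h2 : star T * T ≤ algebraMap ℝ (Matrix (Fin n) (Fin n) ℂ) κ := by
    have e : algebraMap ℝ (Matrix (Fin n) (Fin n) ℂ) κ =
        ((κ : ℝ) : ℂ) • (1 : Matrix (Fin n) (Fin n) ℂ) := by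
      rw [Algebra.algebraMap_eq_smul_one, Complex.coe_smul]
    rw [e]
    exact sub_nonneg.1 h1
  have h3 : ‖star T * T‖ ≤ κ := by
    rcases eq_or_ne n 0 with h0 | h0
    · subst h0
      have : star T * T = 0 := by
        ext i
        exact Fin.elim0 i
      rw [this, norm_zero]
      exact hκ
    · exact (CStarAlgebra.norm_le_iff_le_algebraMap _ hκ (star_mul_self_nonneg T)).2 h2
  have h4 : ‖T * star T‖ ≤ κ := by
    rw [CStarRing.norm_self_mul_star, ← CStarRing.norm_star_mul_self]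
    exact h3
  have h5 := (CStarAlgebra.norm_le_iff_le_algebraMap _ hκ (mul_star_self_nonneg T)).1 h4
  have e : algebraMap ℝ (Matrix (Fin n) (Fin n) ℂ) κ =
      ((κ : ℝ) : ℂ) • (1 : Matrix (Fin n) (Fin n) ℂ) := by
    rw [Algebra.algebraMap_eq_smul_one, Complex.coe_smul]
  rw [e] at h5
  exact CStarAlgebra.nonneg_iff_eq_star_mul_self.1 (sub_nonneg.2 h5)

theorem isPos_flip {m : ℕ} {n : Fin m → ℕ} {T : ∀ b, Matrix (Fin (n b)) (Fin (n b)) ℂ} {κ : ℝ}
    (hκ : 0 ≤ κ)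
    (h : IsPos (((κ : ℝ) : ℂ) • (1 : ∀ b, Matrix (Fin (n b)) (Fin (n b)) ℂ) - star T * T)) :
    IsPos (((κ : ℝ) : ℂ) • (1 : ∀ b, Matrix (Fin (n b)) (Fin (n b)) ℂ) - T * star T) := by
  obtain ⟨y, hy⟩ := h
  choose Z hZ using fun b => isPos_flip_mat (T := T b) hκ ⟨y b, congrFun hy b⟩
  exact ⟨Z, funext hZ⟩

theorem isPos_zero_pi {m : ℕ} {n : Fin m → ℕ} :
    IsPos (0 : ∀ b, Matrix (Fin (n b)) (Fin (n b)) ℂ) := ⟨0, by simp⟩

theorem isPos_sum_pi {m : ℕ} {n : Fin m → ℕ} {ι : Type*} (s : Finset ι)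
    {x : ι → ∀ b, Matrix (Fin (n b)) (Fin (n b)) ℂ} (h : ∀ i ∈ s, IsPos (x i)) :
    IsPos (∑ i ∈ s, x i) := by
  classical
  induction s using Finset.induction_on with
  | empty => rw [Finset.sum_empty]; exact isPos_zero_pi
  | insert a s ha ih =>
    rw [Finset.sum_insert ha]
    exact isPos_add_pi (h a (Finset.mem_insert_self _ _))
      (ih fun i hi => h i (Finset.mem_insert_of_mem hi))

theorem isPos_diag {m k : ℕ} {n : Fin m → ℕ}
    {Q : Matrix (Fin k) (Fin k) (∀ b, Matrix (Fin (n b)) (Fin (n b)) ℂ)} (h : IsPos Q)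
    (i : Fin k) : IsPos (Q i i) := by
  obtain ⟨Z, rfl⟩ := h
  rw [Matrix.mul_apply]
  refine isPos_sum_pi _ fun p _ => ?_
  rw [Matrix.star_apply]
  exact ⟨Z p i, rfl⟩

/-! ### one colour -/

section Colour

variable {A : Type u} [CStarAlgebra A]

theorem colour {m k N : ℕ} {n : Fin m → ℕ}
    (hblock : ∀ (Q : Matrix (Fin k) (Fin k) (∀ b, Matrix (Fin (n b)) (Fin (n b)) ℂ)), IsPos Q →
      ∀ (κ ε : ℝ), 0 < ε → (N : ℝ) * κ ≤ ε →
      IsPos (((κ : ℝ) : ℂ) • (1 : ∀ b, Matrix (Fin (n b)) (Fin (n b)) ℂ) - ∑ i, Q i i) →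
      ∃ (T : Fin N → Fin k → ∀ b, Matrix (Fin (n b)) (Fin (n b)) ℂ)
        (Q' : Matrix (Fin k) (Fin k) (∀ b, Matrix (Fin (n b)) (Fin (n b)) ℂ)), IsPos (Q - Q') ∧
        IsPos (((ε : ℝ) : ℂ) • (1 : Matrix (Fin k) (Fin k)
          (∀ b, Matrix (Fin (n b)) (Fin (n b)) ℂ)) - (Q - Q')) ∧
        ∀ j j' i i', star (T j i) * T j' i' = if j = j' then Q' i i' else 0)
    (φ : A →ₗ[ℂ] (∀ b, Matrix (Fin (n b)) (Fin (n b)) ℂ))
    (ψ : (∀ b, Matrix (Fin (n b)) (Fin (n b)) ℂ) →ₗ[ℂ] A)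
    (hoz : ∀ (X : Finset (∀ b, Matrix (Fin (n b)) (Fin (n b)) ℂ)) (δ : ℝ), 0 < δ →
      ∃ g : A, IsSelfAdjoint g ∧ (∀ x, Commute g (ψ x)) ∧
        ∀ x ∈ X, ‖g * g * ψ 1 * ψ x - ψ x‖ ≤ δ)
    (hφ : IsCP φ) (hφ1 : IsPos (1 - φ 1)) (hψ : IsOrderZero ψ) (y : Fin k → A) {η' ε1 δ : ℝ}
    (hη' : 0 ≤ η') (hy : IsPos (((η' : ℝ) : ℂ) • (1 : A) - ∑ i, y i * star (y i)))
    (hε1 : 0 < ε1) (hN : (N : ℝ) * η' ≤ ε1) (hδ : 0 < δ)
    (p : A) (hp : IsSelfAdjoint p) (hp1 : ‖p‖ ≤ 1) {ε2 : ℝ} (hpψ : ‖p * ψ 1‖ ≤ ε2) :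
    ∃ z : Fin N → A, (∀ j j', ‖star (z j) * z j' - (if j = j' then
      quad (Matrix.of fun i i' => ψ (φ (y i * star (y i')))) y else 0)‖ ≤
      (∑ i, ‖y i‖) ^ 2 * δ + ε1 * ‖∑ i, star (y i) * y i‖) ∧
      ∀ j, ‖p * z j‖ ≤ (∑ i, ‖y i‖) * √(η' * ε2 + δ) := by
  classical
  let _ := CStarAlgebra.spectralOrder A
  let _ := CStarAlgebra.spectralOrderedRing A
  let F := ∀ b, Matrix (Fin (n b)) (Fin (n b)) ℂ
  let G : Matrix (Fin k) (Fin k) A := Matrix.of fun i i' => y i * star (y i')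
  let Q : Matrix (Fin k) (Fin k) F := G.map φ
  have hQ : IsPos Q := hφ k G (isPos_gram y)
  have hQs : ∑ i, Q i i = φ (∑ i, y i * star (y i)) := by
    rw [map_sum]
    rfl
  have hQ1 : IsPos (((η' : ℝ) : ℂ) • (1 : F) - ∑ i, Q i i) := by
    have h1 := isPos_map hφ hy
    rw [map_sub, map_smul, ← hQs] at h1
    have h2 := isPos_smul hφ1 hη'
    have h3 := isPos_add_pi h1 h2
    have h4 : ((η' : ℝ) : ℂ) • φ 1 - ∑ i, Q i i + ((η' : ℝ) : ℂ) • (1 - φ 1) =
        ((η' : ℝ) : ℂ) • (1 : F) - ∑ i, Q i i := by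
      rw [smul_sub]
      abel
    rw [h4] at h3
    exact h3
  obtain ⟨T, Q', hT1, hT2, hT3⟩ := hblock Q hQ η' ε1 hε1 hN hQ1
  obtain ⟨g, hg1, hg2, hg3⟩ := hoz
    ((Finset.univ.image fun p : Fin k × Fin k => Q' p.1 p.2) ∪
      Finset.univ.image fun p : Fin N × Fin k => T p.1 p.2 * star (T p.1 p.2)) δ hδ
  have hg3' : ∀ i i', ‖g * g * ψ 1 * ψ (Q' i i') - ψ (Q' i i')‖ ≤ δ := fun i i' =>
    hg3 _ (Finset.mem_union_left _ (Finset.mem_image.2 ⟨(i, i'), Finset.mem_univ _, rfl⟩))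
  have hg4 : ∀ j i, ‖g * g * ψ 1 * ψ (T j i * star (T j i)) - ψ (T j i * star (T j i))‖ ≤ δ :=
    fun j i => hg3 _ (Finset.mem_union_right _
      (Finset.mem_image.2 ⟨(j, i), Finset.mem_univ _, rfl⟩))
  -- the order of `ψ 1`
  have hψ1 : ψ 1 ≤ 1 := by
    obtain ⟨x, hx⟩ := isPos_map hψ.cp (x := (1 : F)) ⟨1, by rw [star_one, one_mul]⟩
    have h0 : 0 ≤ ψ 1 := by
      rw [hx]
      exact star_mul_self_nonneg x
    exact (CStarAlgebra.norm_le_one_iff_of_nonneg _ h0).1 hψ.norm_one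
  -- the size of `T`
  have hTT : ∀ j i, IsPos (((η' : ℝ) : ℂ) • (1 : F) - T j i * star (T j i)) := by
    intro j i
    refine isPos_flip hη' ?_
    have h1 := hT3 j j i i
    rw [if_pos rfl] at h1
    rw [h1]
    have h2 : IsPos (Q i i - Q' i i) := isPos_diag hT1 i
    have h3 : IsPos (∑ l ∈ Finset.univ.erase i, Q l l) :=
      isPos_sum_pi _ fun l _ => isPos_diag hQ l
    have h4 := isPos_add_pi (isPos_add_pi hQ1 h3) h2
    have h5 : ((η' : ℝ) : ℂ) • (1 : F) - ∑ l, Q l l + ∑ l ∈ Finset.univ.erase i, Q l l +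
        (Q i i - Q' i i) = ((η' : ℝ) : ℂ) • (1 : F) - Q' i i := by
      rw [← Finset.add_sum_erase Finset.univ (fun l => Q l l) (Finset.mem_univ i)]
      abel
    rw [h5] at h4
    exact h4
  -- the error of the splitting
  set b : A := ∑ i, star (y i) * y i with hb
  have hE : ‖quad ((Q - Q').map ψ) y‖ ≤ ε1 * ‖b‖ := by
    obtain ⟨w, hw⟩ := isPos_quad (hψ.cp k _ hT1) y
    obtain ⟨w', hw'⟩ := isPos_quad (hψ.cp k _ hT2) y
    have h0 : 0 ≤ quad ((Q - Q').map ψ) y := by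
      rw [hw]
      exact Finset.sum_nonneg fun p _ => star_mul_self_nonneg _
    have h0' : 0 ≤ quad ((((ε1 : ℝ) : ℂ) • (1 : Matrix (Fin k) (Fin k) F) -
        (Q - Q')).map ψ) y := by
      rw [hw']
      exact Finset.sum_nonneg fun p _ => star_mul_self_nonneg _
    have h1 : (((ε1 : ℝ) : ℂ) • (1 : Matrix (Fin k) (Fin k) F) - (Q - Q')).map ψ =
        (((ε1 : ℝ) : ℂ) • (1 : Matrix (Fin k) (Fin k) F)).map ψ - (Q - Q').map ψ := by
      ext i i'
      simp only [Matrix.map_apply, Matrix.sub_apply, map_sub]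
    have h2 : quad ((((ε1 : ℝ) : ℂ) • (1 : Matrix (Fin k) (Fin k) F)).map ψ) y =
        ((ε1 : ℝ) : ℂ) • ∑ i, star (y i) * ψ 1 * y i := by
      unfold quad
      rw [Finset.smul_sum]
      refine Finset.sum_congr rfl fun i _ => ?_
      rw [Finset.sum_eq_single i]
      · rw [Matrix.map_apply, Matrix.smul_apply, Matrix.one_apply_eq, map_smul, mul_smul_comm,
          smul_mul_assoc]
      · intro i' _ hne
        rw [Matrix.map_apply, Matrix.smul_apply, Matrix.one_apply_ne (Ne.symm hne), smul_zero,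
          map_zero, mul_zero, zero_mul]
      · intro h
        exact absurd (Finset.mem_univ _) h
    rw [h1, quad_sub, h2, sub_nonneg] at h0'
    have h3 : ∑ i, star (y i) * ψ 1 * y i ≤ b := by
      rw [hb]
      refine Finset.sum_le_sum fun i _ => ?_
      have h4 := star_left_conjugate_le_conjugate hψ1 (y i)
      rw [mul_one] at h4
      exact h4
    have h5 : ((ε1 : ℝ) : ℂ) • ∑ i, star (y i) * ψ 1 * y i ≤ ((ε1 : ℝ) : ℂ) • b := by
      rw [← sub_nonneg, ← smul_sub]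
      obtain ⟨x, hx⟩ := CStarAlgebra.nonneg_iff_eq_star_mul_self.1 (sub_nonneg.2 h3)
      obtain ⟨x', hx'⟩ := isPos_smul (F := A) ⟨x, hx⟩ hε1.le
      rw [hx']
      exact star_mul_self_nonneg x'
    have h6 := CStarAlgebra.norm_le_norm_of_nonneg_of_le h0 (h0'.trans h5)
    rw [norm_smul, Complex.norm_real, Real.norm_eq_abs, abs_of_pos hε1] at h6
    exact h6
  -- the localisation
  have hloc : ∀ j i, ‖p * (g * ψ (T j i))‖ ≤ √(η' * ε2 + δ) := by
    intro j i
    set t := T j i with ht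
    set P : A := ψ (t * star t) with hP
    have e1 : (g * ψ t) * star (g * ψ t) = g * g * ψ 1 * P := by
      have h1 := (hg2 t).eq
      have h1' := (hg2 (star t)).eq
      have h2 := hψ.mul t (star t)
      calc (g * ψ t) * star (g * ψ t) = g * ψ t * (ψ (star t) * g) := by
            rw [star_mul, hg1.star_eq, map_star_of_isCP hψ.cp]
        _ = g * ψ t * (g * ψ (star t)) := by rw [h1']
        _ = g * (ψ t * g) * ψ (star t) := by noncomm_ring
        _ = g * (g * ψ t) * ψ (star t) := by rw [h1]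
        _ = g * g * (ψ t * ψ (star t)) := by noncomm_ring
        _ = g * g * (ψ 1 * P) := by rw [h2]
        _ = _ := by noncomm_ring
    have hP0 : 0 ≤ P := by
      obtain ⟨x, hx⟩ := isPos_map hψ.cp (x := t * star t) ⟨star t, by rw [star_star]⟩
      rw [hP, hx]
      exact star_mul_self_nonneg x
    have hP1 : P ≤ ((η' : ℝ) : ℂ) • ψ 1 := by
      obtain ⟨x, hx⟩ := isPos_map hψ.cp (hTT j i)
      rw [map_sub, map_smul] at hx
      rw [← sub_nonneg, hx]
      exact star_mul_self_nonneg x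
    have h1 : ‖p * P * p‖ ≤ η' * ε2 := by
      have h2 : 0 ≤ p * P * p := by
        have h3 := star_left_conjugate_nonneg hP0 p
        rwa [hp.star_eq] at h3
      have h4 : p * P * p ≤ p * (((η' : ℝ) : ℂ) • ψ 1) * p := by
        have h3 := star_left_conjugate_le_conjugate hP1 p
        rwa [hp.star_eq] at h3
      refine (CStarAlgebra.norm_le_norm_of_nonneg_of_le h2 h4).trans ?_
      rw [mul_smul_comm, smul_mul_assoc, norm_smul, Complex.norm_real, Real.norm_eq_abs,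
        abs_of_nonneg hη']
      refine mul_le_mul_of_nonneg_left ?_ hη'
      refine (norm_mul_le _ _).trans ?_
      calc ‖p * ψ 1‖ * ‖p‖ ≤ ‖p * ψ 1‖ * 1 := by gcongr
        _ ≤ ε2 := by rw [mul_one]; exact hpψ
    have h2 : ‖p * (g * ψ t)‖ ^ 2 ≤ η' * ε2 + δ := by
      have h3 : ‖p * (g * ψ t)‖ ^ 2 = ‖p * (g * g * ψ 1 * P) * p‖ := by
        rw [pow_two, ← CStarRing.norm_self_mul_star, star_mul, hp.star_eq, ← e1]
        congr 1
        noncomm_ring
      have h4 : p * (g * g * ψ 1 * P) * p = p * (g * g * ψ 1 * P - P) * p + p * P * p := by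
        noncomm_ring
      rw [h3, h4]
      have h5 : ‖p * (g * g * ψ 1 * P - P) * p‖ ≤ δ := by
        calc ‖p * (g * g * ψ 1 * P - P) * p‖ ≤ ‖p‖ * ‖g * g * ψ 1 * P - P‖ * ‖p‖ :=
              (norm_mul_le _ _).trans
                (mul_le_mul_of_nonneg_right (norm_mul_le _ _) (norm_nonneg _))
          _ ≤ 1 * δ * 1 := by
              gcongr
              exact hg4 j i
          _ = δ := by ring
      linarith [norm_add_le (p * (g * g * ψ 1 * P - P) * p) (p * P * p)]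
    exact Real.le_sqrt_of_sq_le h2
  refine ⟨fun j => ∑ i, g * ψ (T j i) * y i, fun j j' => ?_, fun j => ?_⟩
  · -- the product
    have hprod : star (∑ i, g * ψ (T j i) * y i) * (∑ i, g * ψ (T j' i) * y i) =
        quad (Matrix.of fun i i' => g * g * ψ 1 * ψ (if j = j' then Q' i i' else 0)) y := by
      unfold quad
      rw [star_sum, Finset.sum_mul]
      refine Finset.sum_congr rfl fun i _ => ?_
      rw [Finset.mul_sum]
      refine Finset.sum_congr rfl fun i' _ => ?_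
      rw [Matrix.of_apply, ← hT3 j j' i i']
      have h1 := (hg2 (star (T j i))).eq
      have h2 := hψ.mul (star (T j i)) (T j' i')
      calc star (g * ψ (T j i) * y i) * (g * ψ (T j' i') * y i')
          = star (y i) * (ψ (star (T j i)) * g) * (g * ψ (T j' i')) * y i' := by
            rw [star_mul, star_mul, hg1.star_eq, map_star_of_isCP hψ.cp]
            noncomm_ring
        _ = star (y i) * (g * ψ (star (T j i))) * (g * ψ (T j' i')) * y i' := by rw [h1]
        _ = star (y i) * (g * (ψ (star (T j i)) * g) * ψ (T j' i')) * y i' := by noncomm_ring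
        _ = star (y i) * (g * (g * ψ (star (T j i))) * ψ (T j' i')) * y i' := by rw [h1]
        _ = star (y i) * (g * g * (ψ (star (T j i)) * ψ (T j' i'))) * y i' := by noncomm_ring
        _ = star (y i) * (g * g * (ψ 1 * ψ (star (T j i) * T j' i'))) * y i' := by rw [h2]
        _ = _ := by noncomm_ring
    by_cases hj : j = j'
    · rw [if_pos hj]
      simp only [if_pos hj] at hprod
      simp only
      rw [hprod]
      have h1 : quad (Matrix.of fun i i' => g * g * ψ 1 * ψ (Q' i i')) y -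
          quad (Matrix.of fun i i' => ψ (φ (y i * star (y i')))) y =
          quad (Matrix.of fun i i' => g * g * ψ 1 * ψ (Q' i i') - ψ (Q' i i')) y -
            quad ((Q - Q').map ψ) y := by
        rw [← quad_sub, ← quad_sub]
        congr 1
        ext i i'
        simp only [Matrix.sub_apply, Matrix.of_apply, Matrix.map_apply, map_sub]
        change _ = _ - (ψ (φ (y i * star (y i'))) - ψ (Q' i i'))
        abel
      rw [h1]
      refine (norm_sub_le _ _).trans (add_le_add ?_ hE)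
      exact norm_quad_le _ y fun i i' => hg3' i i'
    · rw [if_neg hj]
      simp only [if_neg hj, map_zero, mul_zero] at hprod
      simp only
      have h1 : quad (Matrix.of fun _ _ => (0 : A)) y = 0 := by
        unfold quad
        simp
      rw [hprod, h1, sub_zero, norm_zero]
      positivity
  · rw [Finset.mul_sum, Finset.sum_mul]
    refine (norm_sum_le _ _).trans (Finset.sum_le_sum fun i _ => ?_)
    have e : p * (g * ψ (T j i) * y i) = p * (g * ψ (T j i)) * y i := by noncomm_ring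
    rw [e, mul_comm ‖y i‖]
    exact (norm_mul_le _ _).trans (mul_le_mul_of_nonneg_right (hloc j i) (norm_nonneg _))

end Colour

end RRank

open RRank

variable {M : Type u} [CStarAlgebra M] {A : Set M}

/-- [G17], from the rows G15 and G16. -/
theorem exists_rank_small_rel_of
    (hcp : ∀ {k : ℕ → M} (_ : IsCh A k) (E : M) (_ : IsPos E)
      (_ : ‖E‖ ≤ 1) (η η' : ℝ) (_ : 0 ≤ η) (_ : η < η')
      (_ : ∀ τ : M →ₗ[ℂ] ℂ, IsLTrace (k 1) τ →
        (τ (k 3 * E * k 3)).re ≤ η * (τ (k 3 * k 3)).re) (ε : ℝ) (_ : 0 < ε),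
      ∃ (n : ℕ) (y : Fin n → M), ‖k 4 * E * k 4 - ∑ i, star (y i) * y i‖ ≤ ε ∧
        IsPos (((η' : ℝ) : ℂ) • (1 : M) - ∑ i, y i * star (y i)) ∧ ∀ i, k 1 * y i = y i)
    (hnuc : ∀ {d : ℕ} (_ : HasNuclearDim M d) (f g : M) (_ : IsPos f)
      (_ : ‖f‖ ≤ 1) (_ : IsPos g) (_ : ‖g‖ ≤ 1) (_ : g * f = f) (S : Finset M) (ε : ℝ)
      (_ : 0 < ε),
      ∃ (m : ℕ) (n : Fin (d + 1) → Fin m → ℕ)
        (φ : ∀ c, M →ₗ[ℂ] (∀ i, Matrix (Fin (n c i)) (Fin (n c i)) ℂ))
        (ψ : ∀ c, (∀ i, Matrix (Fin (n c i)) (Fin (n c i)) ℂ) →ₗ[ℂ] M),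
        (∀ c, IsCP (φ c)) ∧ (∀ c, IsPos (1 - φ c 1)) ∧ (∀ c, IsOrderZero (ψ c)) ∧
        (∀ a ∈ S, ‖∑ c, ψ c (φ c (f * a * f)) - f * a * f‖ < ε) ∧
        ∀ c, ‖(1 - g) * ψ c 1‖ < ε)
    (hblock : ∀ {m k N : ℕ} {n : Fin m → ℕ}, 0 < N →
      ∀ (Q : Matrix (Fin k) (Fin k) (∀ b, Matrix (Fin (n b)) (Fin (n b)) ℂ)), IsPos Q →
      ∀ (κ ε : ℝ), 0 < ε → (N : ℝ) * κ ≤ ε →
      IsPos (((κ : ℝ) : ℂ) • (1 : ∀ b, Matrix (Fin (n b)) (Fin (n b)) ℂ) - ∑ i, Q i i) →
      ∃ (T : Fin N → Fin k → ∀ b, Matrix (Fin (n b)) (Fin (n b)) ℂ)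
        (Q' : Matrix (Fin k) (Fin k) (∀ b, Matrix (Fin (n b)) (Fin (n b)) ℂ)), IsPos (Q - Q') ∧
        IsPos (((ε : ℝ) : ℂ) • (1 : Matrix (Fin k) (Fin k)
          (∀ b, Matrix (Fin (n b)) (Fin (n b)) ℂ)) - (Q - Q')) ∧
        ∀ j j' i i', star (T j i) * T j' i' = if j = j' then Q' i i' else 0)
    (hoz : ∀ {m : ℕ} {n : Fin m → ℕ} (ψ : (∀ b, Matrix (Fin (n b)) (Fin (n b)) ℂ) →ₗ[ℂ] M),
      IsOrderZero ψ → ∀ (X : Finset (∀ b, Matrix (Fin (n b)) (Fin (n b)) ℂ)) (δ : ℝ), 0 < δ →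
      ∃ g : M, IsSelfAdjoint g ∧ (∀ x, Commute g (ψ x)) ∧
        ∀ x ∈ X, ‖g * g * ψ 1 * ψ x - ψ x‖ ≤ δ)
    {d : ℕ} (hd : HasNuclearDim M d) {k : ℕ → M} (hk : IsCh A k)
    (N : ℕ) (hN : 0 < N) (ε : ℝ) (hε : 0 < ε) :
    ∃ η : ℝ, 0 < η ∧ ∀ E : M, IsPos E → ‖E‖ ≤ 1 →
      (∀ τ : M →ₗ[ℂ] ℂ, IsLTrace (k 1) τ →
        (τ (k 3 * E * k 3)).re ≤ η * (τ (k 3 * k 3)).re) →
      ∃ z : Fin (d + 1) → Fin N → M, (∀ j j', ‖∑ c, star (z c j) * z c j' -
        (if j = j' then k 4 * E * k 4 * (k 4 * E * k 4) else 0)‖ ≤ ε) ∧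
        ∀ c j, ‖k 0 * z c j - z c j‖ ≤ ε := by
  classical
  have hNr : (0 : ℝ) < N := by exact_mod_cast hN
  have hdr : (0 : ℝ) < (d : ℝ) + 1 := by positivity
  set ε1 : ℝ := ε / (8 * ((d : ℝ) + 1)) with hε1def
  have hε1 : 0 < ε1 := by positivity
  refine ⟨ε1 / (2 * N), by positivity, fun E hE hE1 htr => ?_⟩
  set ε0 : ℝ := min 1 (ε / 12) with hε0def
  have hε0 : 0 < ε0 := by positivity
  have hηη : ε1 / (2 * N) < ε1 / N := by
    rw [div_lt_div_iff₀ (by positivity) hNr]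
    nlinarith
  obtain ⟨n0, y, hy1, hy2, hy3⟩ := hcp hk E hE hE1 (ε1 / (2 * N)) (ε1 / N) (by positivity)
    hηη htr ε0 hε0
  set a : M := k 4 * E * k 4 with ha
  have ha1 : ‖a‖ ≤ 1 := by
    calc ‖k 4 * E * k 4‖ ≤ ‖k 4‖ * ‖E‖ * ‖k 4‖ :=
          (norm_mul_le _ _).trans (mul_le_mul_of_nonneg_right (norm_mul_le _ _) (norm_nonneg _))
      _ ≤ 1 * 1 * 1 := by
          gcongr
          · exact hk.le 4
          · exact hk.le 4
      _ = 1 := by norm_num
  set b : M := ∑ i, star (y i) * y i with hb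
  set S : ℝ := ∑ i, ‖y i‖ with hS
  have hS0 : 0 ≤ S := Finset.sum_nonneg fun i _ => norm_nonneg _
  set κ : ℝ := ε1 / N with hκdef
  have hκ : 0 < κ := by positivity
  set δ' : ℝ := ε / (8 * (S ^ 2 + 1)) with hδ'def
  have hδ' : 0 < δ' := by positivity
  set ε2 : ℝ := ε ^ 2 / (8 * (S ^ 2 + 1) * (κ + 1)) with hε2def
  have hε2 : 0 < ε2 := by positivity
  have sa : ∀ i, IsSelfAdjoint (k i) := fun i => by
    obtain ⟨x, hx⟩ := hk.pos i
    rw [hx]
    exact IsSelfAdjoint.star_mul_self x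
  have hyk : ∀ i, star (y i) * k 1 = star (y i) := fun i => by
    have h1 := congrArg star (hy3 i)
    rwa [star_mul, (sa 1).star_eq] at h1
  obtain ⟨m, n, φ, ψ, hφ, hφ1, hψ, happ, hloc⟩ := hnuc hd (k 1) (k 0) (hk.pos 1) (hk.le 1)
    (hk.pos 0) (hk.le 0) (hk.unit 0)
    (Finset.univ.image fun p : Fin n0 × Fin n0 => y p.1 * star (y p.2)) (min δ' ε2)
    (lt_min hδ' hε2)
  have hff : ∀ i i', k 1 * (y i * star (y i')) * k 1 = y i * star (y i') := fun i i' => by
    rw [← mul_assoc, hy3, mul_assoc, hyk]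
  have happ' : ∀ i i', ‖∑ c, ψ c (φ c (y i * star (y i'))) - y i * star (y i')‖ ≤ δ' := by
    intro i i'
    have h1 := (happ _ (Finset.mem_image.2 ⟨(i, i'), Finset.mem_univ _, rfl⟩)).le
    simp only [hff] at h1
    exact h1.trans (min_le_left _ _)
  set δ : ℝ := min (ε / (8 * ((d : ℝ) + 1) * (S ^ 2 + 1))) (ε ^ 2 / (8 * (S ^ 2 + 1)))
    with hδdef
  have hδ : 0 < δ := lt_min (by positivity) (by positivity)
  have hp : IsSelfAdjoint (1 - k 0) := (IsSelfAdjoint.one M).sub (sa 0)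
  have hp1 : ‖1 - k 0‖ ≤ 1 := by
    let _ := CStarAlgebra.spectralOrder M
    let _ := CStarAlgebra.spectralOrderedRing M
    have h0 : 0 ≤ k 0 := CStarAlgebra.nonneg_iff_eq_star_mul_self.2 (hk.pos 0)
    have h1 : k 0 ≤ 1 := (CStarAlgebra.norm_le_one_iff_of_nonneg _ h0).1 (hk.le 0)
    refine (CStarAlgebra.norm_le_one_iff_of_nonneg _ (sub_nonneg.2 h1)).2 ?_
    rw [sub_le_self_iff]
    exact h0
  have hcol : ∀ c : Fin (d + 1), ∃ z : Fin N → M,
      (∀ j j', ‖star (z j) * z j' - (if j = j' then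
        quad (Matrix.of fun i i' => ψ c (φ c (y i * star (y i')))) y else 0)‖ ≤
        S ^ 2 * δ + ε1 * ‖b‖) ∧ ∀ j, ‖(1 - k 0) * z j‖ ≤ S * √(κ * ε2 + δ) := fun c =>
    RRank.colour (fun Q hQ κ ε h1 h2 h3 => hblock hN Q hQ κ ε h1 h2 h3) (φ c) (ψ c)
      (hoz (ψ c) (hψ c)) (hφ c) (hφ1 c) (hψ c) y hκ.le hy2 hε1
      (by rw [hκdef, mul_div_cancel₀ _ hNr.ne']) hδ (1 - k 0) hp hp1
      ((hloc c).le.trans (min_le_right _ _))
  choose z hz hz' using hcol
  refine ⟨z, fun j j' => ?_, fun c j => ?_⟩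
  · have hbn : ‖b‖ ≤ 2 := by
      have h1 : b = a - (a - b) := by abel
      rw [h1]
      refine (norm_sub_le _ _).trans ?_
      have h2 : ε0 ≤ 1 := min_le_left _ _
      linarith
    have hδ1 : δ ≤ ε / (8 * ((d : ℝ) + 1) * (S ^ 2 + 1)) := min_le_left _ _
    -- the sum over the colours
    have hsum : ‖∑ c, star (z c j) * z c j' - (if j = j' then
        ∑ c, quad (Matrix.of fun i i' => ψ c (φ c (y i * star (y i')))) y else 0)‖ ≤
        ε / 8 + ε / 4 := by
      have h1 : ∑ c, star (z c j) * z c j' - (if j = j' then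
          ∑ c, quad (Matrix.of fun i i' => ψ c (φ c (y i * star (y i')))) y else 0) =
          ∑ c, (star (z c j) * z c j' - (if j = j' then
            quad (Matrix.of fun i i' => ψ c (φ c (y i * star (y i')))) y else 0)) := by
        rw [Finset.sum_sub_distrib]
        split_ifs
        · rfl
        · rw [Finset.sum_const_zero]
      rw [h1]
      refine (norm_sum_le _ _).trans ((Finset.sum_le_sum fun c _ => hz c j j').trans ?_)
      rw [Finset.sum_const, Finset.card_univ, Fintype.card_fin, nsmul_eq_mul, mul_add]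
      refine add_le_add ?_ ?_
      · push_cast
        have h2 : ((d : ℝ) + 1) * (S ^ 2 * δ) ≤ ((d : ℝ) + 1) * (S ^ 2 *
            (ε / (8 * ((d : ℝ) + 1) * (S ^ 2 + 1)))) := by gcongr
        refine h2.trans ?_
        have h2 : ((d : ℝ) + 1) * (S ^ 2 * (ε / (8 * ((d : ℝ) + 1) * (S ^ 2 + 1)))) =
            ε / 8 * (S ^ 2 / (S ^ 2 + 1)) := by
          field_simp
        rw [h2]
        have h3 : S ^ 2 / (S ^ 2 + 1) ≤ 1 := by
          rw [div_le_one (by positivity)]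
          linarith
        nlinarith
      · push_cast
        have h2 : ((d : ℝ) + 1) * (ε1 * ‖b‖) = ε / 8 * ‖b‖ := by
          rw [hε1def]
          field_simp
        rw [h2]
        nlinarith
    by_cases hj : j = j'
    · rw [if_pos hj] at hsum ⊢
      -- the approximation
      have h2 : ‖(∑ c, quad (Matrix.of fun i i' => ψ c (φ c (y i * star (y i')))) y) -
          b * b‖ ≤ ε / 8 := by
        have h3 : (∑ c, quad (Matrix.of fun i i' => ψ c (φ c (y i * star (y i')))) y) - b * b =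
            quad (Matrix.of fun i i' => ∑ c, ψ c (φ c (y i * star (y i'))) -
              y i * star (y i')) y := by
          have h4 : (∑ c, quad (Matrix.of fun i i' => ψ c (φ c (y i * star (y i')))) y) =
              quad (Matrix.of fun i i' => ∑ c, ψ c (φ c (y i * star (y i')))) y := by
            unfold quad
            rw [Finset.sum_comm]
            refine Finset.sum_congr rfl fun i _ => ?_
            rw [Finset.sum_comm]
            refine Finset.sum_congr rfl fun i' _ => ?_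
            simp only [Matrix.of_apply]
            rw [Finset.mul_sum, Finset.sum_mul]
          have h5 : b * b = quad (Matrix.of fun i i' => y i * star (y i')) y := by
            unfold quad
            rw [hb, Finset.sum_mul_sum]
            refine Finset.sum_congr rfl fun i _ => Finset.sum_congr rfl fun i' _ => ?_
            rw [Matrix.of_apply]
            noncomm_ring
          rw [h4, h5, ← quad_sub]
          rfl
        rw [h3]
        refine (norm_quad_le _ y fun i i' => happ' i i').trans ?_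
        have h4 : S ^ 2 * δ' = ε / 8 * (S ^ 2 / (S ^ 2 + 1)) := by
          rw [hδ'def]
          field_simp
        change S ^ 2 * δ' ≤ _
        rw [h4]
        have h5 : S ^ 2 / (S ^ 2 + 1) ≤ 1 := by
          rw [div_le_one (by positivity)]
          linarith
        nlinarith
      have h3 : ‖b * b - a * a‖ ≤ ε / 4 := by
        have h4 : b * b - a * a = -(b * (a - b)) - (a - b) * a := by noncomm_ring
        rw [h4]
        refine (norm_sub_le _ _).trans ?_
        rw [norm_neg]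
        have h5 := norm_mul_le b (a - b)
        have h6 := norm_mul_le (a - b) a
        have h7 : ε0 ≤ ε / 12 := min_le_right _ _
        have h8 := norm_nonneg (a - b)
        have h9 := norm_nonneg a
        have h10 := norm_nonneg b
        nlinarith
      have h4 : ∑ c, star (z c j) * z c j' - a * a =
          (∑ c, star (z c j) * z c j' -
            ∑ c, quad (Matrix.of fun i i' => ψ c (φ c (y i * star (y i')))) y) +
          ((∑ c, quad (Matrix.of fun i i' => ψ c (φ c (y i * star (y i')))) y) - b * b) +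
          (b * b - a * a) := by abel
      rw [h4]
      refine (norm_add_le _ _).trans ?_
      have h5 := norm_add_le (∑ c, star (z c j) * z c j' -
            ∑ c, quad (Matrix.of fun i i' => ψ c (φ c (y i * star (y i')))) y)
          ((∑ c, quad (Matrix.of fun i i' => ψ c (φ c (y i * star (y i')))) y) - b * b)
      linarith
    · rw [if_neg hj] at hsum ⊢
      linarith
  · have h1 : k 0 * z c j - z c j = -((1 - k 0) * z c j) := by noncomm_ring
    rw [h1, norm_neg]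
    refine (hz' c j).trans ?_
    have h2 : S * √(κ * ε2 + δ) = √(S ^ 2 * (κ * ε2 + δ)) := by
      rw [Real.sqrt_mul (by positivity), Real.sqrt_sq hS0]
    rw [h2]
    refine Real.sqrt_le_iff.2 ⟨hε.le, ?_⟩
    have h3 : S ^ 2 * (κ * ε2) ≤ ε ^ 2 / 8 := by
      have e : S ^ 2 * (κ * ε2) = ε ^ 2 / 8 * (S ^ 2 / (S ^ 2 + 1)) * (κ / (κ + 1)) := by
        rw [hε2def]
        field_simp
      rw [e]
      have h5 : S ^ 2 / (S ^ 2 + 1) ≤ 1 := by
        rw [div_le_one (by positivity)]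
        linarith
      have h6 : κ / (κ + 1) ≤ 1 := by
        rw [div_le_one (by positivity)]
        linarith
      calc ε ^ 2 / 8 * (S ^ 2 / (S ^ 2 + 1)) * (κ / (κ + 1)) ≤ ε ^ 2 / 8 * 1 * 1 := by gcongr
        _ = ε ^ 2 / 8 := by ring
    have h4 : S ^ 2 * δ ≤ ε ^ 2 / 8 := by
      have h5 : S ^ 2 * δ ≤ S ^ 2 * (ε ^ 2 / (8 * (S ^ 2 + 1))) := by
        gcongr
        exact min_le_right _ _
      refine h5.trans ?_
      have e : S ^ 2 * (ε ^ 2 / (8 * (S ^ 2 + 1))) = ε ^ 2 / 8 * (S ^ 2 / (S ^ 2 + 1)) := by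
        field_simp
      rw [e]
      have h5 : S ^ 2 / (S ^ 2 + 1) ≤ 1 := by
        rw [div_le_one (by positivity)]
        linarith
      calc ε ^ 2 / 8 * (S ^ 2 / (S ^ 2 + 1)) ≤ ε ^ 2 / 8 * 1 := by gcongr
        _ = ε ^ 2 / 8 := by ring
    have h5 : S ^ 2 * (κ * ε2 + δ) = S ^ 2 * (κ * ε2) + S ^ 2 * δ := by ring
    have h6 := sq_nonneg ε
    rw [h5]
    linarith

end Vale.Agent.P095.NU
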