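import Vale.Agent.P095.NU.RCopies
import Vale.Agent.P095.NU.RNull
import Vale.Agent.P095.NU.ROz
import Vale.Agent.P095.Seed

/-!
# P095, T7, row G11: seeds relative to the null ideal
-/

open Filter Topology TopologicalSpace
open scoped BoundedContinuousFunction ComplexOrder

namespace Vale.Agent.P095.NU

open Vale.Agent.P101

universe u v w

section Sys

variable {G : Type*} [Group G] [Countable G] {ω : Ultrafilter ℕ} {M : Type u} [CStarAlgebra M]
  [SeparableSpace M] {A : Set M} {α : G →* (M ≃⋆ₐ[ℂ] M)} {B : Type u} [CStarAlgebra B]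
  {q : centralSeq ω M →⋆ₐ[ℂ] B} {β : G →* (B ≃⋆ₐ[ℂ] B)} {κ : ℕ → ℕ → M}

namespace RSeed

theorem sa_of_pos {M : Type u} [CStarAlgebra M] {x : M} (hx : IsPos x) : IsSelfAdjoint x := by
  obtain ⟨y, rfl⟩ := hx
  exact IsSelfAdjoint.star_mul_self y

/-- The elements of a chain are local units for the first ones. -/
theorem k3_mem {M : Type u} [CStarAlgebra M] {A : Set M} {k : ℕ → M} (hk : IsCh A k) :
    k 3 ∈ LU (k 1) := by
  have h1 : IsSelfAdjoint (k 1) := sa_of_pos (hk.pos 1)
  have h3 : IsSelfAdjoint (k 3) := sa_of_pos (hk.pos 3)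
  have e : k 1 * k 3 = k 3 := by
    have h12 : k 1 * k 2 = k 2 := hk.unit 1
    have h23 : k 2 * k 3 = k 3 := hk.unit 2
    calc k 1 * k 3 = k 1 * (k 2 * k 3) := by rw [h23]
      _ = k 3 := by rw [← mul_assoc, h12, h23]
  refine ⟨e, ?_⟩
  have := congrArg star e
  rwa [star_mul, h1.star_eq, h3.star_eq] at this

theorem chSup_nonneg {M : Type u} [CStarAlgebra M] {A : Set M} {k : ℕ → M}
    (hk : IsCh A k) (x : M) : 0 ≤ chSup k x := by
  refine Real.iSup_nonneg fun τ => ?_
  have h1 : IsSelfAdjoint (k 1) := sa_of_pos (hk.pos 1)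
  have h3 : IsSelfAdjoint (k 3) := sa_of_pos (hk.pos 3)
  have h := τ.2.1.nonneg_of_isPos h1 (LU_sandwich h1 (k3_mem hk) (k3_mem hk)
    (star x * x)) (z := k 3 * (star x * x) * k 3) ⟨x * k 3, by
      rw [star_mul, h3.star_eq]; noncomm_ring⟩
  exact (Complex.nonneg_iff.1 h).1

omit [Countable G] [SeparableSpace M] in
/-- If the traces of `B` are small on `star R * R` then so are the local traces. -/
theorem eventually_chSup_lt (R : RelSys ω A α q β) {k : ℕ → M} (hk : IsCh A k) (y : ℕ →ᵇ M)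
    (hy : Ultra.mk ω y ∈ centralSeq ω M) (δ ε : ℝ) (hδ : 0 < ε) (hε : δ < ε)
    (h : ∀ τ : B →ₗ[ℂ] ℂ, IsTrace τ →
      (τ (star (q ⟨Ultra.mk ω y, hy⟩) * q ⟨Ultra.mk ω y, hy⟩)).re ≤ δ) :
    ∀ᶠ n in (ω : Filter ℕ), chSup k (y n) < ε := by
  classical
  by_contra hcon
  rw [← Ultrafilter.eventually_not] at hcon
  obtain ⟨c, hc1, hc2⟩ := exists_between (max_lt hδ hε)
  rw [max_lt_iff] at hc1
  have hσ : ∀ n, ¬ chSup k (y n) < ε → ∃ σ : M →ₗ[ℂ] ℂ,
      (IsLTrace (k 1) σ ∧ σ (k 3 * k 3) = 1) ∧ c < (σ (k 3 * (star (y n) * y n) * k 3)).re := by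
    intro n hn
    rw [not_lt] at hn
    have hne : Nonempty {τ : M →ₗ[ℂ] ℂ // IsLTrace (k 1) τ ∧ τ (k 3 * k 3) = 1} := by
      by_contra hemp
      rw [not_nonempty_iff] at hemp
      have : chSup k (y n) = 0 := by
        rw [chSup, Real.iSup_of_isEmpty]
      rw [this] at hn
      exact absurd hδ (not_lt.2 hn)
    obtain ⟨σ, hσ⟩ := exists_lt_of_lt_ciSup (lt_of_lt_of_le hc2 hn)
    exact ⟨σ.1, σ.2, hσ⟩
  obtain ⟨n₀, hn₀⟩ := hcon.exists
  obtain ⟨σ₀, hσ₀, -⟩ := hσ n₀ hn₀
  let σ : ℕ → M →ₗ[ℂ] ℂ := fun n => if hn : ¬ chSup k (y n) < ε then (hσ n hn).choose else σ₀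
  have hσ1 : ∀ n, IsLTrace (k 1) (σ n) ∧ σ n (k 3 * k 3) = 1 := by
    intro n
    by_cases hn : ¬ chSup k (y n) < ε
    · have e : σ n = (hσ n hn).choose := dif_pos hn
      rw [e]
      exact (hσ n hn).choose_spec.1
    · have e : σ n = σ₀ := dif_neg hn
      rw [e]
      exact hσ₀
  have hσ2 : ∀ n, ¬ chSup k (y n) < ε → c < (σ n (k 3 * (star (y n) * y n) * k 3)).re := by
    intro n hn
    have e : σ n = (hσ n hn).choose := dif_pos hn
    rw [e]
    exact (hσ n hn).choose_spec.2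
  obtain ⟨τ, hτ, hlim⟩ := exists_limit_trace R hk σ hσ1
  have hyy : Ultra.mk ω (star y * y) ∈ centralSeq ω M := by
    rw [map_mul, map_star]
    exact mul_mem (star_mem hy) hy
  have h1 := hlim (star y * y) hyy
  have e1 : (⟨Ultra.mk ω (star y * y), hyy⟩ : centralSeq ω M) =
      star ⟨Ultra.mk ω y, hy⟩ * ⟨Ultra.mk ω y, hy⟩ := by
    apply Subtype.ext
    show Ultra.mk ω (star y * y) = star (Ultra.mk ω y) * Ultra.mk ω y
    rw [map_mul, map_star]
  rw [e1, map_mul, map_star] at h1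
  have h2 := (Complex.continuous_re.tendsto _).comp h1
  have h3 : c ≤ (τ (star (q ⟨Ultra.mk ω y, hy⟩) * q ⟨Ultra.mk ω y, hy⟩)).re := by
    refine ge_of_tendsto h2 ?_
    filter_upwards [hcon] with n hn
    exact (hσ2 n hn).le
  exact absurd (h τ hτ) (not_le.2 (hc1.2.trans_le h3))

end RSeed

theorem hasSeed_rel (hω : (ω : Filter ℕ) ≤ cofinite) (R : RelSys ω A α q β)
    (hκ : ChFam A α κ) (hchar : IsEmpty (B →⋆ₐ[ℂ] ℂ)) : HasSeed (relNull ω κ q) := by
  classical
  have hcc : HasCommutingCopies B := hasCommutingCopies_of_free (hasFreeCopies_rel hω R)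
  obtain ⟨a, ha⟩ := exists_dense_seq M
  have hA0 : Nonempty {x : M // x ∈ A} := ⟨⟨0, R.core.zero⟩⟩
  have hAsep : SeparableSpace {x : M // x ∈ A} := by
    have : SecondCountableTopology M := UniformSpace.secondCountable_of_separable M
    infer_instance
  obtain ⟨b, hb⟩ := exists_dense_seq {x : M // x ∈ A}
  have hX : Nonempty {x : M // ‖x‖ ≤ 1} := ⟨⟨0, by rw [norm_zero]; exact zero_le_one⟩⟩
  let f : (ℕ ⊕ ℕ) ⊕ ℕ → (n : ℕ) → {x : M // ‖x‖ ≤ 1} → ℝ := fun k _ x =>
    match k with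
    | Sum.inl (Sum.inl i) => ‖x.1 * x.1 * (b i).1‖
    | Sum.inl (Sum.inr j) => chSup (κ j) (1 - star x.1 * x.1 - x.1 * star x.1)
    | Sum.inr j => ‖a j * x.1 - x.1 * a j‖
  obtain ⟨x, hx⟩ := eps_test_countable (X := fun _ => {x : M // ‖x‖ ≤ 1}) (ω : Filter ℕ) hω f (by
    rintro ((i | j) | j) n x
    · exact norm_nonneg _
    · exact RSeed.chSup_nonneg (hκ.ch j) _
    · exact norm_nonneg _) (by
    intro F ε hε
    obtain ⟨k, hk⟩ := exists_nat_one_div_lt (show (0 : ℝ) < ε / 2 by positivity)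
    obtain ⟨v, hv1, hv2, hv3⟩ := Seed.exists_approx_seed hcc hchar k
    obtain ⟨w, hw, hwn⟩ := R.lift v
    obtain ⟨y, hy, hyn⟩ := Ultra.exists_rep (w : Ultra ω M)
    have hyn1 : ∀ n, ‖y n‖ ≤ 1 := fun n => (hyn n).trans (by
      have : ‖(w : Ultra ω M)‖ = ‖w‖ := rfl
      rw [this, hwn]
      exact hv1)
    have hyc : Ultra.mk ω y ∈ centralSeq ω M := by
      rw [hy]
      exact w.2
    have hyw : (⟨Ultra.mk ω y, hyc⟩ : centralSeq ω M) = w := Subtype.ext hy
    refine ⟨fun n => ⟨y n, hyn1 n⟩, ?_⟩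
    rintro ((i | j) | j) -
    · have h0 : q (w * w) = 0 := by rw [map_mul, hw, hv2]
      have h1 : (w : Ultra ω M) * (w : Ultra ω M) * Ultra.diag ω (b i).1 = 0 :=
        (R.ker (w * w)).1 h0 _ (b i).2
      rw [← hy, Ultra.diag_apply, ← map_mul, ← map_mul, Ultra.mk_eq_zero_iff] at h1
      exact h1.eventually (gt_mem_nhds hε)
    · -- the trace condition
      have hRc : Ultra.mk ω (1 - star y * y - y * star y) ∈ centralSeq ω M := by
        rw [map_sub, map_sub, map_one, map_mul, map_mul, map_star]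
        exact sub_mem (sub_mem (one_mem _) (mul_mem (star_mem hyc) hyc))
          (mul_mem hyc (star_mem hyc))
      have hRq : q ⟨Ultra.mk ω (1 - star y * y - y * star y), hRc⟩ =
          1 - star v * v - v * star v := by
        have e : (⟨Ultra.mk ω (1 - star y * y - y * star y), hRc⟩ : centralSeq ω M) =
            1 - star w * w - w * star w := by
          apply Subtype.ext
          show Ultra.mk ω (1 - star y * y - y * star y) =
            1 - star (w : Ultra ω M) * (w : Ultra ω M) - (w : Ultra ω M) * star (w : Ultra ω M)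
          rw [map_sub, map_sub, map_one, map_mul, map_mul, map_star, hy]
        rw [e, map_sub, map_sub, map_one, map_mul, map_mul, map_star, hw]
      refine RSeed.eventually_chSup_lt R (hκ.ch j) (1 - star y * y - y * star y) hRc (ε / 2) ε hε
        (by linarith) fun τ hτ => ?_
      rw [hRq]
      have hk1 : (0 : ℝ) < (k : ℝ) + 1 := by positivity
      refine le_trans ?_ hk.le
      rw [le_div_iff₀ hk1, mul_comm]
      exact hv3 τ hτ
    · have h2 := mk_mem_centralSeq_iff.1 hyc (a j)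
      exact h2.eventually (gt_mem_nhds hε))
  let y : ℕ →ᵇ M := BoundedContinuousFunction.ofNormedAddCommGroupDiscrete (fun n => (x n).1) 1
    (fun n => (x n).2)
  have hcentral : Ultra.mk ω y ∈ centralSeq ω M := by
    rw [mem_centralSeq_iff]
    have hcl : IsClosed {b : M | Commute (Ultra.diag ω b) (Ultra.mk ω y)} := by
      have hc : Continuous (Ultra.diag ω : M → Ultra ω M) :=
        AddMonoidHomClass.continuous_of_bound (Ultra.diag ω) 1
          (fun b => by rw [one_mul, Ultra.norm_diag])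
      exact isClosed_eq (hc.mul continuous_const) (continuous_const.mul hc)
    intro b
    have h1 : closure (Set.range a) ⊆ {b : M | Commute (Ultra.diag ω b) (Ultra.mk ω y)} := by
      apply closure_minimal _ hcl
      rintro _ ⟨j, rfl⟩
      show Commute (Ultra.diag ω (a j)) (Ultra.mk ω y)
      rw [commute_iff_eq, Ultra.diag_apply, ← map_mul, ← map_mul,
        Ultra.mk_eq_mk_iff]
      exact hx (Sum.inr j)
    exact h1 (ha.closure_range ▸ Set.mem_univ b)
  have hann : ∀ c ∈ A, Ultra.mk ω y * Ultra.mk ω y * Ultra.diag ω c = 0 := by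
    have hcl : IsClosed {c : {x : M // x ∈ A} |
        Ultra.mk ω y * Ultra.mk ω y * Ultra.diag ω c.1 = 0} := by
      have hc : Continuous (Ultra.diag ω : M → Ultra ω M) :=
        AddMonoidHomClass.continuous_of_bound (Ultra.diag ω) 1
          (fun b => by rw [one_mul, Ultra.norm_diag])
      exact isClosed_eq (continuous_const.mul (hc.comp continuous_subtype_val)) continuous_const
    have h1 : closure (Set.range b) ⊆ {c : {x : M // x ∈ A} |
        Ultra.mk ω y * Ultra.mk ω y * Ultra.diag ω c.1 = 0} := by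
      apply closure_minimal _ hcl
      rintro _ ⟨j, rfl⟩
      show Ultra.mk ω y * Ultra.mk ω y * Ultra.diag ω (b j).1 = 0
      rw [Ultra.diag_apply, ← map_mul, ← map_mul, Ultra.mk_eq_zero_iff]
      exact hx (Sum.inl (Sum.inl j))
    intro c hc
    exact h1 (hb.closure_range ▸ Set.mem_univ (⟨c, hc⟩ : {x : M // x ∈ A}))
  refine ⟨q ⟨Ultra.mk ω y, hcentral⟩, ?_, ?_, ?_⟩
  · refine (NonUnitalStarAlgHom.norm_apply_le q _).trans ?_
    show ‖Ultra.mk ω y‖ ≤ 1
    exact Ultra.norm_mk_le_of_eventually (Eventually.of_forall fun n => (x n).2)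
  · rw [← map_mul, R.ker]
    exact hann
  · have hRc : Ultra.mk ω (1 - star y * y - y * star y) ∈ centralSeq ω M := by
      rw [map_sub, map_sub, map_one, map_mul, map_mul, map_star]
      exact sub_mem (sub_mem (one_mem _) (mul_mem (star_mem hcentral) hcentral))
        (mul_mem hcentral (star_mem hcentral))
    have e : (⟨Ultra.mk ω (1 - star y * y - y * star y), hRc⟩ : centralSeq ω M) =
        1 - star ⟨Ultra.mk ω y, hcentral⟩ * ⟨Ultra.mk ω y, hcentral⟩ -
          ⟨Ultra.mk ω y, hcentral⟩ * star ⟨Ultra.mk ω y, hcentral⟩ := by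
      apply Subtype.ext
      show Ultra.mk ω (1 - star y * y - y * star y) =
        1 - star (Ultra.mk ω y) * Ultra.mk ω y - Ultra.mk ω y * star (Ultra.mk ω y)
      rw [map_sub, map_sub, map_one, map_mul, map_mul, map_star]
    have h1 := (mem_relNull_iff R hκ (1 - star y * y - y * star y) hRc).2
      (fun j => hx (Sum.inl (Sum.inr j)))
    rw [e, map_sub, map_sub, map_one, map_mul, map_mul, map_star] at h1
    exact h1

end Sys

end Vale.Agent.P095.NU
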