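import Vale.Agent.P095.NU.Defs

/-!
# P095, target T7: exact pairs of shifts by the ε-test, relative to an ideal (row G25)
-/

open Filter Topology TopologicalSpace
open scoped BoundedContinuousFunction ComplexOrder

namespace Vale.Agent.P095.NU

open Vale.Agent.P101

universe u v w

variable {G : Type*} [Group G] [Countable G] {ω : Ultrafilter ℕ} {M : Type u} [CStarAlgebra M]
  [SeparableSpace M] {A : Set M} {α : G →* (M ≃⋆ₐ[ℂ] M)} {B : Type u} [CStarAlgebra B]
  {q : centralSeq ω M →⋆ₐ[ℂ] B} {β : G →* (B ≃⋆ₐ[ℂ] B)} {κ : ℕ → ℕ → M}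

namespace RShift

omit [Countable G] in
theorem exists_dense_core (R : RelSys ω A α q β) :
    ∃ b : ℕ → M, (∀ j, b j ∈ A) ∧ ∀ x : centralSeq ω M,
      (∀ j, (x : Ultra ω M) * Ultra.diag ω (b j) = 0) → q x = 0 := by
  have : SecondCountableTopology M := UniformSpace.secondCountable_of_separable M
  have hne : Nonempty A := ⟨⟨0, R.core.zero⟩⟩
  obtain ⟨b, hb⟩ := exists_dense_seq A
  refine ⟨fun j => b j, fun j => (b j).2, fun x hx => ?_⟩
  rw [R.ker]
  intro a ha
  have hc : Continuous fun z : A => (x : Ultra ω M) * Ultra.diag ω (z : M) :=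
    continuous_const.mul ((AddMonoidHomClass.continuous_of_bound (Ultra.diag ω) 1
      (fun b => by rw [one_mul, Ultra.norm_diag])).comp continuous_subtype_val)
  have h1 := hb.equalizer hc (continuous_const (y := (0 : Ultra ω M))) (funext fun j => hx j)
  exact congrFun h1 ⟨a, ha⟩

end RShift

theorem exists_shift_rel (hω : (ω : Filter ℕ) ≤ cofinite) (R : RelSys ω A α q β)
    (e : centralSeq ω M) (he1 : ‖e‖ ≤ 1)
    (h : ∀ (F Fa : Finset M), (∀ a ∈ Fa, a ∈ A) → ∀ (K : Finset G), (∀ g ∈ K, β g ≠ 1) →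
      ∀ ε : ℝ, 0 < ε → ∃ s : Fin 2 → Ultra ω M, (∀ i, ‖s i‖ ≤ 2) ∧
      (∀ i j, ∀ a ∈ Fa, ‖(star (s i) * s j - (if i = j then (e : Ultra ω M) else 0)) *
        Ultra.diag ω a‖ < ε) ∧
      (∀ i, ∀ a ∈ F, ‖Ultra.diag ω a * s i - s i * Ultra.diag ω a‖ < ε) ∧
      ∀ i j, ∀ g ∈ K, ‖star (s i) * ultraAct ω α g (s j)‖ < ε) :
    ∃ s : Fin 2 → B, (∀ i j, star (s i) * s j = if i = j then q e else 0) ∧
      ∀ i j g, β g ≠ 1 → star (s i) * β g (s j) = 0 := by
  classical
  obtain ⟨a, ha⟩ := exists_dense_seq M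
  obtain ⟨b, hbA, hb⟩ := RShift.exists_dense_core R
  obtain ⟨E, hE, -⟩ := Ultra.exists_rep (e : Ultra ω M)
  have hev : ∀ (z : ℕ →ᵇ M) (ε : ℝ), ‖Ultra.mk ω z‖ < ε → ∀ᶠ n in (ω : Filter ℕ), ‖z n‖ < ε :=
    fun z ε hz => (Ultra.tendsto_norm_mk z).eventually (gt_mem_nhds hz)
  let X : Type u := {x : Fin 2 → M // ∀ i, ‖x i‖ ≤ 2}
  let ι := ((Fin 2 × Fin 2) × ℕ) ⊕ ((Fin 2 × ℕ) ⊕ (Fin 2 × Fin 2 × {g : G // β g ≠ 1}))
  let F : ι → (n : ℕ) → X → ℝ := fun k n x =>
    match k with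
    | Sum.inl p => ‖(star (x.1 p.1.1) * x.1 p.1.2 - (if p.1.1 = p.1.2 then E n else 0)) * b p.2‖
    | Sum.inr (Sum.inl q) => ‖a q.2 * x.1 q.1 - x.1 q.1 * a q.2‖
    | Sum.inr (Sum.inr r) => ‖star (x.1 r.1) * α r.2.2.1 (x.1 r.2.1)‖
  have hne : Nonempty X := ⟨⟨0, by simp⟩⟩
  have hF : ∀ k n x, 0 ≤ F k n x := by
    rintro (p | (q | r)) n x <;> exact norm_nonneg _
  have hF2 : ∀ (S : Finset ι) (ε : ℝ), 0 < ε →
      ∃ x : ∀ _ : ℕ, X, ∀ k ∈ S, ∀ᶠ n in (ω : Filter ℕ), F k n (x n) < ε := by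
    intro S ε hε
    let FB : Finset M := S.biUnion fun k => match k with
      | Sum.inl p => {b p.2}
      | _ => ∅
    let FA : Finset M := S.biUnion fun k => match k with
      | Sum.inr (Sum.inl q) => {a q.2}
      | _ => ∅
    let FG : Finset G := S.biUnion fun k => match k with
      | Sum.inr (Sum.inr r) => {r.2.2.1}
      | _ => ∅
    obtain ⟨s, hsn, hs1, hs3, hs4⟩ := h FA FB (by
        intro c hc
        obtain ⟨k, -, hk⟩ := Finset.mem_biUnion.1 hc
        rcases k with p | (q | r)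
        · simp only [Finset.mem_singleton] at hk
          rw [hk]
          exact hbA _
        · simp at hk
        · simp at hk) FG (by
        intro g hg
        obtain ⟨k, -, hk⟩ := Finset.mem_biUnion.1 hg
        rcases k with p | (q | r)
        · simp at hk
        · simp at hk
        · simp only [Finset.mem_singleton] at hk
          rw [hk]
          exact r.2.2.2) ε hε
    choose y hy hyn using fun i => Ultra.exists_rep (s i)
    refine ⟨fun n => ⟨fun i => y i n, fun i => (hyn i n).trans (hsn i)⟩, ?_⟩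
    rintro (p | (q | r)) hk
    · show ∀ᶠ n in (ω : Filter ℕ),
        ‖(star (y p.1.1 n) * y p.1.2 n - (if p.1.1 = p.1.2 then E n else 0)) * b p.2‖ < ε
      have h1 := hs1 p.1.1 p.1.2 (b p.2) (Finset.mem_biUnion.2 ⟨_, hk, by simp⟩)
      by_cases hp : p.1.1 = p.1.2
      · simp only [if_pos hp] at h1 ⊢
        refine hev ((star (y p.1.1) * y p.1.2 - E) * Ultra.const (b p.2)) ε ?_
        rw [map_mul, map_sub, map_mul, map_star, hy, hy, hE, ← Ultra.diag_apply]
        exact h1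
      · simp only [if_neg hp, sub_zero] at h1 ⊢
        refine hev (star (y p.1.1) * y p.1.2 * Ultra.const (b p.2)) ε ?_
        rw [map_mul, map_mul, map_star, hy, hy, ← Ultra.diag_apply]
        exact h1
    · show ∀ᶠ n in (ω : Filter ℕ), ‖a q.2 * y q.1 n - y q.1 n * a q.2‖ < ε
      refine hev (Ultra.const (a q.2) * y q.1 - y q.1 * Ultra.const (a q.2)) ε ?_
      rw [map_sub, map_mul, map_mul, hy, ← Ultra.diag_apply]
      exact hs3 q.1 (a q.2) (Finset.mem_biUnion.2 ⟨_, hk, by simp⟩)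
    · show ∀ᶠ n in (ω : Filter ℕ), ‖star (y r.1 n) * α r.2.2.1 (y r.2.1 n)‖ < ε
      refine hev (star (y r.1) * seqMap (α r.2.2.1 : M →⋆ₐ[ℂ] M) (y r.2.1)) ε ?_
      rw [map_mul, map_star, ← ultraAct_mk, hy, hy]
      exact hs4 r.1 r.2.1 r.2.2.1 (Finset.mem_biUnion.2 ⟨_, hk, by simp⟩)
  obtain ⟨x, hx⟩ := @eps_test_countable ι _ (fun _ => X)
    (fun _ => hne) (ω : Filter ℕ) hω F hF hF2
  let y : Fin 2 → (ℕ →ᵇ M) := fun i =>
    BoundedContinuousFunction.ofNormedAddCommGroup (fun n => (x n).1 i)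
      continuous_of_discreteTopology 2 (fun n => (x n).2 i)
  have hyc : ∀ i, Ultra.mk ω (y i) ∈ centralSeq ω M := fun i =>
    LocFin.mem_centralSeq_of_dense a ha (y i) fun j => hx (Sum.inr (Sum.inl (i, j)))
  let s : Fin 2 → centralSeq ω M := fun i => ⟨Ultra.mk ω (y i), hyc i⟩
  refine ⟨fun i => q (s i), fun i j => ?_, fun i j g hg => ?_⟩
  · have h2 : q (star (s i) * s j - if i = j then e else 0) = 0 := by
      refine hb _ fun k => ?_
      have h1 := hx (Sum.inl ((i, j), k))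
      show (star (Ultra.mk ω (y i)) * Ultra.mk ω (y j) -
        ((if i = j then e else 0 : centralSeq ω M) : Ultra ω M)) * Ultra.diag ω (b k) = 0
      by_cases hij : i = j
      · simp only [if_pos hij, F] at h1 ⊢
        rw [← hE, ← map_star, ← map_mul, ← map_sub, Ultra.diag_apply, ← map_mul,
          Ultra.mk_eq_zero_iff]
        exact h1
      · simp only [if_neg hij, F, sub_zero] at h1 ⊢
        show (star (Ultra.mk ω (y i)) * Ultra.mk ω (y j) - (0 : Ultra ω M)) *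
          Ultra.diag ω (b k) = 0
        rw [sub_zero, ← map_star, ← map_mul, Ultra.diag_apply, ← map_mul, Ultra.mk_eq_zero_iff]
        exact h1
    rw [map_sub, map_mul, map_star, sub_eq_zero] at h2
    rw [h2]
    split_ifs
    · rfl
    · exact map_zero q
  · rw [R.act, ← map_star, ← map_mul]
    have h2 : star (s i) * centralAct ω α g (s j) = 0 := by
      refine Subtype.ext ?_
      show star (Ultra.mk ω (y i)) * ultraAct ω α g (Ultra.mk ω (y j)) = 0
      rw [ultraAct_mk, ← map_star, ← map_mul, Ultra.mk_eq_zero_iff]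
      exact hx (Sum.inr (Sum.inr (i, j, ⟨g, hg⟩)))
    rw [h2, map_zero]

end Vale.Agent.P095.NU
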