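import Vale.Agent.P095.NU.RShiftApprox0
import Vale.Agent.P095.NU.RExcisors
import Vale.Agent.P095.NU.RCompare

/-!
# P095, T7, row G24: the approximate pair of shifts, relative version
-/

open Filter Topology TopologicalSpace
open scoped BoundedContinuousFunction ComplexOrder

namespace Vale.Agent.P095.NU

open Vale.Agent.P101

universe u v w

section Sys

variable {G : Type*} [Group G] [Countable G] {ω : Ultrafilter ℕ} {M : Type u} [CStarAlgebra M]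
  [SeparableSpace M] {A : Set M} {α : G →* (M ≃⋆ₐ[ℂ] M)} {B : Type u} [CStarAlgebra B]
  {q : centralSeq ω M →⋆ₐ[ℂ] B} {β : G →* (B ≃⋆ₐ[ℂ] B)} {κ : ℕ → ℕ → M}

theorem exists_shift_approx_rel (hcomp : RelVWComp A) (hexc : ExcApproxIn A)
    (hω : (ω : Filter ℕ) ≤ cofinite) (R : RelSys ω A α q β) (hκ : ChFam A α κ)
    (hH : ∀ (m : ℕ) (K : Finset G), (∀ g ∈ K, β g ≠ 1) →
      ∃ H : Fin m → B, (∀ p, IsPos (H p)) ∧ (∀ p, ‖H p‖ = 1) ∧
      (∀ p q, p ≠ q → H p * H q = 0) ∧ ∀ p q, ∀ g ∈ K, H p * β g (H q) = 0)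
    (e : centralSeq ω M) (he : IsPos e) (he1 : ‖e‖ ≤ 1) (hen : q e ∈ relNull ω κ q)
    (F Fa : Finset M) (hFa : ∀ a ∈ Fa, a ∈ A) (K : Finset G) (hK : ∀ g ∈ K, β g ≠ 1)
    (ε : ℝ) (hε : 0 < ε) :
    ∃ s : Fin 2 → Ultra ω M, (∀ i, ‖s i‖ ≤ 2) ∧
      (∀ i j, ∀ a ∈ Fa, ‖(star (s i) * s j - (if i = j then (e : Ultra ω M) else 0)) *
        Ultra.diag ω a‖ < ε) ∧
      (∀ i, ∀ a ∈ F, ‖Ultra.diag ω a * s i - s i * Ultra.diag ω a‖ < ε) ∧
      ∀ i j, ∀ g ∈ K, ‖star (s i) * ultraAct ω α g (s j)‖ < ε :=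
  RShiftApprox.core hexc R hκ e he1 F Fa hFa K
    (fun x hxA hx hx0 j => exists_compare_rel hcomp hω R hκ e he he1 hen x hxA hx hx0 j)
    (fun lam hlam F δ hδ => exists_excisors_rel R lam hlam F K (hH _ K hK) δ hδ) ε hε

end Sys

end Vale.Agent.P095.NU
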