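import Vale.Agent.P095.NU.Defs
import Vale.Agent.P095.ShiftCore
import Vale.Agent.P095.Excisors
import Vale.Agent.P095.Compare2

/-!
# P095, T7, row G24: the approximate pair of shifts, relative version (core)
-/

open Filter Topology TopologicalSpace
open scoped BoundedContinuousFunction ComplexOrder

namespace Vale.Agent.P095.NU

open Vale.Agent.P101

universe u v w

namespace RShiftApprox

open ShiftApprox

section Core

variable {U : Type*} [CStarAlgebra U] {A : Type*} [CStarAlgebra A] (D : A →⋆ₐ[ℂ] U)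

theorem shift_core' {I J : Type*} [Fintype I] [Fintype J] [DecidableEq I] {e : U} (he1 : ‖e‖ ≤ 1)
    (lam : I → A →ₗ[ℂ] ℂ) (b c : I × J → A) (rho : I → U)
    (a : A) (δ η L κ Λ : ℝ) (hL : ∑ i, ‖c i‖ ≤ L) (hδ : 0 ≤ δ)
    (hcomm : ∀ i, ‖e * D (c i) - D (c i) * e‖ ≤ κ)
    (hΛ : ∑ p, ∑ i, ∑ j, ‖lam p (star (b (p, i)) * a * b (p, j))‖ * ‖c (p, i)‖ ≤ Λ)
    (h1 : ∀ p i j, ‖star (rho p) * D (star (b (p, i)) * a * b (p, j)) * rho p -
      lam p (star (b (p, i)) * a * b (p, j)) • e‖ ≤ δ)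
    (h2 : ∀ p q i j, p ≠ q → ‖star (rho p) * D (star (b (p, i)) * a * b (q, j)) * rho q‖ ≤ δ)
    (h3 : ‖∑ p, ∑ i, ∑ j, lam p (star (b (p, i)) * a * b (p, j)) •
      (star (c (p, i)) * c (p, j)) - a‖ < η) (hκ : 0 ≤ κ) :
    ‖star (shiftEl D b c (fun i => rho i.1)) * D a * shiftEl D b c (fun i => rho i.1) -
      D a * e‖ ≤ δ * L * L + κ * Λ + η := by
  let N : I × J → I × J → U := fun i j =>
    if i.1 = j.1 then lam i.1 (star (b i) * a * b j) • e else 0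
  have hDn : ∀ x, ‖D x‖ ≤ ‖x‖ := fun x => NonUnitalStarAlgHom.norm_apply_le D x
  have hN : ‖∑ i, ∑ j, star (D (c i)) * N i j * D (c j) - D (∑ p, ∑ i, ∑ j,
      lam p (star (b (p, i)) * a * b (p, j)) • (star (c (p, i)) * c (p, j))) * e‖ ≤ κ * Λ := by
    have e1 : ∑ i, ∑ j, star (D (c i)) * N i j * D (c j) = ∑ p, ∑ i, ∑ j,
        lam p (star (b (p, i)) * a * b (p, j)) • (star (D (c (p, i))) * (e * D (c (p, j)))) := by
      rw [Fintype.sum_prod_type]
      refine Finset.sum_congr rfl fun p _ => Finset.sum_congr rfl fun i _ => ?_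
      rw [Fintype.sum_prod_type, Finset.sum_eq_single p]
      · refine Finset.sum_congr rfl fun j _ => ?_
        simp only [N, if_true]
        rw [mul_smul_comm, smul_mul_assoc, mul_assoc (star (D (c (p, i)))) e (D (c (p, j)))]
      · intro q _ hq
        refine Finset.sum_eq_zero fun j _ => ?_
        simp only [N, if_neg (Ne.symm hq), mul_zero, zero_mul]
      · simp
    have e2 : D (∑ p, ∑ i, ∑ j,
      lam p (star (b (p, i)) * a * b (p, j)) • (star (c (p, i)) * c (p, j))) * e =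
        ∑ p, ∑ i, ∑ j,
        lam p (star (b (p, i)) * a * b (p, j)) • (star (D (c (p, i))) * (D (c (p, j)) * e)) := by
      simp only [map_sum, Finset.sum_mul]
      refine Finset.sum_congr rfl fun p _ => Finset.sum_congr rfl fun i _ =>
        Finset.sum_congr rfl fun j _ => ?_
      rw [map_smul, map_mul D, map_star D, smul_mul_assoc,
        mul_assoc (star (D (c (p, i)))) (D (c (p, j))) e]
    rw [e1, e2, ← Finset.sum_sub_distrib]
    refine (norm_sum_le _ _).trans ?_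
    have h4 : κ * ∑ p, ∑ i, ∑ j, ‖lam p (star (b (p, i)) * a * b (p, j))‖ * ‖c (p, i)‖ ≤ κ * Λ :=
      mul_le_mul_of_nonneg_left hΛ hκ
    refine le_trans ?_ h4
    rw [Finset.mul_sum]
    refine Finset.sum_le_sum fun p _ => ?_
    rw [← Finset.sum_sub_distrib, Finset.mul_sum]
    refine (norm_sum_le _ _).trans (Finset.sum_le_sum fun i _ => ?_)
    rw [← Finset.sum_sub_distrib, Finset.mul_sum]
    refine (norm_sum_le _ _).trans (Finset.sum_le_sum fun j _ => ?_)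
    rw [← smul_sub, ← mul_sub, norm_smul]
    calc ‖lam p (star (b (p, i)) * a * b (p, j))‖ *
        ‖star (D (c (p, i))) * (e * D (c (p, j)) - D (c (p, j)) * e)‖
        ≤ ‖lam p (star (b (p, i)) * a * b (p, j))‖ * (‖c (p, i)‖ * κ) := by
          refine mul_le_mul_of_nonneg_left ?_ (norm_nonneg _)
          refine (norm_mul_le _ _).trans ?_
          rw [norm_star]
          exact mul_le_mul (hDn _) (hcomm _) (norm_nonneg _) (norm_nonneg _)
      _ = κ * (‖lam p (star (b (p, i)) * a * b (p, j))‖ * ‖c (p, i)‖) := by ring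
  have h4 : star (shiftEl D b c (fun i => rho i.1)) * D a * shiftEl D b c (fun i => rho i.1) -
      ∑ i, ∑ j, star (D (c i)) * N i j * D (c j) =
      ∑ i, ∑ j, star (D (c i)) * (star (rho i.1) * D (star (b i) * a * b j) * rho j.1 - N i j) *
        D (c j) := by
    rw [star_mul_shiftEl, ← Finset.sum_sub_distrib]
    refine Finset.sum_congr rfl fun i _ => ?_
    rw [← Finset.sum_sub_distrib]
    refine Finset.sum_congr rfl fun j _ => ?_
    noncomm_ring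
  have hM : ∀ i j, ‖star (rho i.1) * D (star (b i) * a * b j) * rho j.1 - N i j‖ ≤ δ := by
    rintro ⟨p, i⟩ ⟨q, j⟩
    by_cases hpq : p = q
    · subst hpq
      simp only [N, if_true]
      exact h1 p i j
    · simp only [N, if_neg hpq, sub_zero]
      exact h2 p q i j hpq
  have h5 := norm_sum_sum_le (fun i => D (c i)) (fun i => D (c i)) _ δ hM
  rw [← h4] at h5
  have hL' : ∑ i, ‖D (c i)‖ ≤ L := (Finset.sum_le_sum fun i _ => hDn _).trans hL
  have hL0 : 0 ≤ ∑ i, ‖D (c i)‖ := Finset.sum_nonneg fun i _ => norm_nonneg _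
  have h6 : δ * (∑ i, ‖D (c i)‖) * ∑ i, ‖D (c i)‖ ≤ δ * L * L :=
    mul_le_mul (mul_le_mul_of_nonneg_left hL' hδ) hL' hL0
      (mul_nonneg hδ (hL0.trans hL'))
  have h7 : ‖D (∑ p, ∑ i, ∑ j, lam p (star (b (p, i)) * a * b (p, j)) •
        (star (c (p, i)) * c (p, j))) * e - D a * e‖ ≤ η := by
    rw [← sub_mul, ← map_sub]
    refine (norm_mul_le _ _).trans ?_
    exact (mul_le_of_le_one_right (norm_nonneg _) he1).trans ((hDn _).trans h3.le)
  have h8 := h5.trans h6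
  generalize star (shiftEl D b c (fun i => rho i.1)) * D a * shiftEl D b c (fun i => rho i.1) = X
    at h8 ⊢
  generalize ∑ i, ∑ j, star (D (c i)) * N i j * D (c j) = Y at h8 hN
  generalize D (∑ p, ∑ i, ∑ j, lam p (star (b (p, i)) * a * b (p, j)) •
        (star (c (p, i)) * c (p, j))) * e = Z at h7 hN
  calc ‖X - D a * e‖ = ‖(X - Y) + (Y - Z) + (Z - D a * e)‖ := by congr 1; abel
    _ ≤ ‖X - Y‖ + ‖Y - Z‖ + ‖Z - D a * e‖ := norm_add₃_le
    _ ≤ _ := add_le_add (add_le_add h8 hN) h7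

/-- commutator estimate -/
theorem norm_comm_sq_le' {e s d : U} (η R : ℝ)
    (hd : ‖d‖ ≤ R) (hR : 0 ≤ R)
    (h1 : ‖star s * s - e‖ ≤ η) (h2 : ‖star s * d * s - d * e‖ ≤ η)
    (h3 : ‖star s * star d * s - star d * e‖ ≤ η)
    (h4 : ‖star s * (star d * d) * s - star d * d * e‖ ≤ η) :
    ‖d * s - s * d‖ ^ 2 ≤ η * (1 + R) ^ 2 := by
  have hη : 0 ≤ η := (norm_nonneg _).trans h1
  have h5 : star (d * s - s * d) * (d * s - s * d) =
      (star s * (star d * d) * s - star d * d * e) - (star s * star d * s - star d * e) * d -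
        star d * (star s * d * s - d * e) + star d * (star s * s - e) * d := by
    rw [star_sub, star_mul, star_mul]
    noncomm_ring
  have h6 : ‖d * s - s * d‖ ^ 2 = ‖star (d * s - s * d) * (d * s - s * d)‖ := by
    rw [CStarRing.norm_star_mul_self, pow_two]
  rw [h6, h5]
  have n1 : ‖(star s * star d * s - star d * e) * d‖ ≤ η * R :=
    (norm_mul_le _ _).trans (mul_le_mul h3 hd (norm_nonneg _) hη)
  have n2 : ‖star d * (star s * d * s - d * e)‖ ≤ R * η := by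
    refine (norm_mul_le _ _).trans ?_
    rw [norm_star]
    exact mul_le_mul hd h2 (norm_nonneg _) hR
  have n3 : ‖star d * (star s * s - e) * d‖ ≤ R * η * R := by
    refine (norm_mul_le _ _).trans (mul_le_mul ?_ hd (norm_nonneg _) (mul_nonneg hR hη))
    refine (norm_mul_le _ _).trans ?_
    rw [norm_star]
    exact mul_le_mul hd h1 (norm_nonneg _) hR
  calc _ ≤ ‖(star s * (star d * d) * s - star d * d * e) - (star s * star d * s - star d * e) * d -
        star d * (star s * d * s - d * e)‖ + ‖star d * (star s * s - e) * d‖ := norm_add_le _ _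
    _ ≤ (‖star s * (star d * d) * s - star d * d * e‖ +
        ‖(star s * star d * s - star d * e) * d‖ + ‖star d * (star s * d * s - d * e)‖) +
        ‖star d * (star s * s - e) * d‖ := by
          gcongr
          exact (norm_sub_le _ _).trans (add_le_add (norm_sub_le _ _) le_rfl)
    _ ≤ (η + η * R + R * η) + R * η * R := by gcongr
    _ = η * (1 + R) ^ 2 := by ring

end Core

/-- the fourth power of an approximate unit -/
theorem pow4_unit {M : Type*} [CStarAlgebra M] {k a : M} (hk : ‖k‖ ≤ 1) {κ : ℝ}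
    (h1 : ‖k * a - a‖ < κ) (h2 : ‖a * k - a‖ < κ) :
    ‖k * k * (k * k) * a - a‖ ≤ 4 * κ ∧ ‖a * (k * k * (k * k)) - a‖ ≤ 4 * κ := by
  have e0 : ∀ x : M, ‖k * x‖ ≤ ‖x‖ := fun x => (norm_mul_le _ _).trans
    (mul_le_of_le_one_left (norm_nonneg _) hk)
  have e0' : ∀ x : M, ‖x * k‖ ≤ ‖x‖ := fun x => (norm_mul_le _ _).trans
    (mul_le_of_le_one_right (norm_nonneg _) hk)
  constructor
  · have e1 : k * k * (k * k) * a - a = k * (k * (k * (k * a - a))) + k * (k * (k * a - a)) +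
        k * (k * a - a) + (k * a - a) := by noncomm_ring
    rw [e1]
    have t0 := h1.le
    have t1 := (e0 (k * a - a)).trans t0
    have t2 := (e0 (k * (k * a - a))).trans t1
    have t3 := (e0 (k * (k * (k * a - a)))).trans t2
    calc _ ≤ _ := (norm_add_le _ _).trans (add_le_add norm_add₃_le le_rfl)
      _ ≤ κ + κ + κ + κ := by gcongr
      _ = 4 * κ := by ring
  · have e1 : a * (k * k * (k * k)) - a = (a * k - a) * k * k * k + (a * k - a) * k * k +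
        (a * k - a) * k + (a * k - a) := by noncomm_ring
    rw [e1]
    have t0 := h2.le
    have t1 := (e0' (a * k - a)).trans t0
    have t2 := (e0' ((a * k - a) * k)).trans t1
    have t3 := (e0' ((a * k - a) * k * k)).trans t2
    calc _ ≤ _ := (norm_add_le _ _).trans (add_le_add norm_add₃_le le_rfl)
      _ ≤ κ + κ + κ + κ := by gcongr
      _ = 4 * κ := by ring

theorem norm_act {G : Type*} [Group G] {A : Type*} [CStarAlgebra A] (α : G →* (A ≃⋆ₐ[ℂ] A))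
    (g : G) (x : A) : ‖α g x‖ = ‖x‖ :=
  NonUnitalStarAlgHom.norm_map (α g) (α g).injective x

theorem const1 (Q : ℝ) (hQ0 : 0 ≤ Q) (ε : ℝ) (hε : 0 < ε) : ∃ η > 0, 3 * η ≤ 3 ∧ 3 * η < ε ∧
    3 * η * (1 + Q) ^ 2 < ε ^ 2 ∧ 3 * η * Q + η < ε := by
  refine ⟨min (min 1 (ε / 4)) (min (ε ^ 2 / (4 * (1 + Q) ^ 2)) (ε / (4 * Q + 4))),
    by positivity, ?_, ?_, ?_, ?_⟩
  · have h1 := (min_le_left (min 1 (ε / 4))
      (min (ε ^ 2 / (4 * (1 + Q) ^ 2)) (ε / (4 * Q + 4)))).trans (min_le_left _ _)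
    linarith
  · have h1 := (min_le_left (min 1 (ε / 4))
      (min (ε ^ 2 / (4 * (1 + Q) ^ 2)) (ε / (4 * Q + 4)))).trans (min_le_right _ _)
    linarith
  · have h1 := (min_le_right (min 1 (ε / 4))
      (min (ε ^ 2 / (4 * (1 + Q) ^ 2)) (ε / (4 * Q + 4)))).trans (min_le_left _ _)
    have h2 : (0 : ℝ) < (1 + Q) ^ 2 := by positivity
    calc 3 * min (min 1 (ε / 4)) (min (ε ^ 2 / (4 * (1 + Q) ^ 2)) (ε / (4 * Q + 4))) *
          (1 + Q) ^ 2
        ≤ 3 * (ε ^ 2 / (4 * (1 + Q) ^ 2)) * (1 + Q) ^ 2 := by gcongr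
      _ = 3 / 4 * ε ^ 2 := by field_simp
      _ < ε ^ 2 := by have : 0 < ε ^ 2 := by positivity
                      linarith
  · have h1 := (min_le_right (min 1 (ε / 4))
      (min (ε ^ 2 / (4 * (1 + Q) ^ 2)) (ε / (4 * Q + 4)))).trans (min_le_right _ _)
    have h2 : (0 : ℝ) < 4 * Q + 4 := by positivity
    have h3 : 0 < min (min 1 (ε / 4)) (min (ε ^ 2 / (4 * (1 + Q) ^ 2)) (ε / (4 * Q + 4))) := by
      positivity
    generalize min (min 1 (ε / 4)) (min (ε ^ 2 / (4 * (1 + Q) ^ 2)) (ε / (4 * Q + 4))) = t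
      at h1 h3 ⊢
    rw [le_div_iff₀ h2] at h1
    nlinarith [mul_nonneg h3.le hQ0]

/-- approximate unit which commutes approximately -/
theorem exists_unit4 {G : Type*} [Group G] {M : Type u} [CStarAlgebra M]
    {A : Set M} (hA : IsCore A) {α : G →* (M ≃⋆ₐ[ℂ] M)} {κ : ℕ → ℕ → M} (hκ : ChFam A α κ)
    (Fa : Finset M) (hFa : ∀ a ∈ Fa, a ∈ A) (C : Finset M) (t : ℝ) (ht : 0 < t) :
    ∃ j, ‖κ j 4 * κ j 4 * (κ j 4 * κ j 4)‖ ≤ 1 ∧
      (∀ a ∈ Fa, ‖κ j 4 * κ j 4 * (κ j 4 * κ j 4) * a - a‖ ≤ 4 * t) ∧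
      ∀ c ∈ C, ‖κ j 4 * κ j 4 * (κ j 4 * κ j 4) * c - c * (κ j 4 * κ j 4 * (κ j 4 * κ j 4))‖ ≤
        8 * t := by
  classical
  choose sc hsc using hA.codim
  obtain ⟨j, hj⟩ := hκ.unit (Fa ∪ C.image (fun c => c - sc c • (1 : M))) (by
      intro a ha
      rcases Finset.mem_union.1 ha with h | h
      · exact hFa a h
      · obtain ⟨i, -, rfl⟩ := Finset.mem_image.1 h
        exact hsc _) t ht
  have hk1 : ‖κ j 4‖ ≤ 1 := (hκ.ch j).le 4
  refine ⟨j, ?_, ?_, ?_⟩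
  · have h1 : ‖κ j 4 * κ j 4‖ ≤ 1 := (norm_mul_le _ _).trans (by nlinarith [norm_nonneg (κ j 4)])
    exact (norm_mul_le _ _).trans (by nlinarith [norm_nonneg (κ j 4 * κ j 4)])
  · exact fun a ha => (pow4_unit hk1 (hj 4 a (Finset.mem_union_left _ ha)).1
      (hj 4 a (Finset.mem_union_left _ ha)).2).1
  · intro c hc
    have h1 := hj 4 (c - sc c • (1 : M))
      (Finset.mem_union_right _ (Finset.mem_image.2 ⟨c, hc, rfl⟩))
    obtain ⟨h2, h3⟩ := pow4_unit hk1 h1.1 h1.2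
    generalize κ j 4 * κ j 4 * (κ j 4 * κ j 4) = h at h2 h3 ⊢
    generalize sc c = z at h2 h3
    have h5 : h * c - c * h = (h * (c - z • (1 : M)) - (c - z • (1 : M))) -
        ((c - z • (1 : M)) * h - (c - z • (1 : M))) := by
      rw [mul_sub, sub_mul, mul_smul_comm, smul_mul_assoc, mul_one, one_mul]
      abel
    rw [h5]
    exact (norm_sub_le _ _).trans (by linarith)

theorem comm_est {ω : Ultrafilter ℕ} {M : Type u} [CStarAlgebra M] {e : Ultra ω M}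
    (he : ‖e‖ ≤ 1) {h c : M} {t : ℝ} (hc : Commute (Ultra.diag ω c) e)
    (h1 : ‖h * c - c * h‖ ≤ t) :
    ‖e * Ultra.diag ω h * Ultra.diag ω c - Ultra.diag ω c * (e * Ultra.diag ω h)‖ ≤ t := by
  have h2 : e * Ultra.diag ω h * Ultra.diag ω c - Ultra.diag ω c * (e * Ultra.diag ω h) =
      e * Ultra.diag ω (h * c - c * h) := by
    rw [map_sub, map_mul (Ultra.diag ω) h c, map_mul (Ultra.diag ω) c h, mul_sub,
      ← mul_assoc (Ultra.diag ω c), hc.eq]
    simp only [mul_assoc]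
  rw [h2]
  refine (norm_mul_le _ _).trans ?_
  rw [Ultra.norm_diag]
  nlinarith [norm_nonneg e, norm_nonneg (h * c - c * h)]

theorem fa_est {ω : Ultrafilter ℕ} {M : Type u} [CStarAlgebra M] {e : Ultra ω M}
    (he : ‖e‖ ≤ 1) {h a : M} {t : ℝ}
    (h1 : ‖h * a - a‖ ≤ t) :
    ‖(e * Ultra.diag ω h - e) * Ultra.diag ω a‖ ≤ t := by
  have h2 : (e * Ultra.diag ω h - e) * Ultra.diag ω a = e * Ultra.diag ω (h * a - a) := by
    rw [map_sub, map_mul (Ultra.diag ω) h a, mul_sub, sub_mul, mul_assoc]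
  rw [h2]
  refine (norm_mul_le _ _).trans ?_
  rw [Ultra.norm_diag]
  nlinarith [norm_nonneg e, norm_nonneg (h * a - a)]

section Piece

variable {G : Type*} [Group G] {ω : Ultrafilter ℕ} {M : Type u} [CStarAlgebra M]

theorem sand {r u : Ultra ω M} (hr : ‖r‖ ≤ 1) (hu : ‖u‖ ≤ 1) (d : M) :
    ‖star r * Ultra.diag ω d * u‖ ≤ ‖d‖ := by
  calc ‖star r * Ultra.diag ω d * u‖ ≤ ‖star r‖ * ‖Ultra.diag ω d‖ * ‖u‖ :=
        (norm_mul_le _ _).trans (mul_le_mul_of_nonneg_right (norm_mul_le _ _) (norm_nonneg _))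
    _ ≤ 1 * ‖d‖ * 1 := by
        rw [norm_star, Ultra.norm_diag]
        gcongr
    _ = ‖d‖ := by ring

theorem star_fix {r : Ultra ω M} {y : M} (hy : IsSelfAdjoint y) (h : Ultra.diag ω y * r = r) :
    star r * Ultra.diag ω y = star r := by
  have h1 := congrArg star h
  rwa [star_mul, ← map_star (Ultra.diag ω), hy.star_eq] at h1

theorem compr {r r' : Ultra ω M} {y y' : M} (hy : IsSelfAdjoint y) (h : Ultra.diag ω y * r = r)
    (h' : Ultra.diag ω y' * r' = r') (d : M) :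
    star r * Ultra.diag ω d * r' = star r * Ultra.diag ω (y * d * y') * r' := by
  rw [map_mul, map_mul]
  calc star r * Ultra.diag ω d * r' =
      (star r * Ultra.diag ω y) * Ultra.diag ω d * (Ultra.diag ω y' * r') := by
        rw [star_fix hy h, h']
    _ = _ := by noncomm_ring

theorem kone {r E : Ultra ω M} (hr : ‖r‖ ≤ 1) {y : M} (hy : IsSelfAdjoint y)
    (h : Ultra.diag ω y * r = r) (hE : star r * r = E) {d : M} {l : ℂ} {δ : ℝ}
    (h1 : ‖y * d * y - l • (y * y)‖ ≤ δ) : ‖star r * Ultra.diag ω d * r - l • E‖ ≤ δ := by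
  have h3 : star r * Ultra.diag ω d * r - l • E =
      star r * Ultra.diag ω (y * d * y - l • (y * y)) * r := by
    have h2 : star r * Ultra.diag ω (y * y) * r = E := by
      rw [map_mul, ← mul_assoc, star_fix hy h, mul_assoc, h, hE]
    rw [map_sub, map_smul, mul_sub, sub_mul, ← compr hy h h, mul_smul_comm, smul_mul_assoc, h2]
  rw [h3]
  exact (sand hr hr _).trans h1

theorem ktwo {r r' : Ultra ω M} (hr : ‖r‖ ≤ 1) (hr' : ‖r'‖ ≤ 1) {y y' : M}
    (hy : IsSelfAdjoint y) (h : Ultra.diag ω y * r = r) (h' : Ultra.diag ω y' * r' = r')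
    {d : M} {δ : ℝ} (h1 : ‖y * d * y'‖ ≤ δ) : ‖star r * Ultra.diag ω d * r'‖ ≤ δ := by
  rw [compr hy h h']
  exact (sand hr hr' _).trans h1

/-- the shifts, algebraic part -/
theorem core2 {α : G →* (M ≃⋆ₐ[ℂ] M)} (F : Finset M) (K : Finset G) {m k : ℕ}
    (lam : Fin m → M →ₗ[ℂ] ℂ) (b c : Fin m × Fin k → M) (E : Ultra ω M) (hE1 : ‖E‖ ≤ 1)
    (rho : Fin m × Fin 2 → Ultra ω M) (hrho1 : ∀ p, ‖rho p‖ ≤ 1) (F' : Finset M)
    (h1F : (1 : M) ∈ F') (hm1 : ∀ a ∈ F, a ∈ F') (hm2 : ∀ a ∈ F, star a ∈ F')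
    (hm3 : ∀ a ∈ F, star a * a ∈ F')
    {η δ L t Λ Q : ℝ} (hη : 0 < η) (hδ : 0 < δ) (ht : 0 < t)
    (hL : ∑ i, ‖c i‖ ≤ L) (hδL : δ * L * L ≤ η)
    (hEc : ∀ i, ‖E * Ultra.diag ω (c i) - Ultra.diag ω (c i) * E‖ ≤ t) (htΛ : t * Λ ≤ η)
    (hΛ : ∀ a ∈ F', ∑ p, ∑ i, ∑ j,
      ‖lam p (star (b (p, i)) * a * b (p, j))‖ * ‖c (p, i)‖ ≤ Λ)
    (happ : ∀ a ∈ F', ‖∑ p, ∑ i, ∑ j, lam p (star (b (p, i)) * a * b (p, j)) •
      (star (c (p, i)) * c (p, j)) - a‖ < η)
    (k1 : ∀ p l, ∀ i j, ∀ a ∈ F', ‖star (rho (p, l)) *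
      Ultra.diag ω (star (b (p, i)) * a * b (p, j)) * rho (p, l) -
      lam p (star (b (p, i)) * a * b (p, j)) • E‖ ≤ δ)
    (k2 : ∀ p p' : Fin m × Fin 2, p ≠ p' → ∀ i j, ∀ a ∈ F', ‖star (rho p) *
      Ultra.diag ω (star (b (p.1, i)) * a * b (p'.1, j)) * rho p'‖ ≤ δ)
    (hQ : ∀ a ∈ F, ‖a‖ ≤ Q) (hQ0 : 0 ≤ Q) :
    ∃ s : Fin 2 → Ultra ω M, (s = fun l => shiftEl (Ultra.diag ω) b c fun i => rho (i.1, l)) ∧
      (∀ l, ‖star (s l) * s l - E‖ ≤ 3 * η) ∧ (∀ l l', l ≠ l' → ‖star (s l) * s l'‖ ≤ η) ∧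
      ∀ l, ∀ a ∈ F, ‖Ultra.diag ω a * s l - s l * Ultra.diag ω a‖ ^ 2 ≤
        3 * η * (1 + Q) ^ 2 := by
  classical
  have hL0 : 0 ≤ L := (Finset.sum_nonneg fun i _ => norm_nonneg _).trans hL
  refine ⟨_, rfl, ?_⟩
  set s : Fin 2 → Ultra ω M := fun l => shiftEl (Ultra.diag ω) b c fun i => rho (i.1, l) with hs
  have hT : ∀ l, ∀ a ∈ F', ‖star (s l) * Ultra.diag ω a * s l - Ultra.diag ω a * E‖ ≤ 3 * η := by
    intro l a ha
    have h1 := shift_core' (Ultra.diag ω) hE1 lam b c (fun p => rho (p, l)) a δ η L t Λ hL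
      hδ.le hEc (hΛ a ha)
      (fun p i j => k1 p l i j a ha)
      (fun p q i j hpq => k2 (p, l) (q, l) (fun h => hpq (congrArg Prod.fst h)) i j a ha)
      (happ a ha) ht.le
    exact h1.trans (by linarith)
  have hT1 : ∀ l, ‖star (s l) * s l - E‖ ≤ 3 * η := by
    intro l
    have := hT l 1 h1F
    rwa [map_one, mul_one, one_mul] at this
  have hL4 : ∑ i, ‖Ultra.diag ω (c i)‖ ≤ L := by
    refine le_trans (le_of_eq ?_) hL
    exact Finset.sum_congr rfl fun i _ => Ultra.norm_diag _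
  have hoff : ∀ l l', l ≠ l' → ‖star (s l) * s l'‖ ≤ η := by
    intro l l' hl
    have h2 := star_mul_shiftEl (Ultra.diag ω) b c b c (fun i => rho (i.1, l))
      (fun i => rho (i.1, l')) 1
    rw [map_one, mul_one] at h2
    rw [show star (s l) * s l' = _ from h2]
    have h3 := norm_sum_sum_le (fun i => Ultra.diag ω (c i)) (fun i => Ultra.diag ω (c i))
      (fun i j => star (rho (i.1, l)) * Ultra.diag ω (star (b i) * 1 * b j) * rho (j.1, l')) δ
      (fun i j => k2 (i.1, l) (j.1, l') (fun h => hl (congrArg Prod.snd h)) i.2 j.2 1 h1F)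
    refine h3.trans (le_trans ?_ hδL)
    have h0 : 0 ≤ ∑ i, ‖Ultra.diag ω (c i)‖ := Finset.sum_nonneg fun i _ => norm_nonneg _
    gcongr
  refine ⟨hT1, hoff, ?_⟩
  intro l a ha
  have m1 := hm1 a ha
  have m2 := hm2 a ha
  have m3 := hm3 a ha
  exact norm_comm_sq_le' (e := E) (s := s l) (d := Ultra.diag ω a) (3 * η) Q
    ((Ultra.norm_diag (ω := ω) a).le.trans (hQ a ha)) hQ0 (hT1 l) (hT l a m1)
    (by rw [← map_star (Ultra.diag ω)]; exact hT l _ m2)
    (by rw [← map_star (Ultra.diag ω), ← map_mul]; exact hT l _ m3)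

/-- the shifts, translates -/
theorem core3 {α : G →* (M ≃⋆ₐ[ℂ] M)} (g : G) {m k : ℕ}
    (b c : Fin m × Fin k → M)
    (rho : Fin m × Fin 2 → Ultra ω M) {η δ L : ℝ} (hδ : 0 < δ)
    (hL : ∑ i, ‖c i‖ ≤ L) (hδL : δ * L * L ≤ η)
    (k3 : ∀ (p p' : Fin m × Fin 2) (i j : Fin k), ‖star (rho p) *
      Ultra.diag ω (star (b (p.1, i)) * α g (b (p'.1, j))) * ultraAct ω α g (rho p')‖ ≤ δ)
    (s : Fin 2 → Ultra ω M) (hs : s = fun l => shiftEl (Ultra.diag ω) b c fun i => rho (i.1, l))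
    (l l' : Fin 2) :
    ‖star (s l) * ultraAct ω α g (s l')‖ ≤ η := by
  have hsl : ∀ l, s l = shiftEl (Ultra.diag ω) b c fun i => rho (i.1, l) := fun l => by rw [hs]
  clear hs
  have hL0 : 0 ≤ L := (Finset.sum_nonneg fun i _ => norm_nonneg _).trans hL
  let rho' : Fin m × Fin k → Ultra ω M := fun i => ultraAct ω α g (rho (i.1, l'))
  have h1 : ultraAct ω α g (s l') =
      shiftEl (Ultra.diag ω) (fun i => α g (b i)) (fun i => α g (c i)) rho' := by
    rw [hsl]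
    simp only [shiftEl]
    rw [map_sum]
    refine Finset.sum_congr rfl fun i _ => ?_
    rw [map_mul, map_mul, ← ultraAct_diag, ← ultraAct_diag]
  have h2 := star_mul_shiftEl (Ultra.diag ω) b c (fun i => α g (b i)) (fun i => α g (c i))
    (fun i => rho (i.1, l)) rho' 1
  rw [map_one, mul_one, ← h1, ← hsl] at h2
  rw [h2]
  have h3 := norm_sum_sum_le (fun i => Ultra.diag ω (c i)) (fun i => Ultra.diag ω (α g (c i)))
    (fun i j => star (rho (i.1, l)) * Ultra.diag ω (star (b i) * 1 * α g (b j)) * rho' j) δ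
    (fun i j => by
      rw [mul_one]
      exact k3 (i.1, l) (j.1, l') i.2 j.2)
  refine h3.trans (le_trans ?_ hδL)
  have h4 : ∑ i, ‖Ultra.diag ω (c i)‖ ≤ L := by
    refine le_trans (le_of_eq ?_) hL
    exact Finset.sum_congr rfl fun i _ => Ultra.norm_diag _
  have h5 : ∑ i, ‖Ultra.diag ω (α g (c i))‖ ≤ L := by
    refine le_trans (le_of_eq ?_) hL
    refine Finset.sum_congr rfl fun i _ => ?_
    rw [Ultra.norm_diag]
    exact norm_act α g _
  have h0 : 0 ≤ ∑ i, ‖Ultra.diag ω (c i)‖ := Finset.sum_nonneg fun i _ => norm_nonneg _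
  have h0' : 0 ≤ ∑ i, ‖Ultra.diag ω (α g (c i))‖ := Finset.sum_nonneg fun i _ => norm_nonneg _
  gcongr

end Piece

theorem core {G : Type*} [Group G] {ω : Ultrafilter ℕ} {M : Type u} [CStarAlgebra M]
    {A : Set M} {α : G →* (M ≃⋆ₐ[ℂ] M)} {B : Type u} [CStarAlgebra B]
    {q : centralSeq ω M →⋆ₐ[ℂ] B} {β : G →* (B ≃⋆ₐ[ℂ] B)} {κ : ℕ → ℕ → M}
    (hexc : ExcApproxIn A)
    (R : RelSys ω A α q β) (hκ : ChFam A α κ)
    (e : centralSeq ω M) (he1 : ‖e‖ ≤ 1)
    (F Fa : Finset M) (hFa : ∀ a ∈ Fa, a ∈ A) (K : Finset G)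
    (hcompare : ∀ (x : M), x ∈ A → IsPos x → x ≠ 0 → ∀ j : ℕ,
      ∃ r : Ultra ω M, ‖r‖ ≤ 1 ∧ (∀ y : M, y * x = x → Ultra.diag ω y * r = r) ∧
      star r * r = (e : Ultra ω M) * Ultra.diag ω (κ j 4 * κ j 4 * (κ j 4 * κ j 4)))
    (hexcisors : ∀ {m : ℕ} (lam : Fin m → M →ₗ[ℂ] ℂ)
      (_ : ∀ p, ExcisableIn A (lam p)) (F : Finset M) (δ : ℝ) (_ : 0 < δ),
      ∃ x y : Fin m → M, (∀ p, x p ∈ A) ∧ (∀ p, y p ∈ A) ∧ (∀ p, IsPos (x p)) ∧
      (∀ p, x p ≠ 0) ∧ (∀ p, ‖y p‖ ≤ 1) ∧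
      (∀ p, IsSelfAdjoint (y p)) ∧ (∀ p, y p * x p = x p) ∧
      (∀ p, ∀ a ∈ F, ‖y p * a * y p - lam p a • (y p * y p)‖ ≤ δ) ∧
      (∀ p q, p ≠ q → ∀ a ∈ F, ‖y p * a * y q‖ ≤ δ) ∧
      ∀ p q, ∀ g ∈ K, ∀ a ∈ F, ‖y p * a * α g (y q)‖ ≤ δ)
    (ε : ℝ) (hε : 0 < ε) :
    ∃ s : Fin 2 → Ultra ω M, (∀ i, ‖s i‖ ≤ 2) ∧
      (∀ i j, ∀ a ∈ Fa, ‖(star (s i) * s j - (if i = j then (e : Ultra ω M) else 0)) *
        Ultra.diag ω a‖ < ε) ∧
      (∀ i, ∀ a ∈ F, ‖Ultra.diag ω a * s i - s i * Ultra.diag ω a‖ < ε) ∧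
      ∀ i j, ∀ g ∈ K, ‖star (s i) * ultraAct ω α g (s j)‖ < ε := by
  classical
  -- constants
  set Q : ℝ := ∑ a ∈ F ∪ Fa, ‖a‖ with hR
  have hQ0 : 0 ≤ Q := Finset.sum_nonneg fun a _ => norm_nonneg a
  have hQa : ∀ a ∈ F ∪ Fa, ‖a‖ ≤ Q := fun a ha =>
    Finset.single_le_sum (f := fun a => ‖a‖) (fun a _ => norm_nonneg a) ha
  obtain ⟨η, hη, hη0, hη1, hη2, hη3⟩ := const1 Q hQ0 ε hε
  let F' : Finset M := {1} ∪ F ∪ F.image star ∪ F.image fun a => star a * a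
  obtain ⟨m, k, lam, b, c, hlam, happ⟩ := hexc F' η hη
  set L : ℝ := ∑ i : Fin m × Fin k, ‖c i.1 i.2‖ with hLdef
  have hL0 : 0 ≤ L := Finset.sum_nonneg fun a _ => norm_nonneg _
  obtain ⟨δ, hδ, hδL⟩ : ∃ δ > 0, δ * L * L ≤ η := by
    refine ⟨η / (L * L + 1), by positivity, ?_⟩
    rw [mul_assoc, div_mul_eq_mul_div, div_le_iff₀ (by positivity)]
    nlinarith [mul_nonneg hL0 hL0]
  -- the constant for the commutators
  let Λa : M → ℝ := fun a => ∑ p, ∑ i, ∑ j, ‖lam p (star (b p i) * a * b p j)‖ * ‖c p i‖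
  set Λ : ℝ := ∑ a ∈ F', Λa a with hΛdef
  have hΛa0 : ∀ a, 0 ≤ Λa a := fun a => Finset.sum_nonneg fun p _ => Finset.sum_nonneg fun i _ =>
    Finset.sum_nonneg fun j _ => by positivity
  have hΛ0 : 0 ≤ Λ := Finset.sum_nonneg fun a _ => hΛa0 a
  have hΛ1 : ∀ a ∈ F', Λa a ≤ Λ := fun a ha =>
    Finset.single_le_sum (f := Λa) (fun a _ => hΛa0 a) ha
  obtain ⟨t, ht, ht1, ht2⟩ : ∃ t > 0, 8 * t * Λ ≤ η ∧ 4 * t ≤ η := by
    refine ⟨η / (8 * Λ + 4), by positivity, ?_, ?_⟩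
    · rw [show 8 * (η / (8 * Λ + 4)) * Λ = (η * (8 * Λ)) / (8 * Λ + 4) by ring,
        div_le_iff₀ (by positivity)]
      nlinarith
    · rw [show 4 * (η / (8 * Λ + 4)) = (4 * η) / (8 * Λ + 4) by ring,
        div_le_iff₀ (by positivity)]
      nlinarith [mul_nonneg hΛ0 hη.le]
  obtain ⟨j, hh1, hhFa, hhc⟩ := exists_unit4 R.core hκ Fa hFa
    (Finset.univ.image (fun i : Fin m × Fin k => c i.1 i.2)) t ht
  set h : M := κ j 4 * κ j 4 * (κ j 4 * κ j 4) with hh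
  let F'' : Finset M := (Finset.univ.biUnion fun i : Fin m × Fin k =>
      Finset.univ.biUnion fun j : Fin m × Fin k =>
        (F'.image fun a => star (b i.1 i.2) * a * b j.1 j.2) ∪
        (K.image fun g => star (b i.1 i.2) * α g (b j.1 j.2)))
  have hF1 : ∀ i j : Fin m × Fin k, ∀ a ∈ F', star (b i.1 i.2) * a * b j.1 j.2 ∈ F'' := by
    intro i j a ha
    refine Finset.mem_biUnion.2 ⟨i, Finset.mem_univ _, Finset.mem_biUnion.2 ⟨j, Finset.mem_univ _,
      Finset.mem_union_left _ (Finset.mem_image_of_mem _ ha)⟩⟩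
  have hF2 : ∀ i j : Fin m × Fin k, ∀ g ∈ K, star (b i.1 i.2) * α g (b j.1 j.2) ∈ F'' := by
    intro i j g hg
    refine Finset.mem_biUnion.2 ⟨i, Finset.mem_univ _, Finset.mem_biUnion.2 ⟨j, Finset.mem_univ _,
      Finset.mem_union_right _ (Finset.mem_image.2 ⟨g, hg, rfl⟩)⟩⟩
  let ix : Fin m × Fin 2 ≃ Fin (m * 2) := finProdFinEquiv
  obtain ⟨x, y, hxA, hyA, hx, hx0, hy1, hysa, hyx, hexc1, hexc2, hexc3⟩ :=
    hexcisors (fun q : Fin (m * 2) => lam (ix.symm q).1) (fun q => hlam _) F'' δ hδ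
  choose r hr1 hry0 hrE using fun p => hcompare (x p) (hxA p) (hx p) (hx0 p) j
  clear_value F''
  have he1' : ‖(e : Ultra ω M)‖ ≤ 1 := he1
  set E : Ultra ω M := (e : Ultra ω M) * Ultra.diag ω h with hEdef
  have hE1 : ‖E‖ ≤ 1 := by
    refine (norm_mul_le _ _).trans ?_
    rw [Ultra.norm_diag]
    nlinarith [norm_nonneg (e : Ultra ω M), norm_nonneg h]
  have hecomm : ∀ a, Commute (Ultra.diag ω a) (e : Ultra ω M) :=
    fun a => mem_centralSeq_iff.1 e.2 a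
  have hEc : ∀ i : Fin m × Fin k, ‖E * Ultra.diag ω (c i.1 i.2) -
      Ultra.diag ω (c i.1 i.2) * E‖ ≤ 8 * t := by
    intro i
    have h2 := hhc _ (Finset.mem_image.2 ⟨i, Finset.mem_univ _, rfl⟩)
    exact comm_est he1' (hecomm _) h2
  have hEFa : ∀ a ∈ Fa, ‖(E - (e : Ultra ω M)) * Ultra.diag ω a‖ ≤ η := fun a ha =>
    fa_est he1' ((hhFa a ha).trans ht2)
  clear_value E
  let b' : Fin m × Fin k → M := fun i => b i.1 i.2
  let c' : Fin m × Fin k → M := fun i => c i.1 i.2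
  let rho : Fin m × Fin 2 → Ultra ω M := fun p => r (ix p)
  obtain ⟨s, hs, hs1, hs2, hs3⟩ := core2 (α := α) F K lam b' c' E hE1 rho (fun p => hr1 _) F'
    (by simp [F'])
    (fun a ha => by simp [F', ha])
    (fun a ha => by
      simp only [F', Finset.mem_union, Finset.mem_image]
      exact Or.inl (Or.inr ⟨a, ha, rfl⟩))
    (fun a ha => by
      simp only [F', Finset.mem_union, Finset.mem_image]
      exact Or.inr ⟨a, ha, rfl⟩)
    (η := η) (δ := δ) (L := L) (t := 8 * t) (Λ := Λ) (Q := Q) hη hδ (by positivity)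
    le_rfl hδL hEc ht1 hΛ1 happ
    (by
      intro p l i i' a ha
      have h1 := hexc1 (ix (p, l)) _ (hF1 (p, i) (p, i') a ha)
      rw [Equiv.symm_apply_apply] at h1
      exact kone (hr1 _) (hysa _) (hry0 _ _ (hyx _)) (hrE _) h1)
    (by
      intro p p' hpp i i' a ha
      have h1 := hexc2 (ix p) (ix p') (fun h => hpp (ix.injective h)) _
        (hF1 (p.1, i) (p'.1, i') a ha)
      exact ktwo (hr1 _) (hr1 _) (hysa _) (hry0 _ _ (hyx _)) (hry0 _ _ (hyx _)) h1)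
    (fun a ha => hQa a (Finset.mem_union_left _ ha)) hQ0
  refine ⟨s, ?_, ?_, ?_, ?_⟩
  · intro l
    have h1 : ‖s l‖ * ‖s l‖ ≤ 4 := by
      rw [← CStarRing.norm_star_mul_self]
      calc ‖star (s l) * s l‖ = ‖(star (s l) * s l - E) + E‖ := by rw [sub_add_cancel]
        _ ≤ ‖star (s l) * s l - E‖ + ‖E‖ := norm_add_le _ _
        _ ≤ 4 := by linarith [hs1 l]
    nlinarith [norm_nonneg (s l)]
  · intro l l' a ha
    have hDa : ‖Ultra.diag ω a‖ ≤ Q :=
      (Ultra.norm_diag (ω := ω) a).le.trans (hQa a (Finset.mem_union_right _ ha))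
    by_cases hl : l = l'
    · subst hl
      rw [if_pos rfl]
      have h1 : (star (s l) * s l - (e : Ultra ω M)) * Ultra.diag ω a =
          (star (s l) * s l - E) * Ultra.diag ω a +
            (E - (e : Ultra ω M)) * Ultra.diag ω a := by noncomm_ring
      rw [h1]
      refine (norm_add_le _ _).trans_lt ?_
      have h2 : ‖(star (s l) * s l - E) * Ultra.diag ω a‖ ≤ 3 * η * Q :=
        (norm_mul_le _ _).trans (mul_le_mul (hs1 l) hDa (norm_nonneg _) (by positivity))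
      linarith [hEFa a ha]
    · rw [if_neg hl, sub_zero]
      refine (norm_mul_le _ _).trans_lt ?_
      have h2 : ‖star (s l) * s l'‖ * ‖Ultra.diag ω a‖ ≤ η * Q :=
        mul_le_mul (hs2 l l' hl) hDa (norm_nonneg _) hη.le
      refine h2.trans_lt ?_
      nlinarith [mul_nonneg hη.le hQ0]
  · intro l a ha
    exact lt_of_pow_lt_pow_left₀ 2 hε.le ((hs3 l a ha).trans_lt hη2)
  · intro l l' g hg
    refine lt_of_le_of_lt (core3 (α := α) g b' c' rho (η := η) hδ le_rfl hδL ?_ s hs l l') ?_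
    · intro p p' i i'
      have h1 := hexc3 (ix p) (ix p') g hg _ (hF2 (p.1, i) (p'.1, i') g hg)
      refine ktwo (hr1 _) ?_ (hysa _) (hry0 _ _ (hyx _)) ?_ h1
      · rw [norm_act]
        exact hr1 _
      · rw [← ultraAct_diag, ← map_mul]
        exact congrArg _ (hry0 _ _ (hyx _))
    · linarith

end RShiftApprox

end Vale.Agent.P095.NU
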