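import Vale.Agent.P095.NU.RLimTrace
import Vale.Agent.P095.NU.RCopiesJ

/-!
# P095, non-unital case, row G10: the relative central sequence algebra is a tracial system
-/

open Filter Topology TopologicalSpace
open scoped BoundedContinuousFunction ComplexOrder

namespace Vale.Agent.P095.NU

open Vale.Agent.P101

universe u v w

namespace RTrac

variable {G : Type*} [Group G] {ω : Ultrafilter ℕ} {M : Type u} [CStarAlgebra M]
  {A : Set M} {α : G →* (M ≃⋆ₐ[ℂ] M)} {B : Type u} [CStarAlgebra B]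
  {q : centralSeq ω M →⋆ₐ[ℂ] B} {β : G →* (B ≃⋆ₐ[ℂ] B)} {κ : ℕ → ℕ → M}

theorem exists_seq (R : RelSys ω A α q β) (b : B) :
    ∃ (y : ℕ →ᵇ M) (hy : Ultra.mk ω y ∈ centralSeq ω M), q ⟨Ultra.mk ω y, hy⟩ = b := by
  obtain ⟨x, hx, -⟩ := R.lift b
  obtain ⟨y, hy⟩ := Ultra.mk_surjective (x : Ultra ω M)
  refine ⟨y, by rw [hy]; exact x.2, ?_⟩
  rw [← hx]
  congr 1
  exact Subtype.ext hy

theorem isTrace_of_mem (R : RelSys ω A α q β) (hκ : ChFam A α κ) {τ : B →ₗ[ℂ] ℂ}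
    (hτ : τ ∈ relT ω κ q) : IsTrace τ := by
  obtain ⟨j, σ, hσ, hlim⟩ := hτ
  obtain ⟨τ', h1, h2⟩ := exists_limit_trace R (hκ.ch j) σ hσ
  have : τ = τ' := by
    refine LinearMap.ext fun b => ?_
    obtain ⟨y, hy, rfl⟩ := exists_seq R b
    exact tendsto_nhds_unique (hlim y hy) (h2 y hy)
  rw [this]
  exact h1

theorem isLTrace_comp {k : M} {τ : M →ₗ[ℂ] ℂ} (h : IsLTrace k τ) (φ : M ≃⋆ₐ[ℂ] M) {k' : M}
    (hk' : φ k' = k) :
    IsLTrace k' (τ ∘ₗ (φ : M →⋆ₐ[ℂ] M).toAlgHom.toLinearMap) := by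
  have hm : ∀ x ∈ LU k', φ x ∈ LU k := by
    intro x hx
    refine ⟨?_, ?_⟩
    · rw [← hk', ← map_mul, hx.1]
    · rw [← hk', ← map_mul, hx.2]
  refine ⟨fun x hx => ?_, fun x hx y hy => ?_⟩
  · change 0 ≤ τ (φ (star x * x))
    rw [map_mul, map_star]
    exact h.nonneg _ (hm x hx)
  · change τ (φ (x * y)) = τ (φ (y * x))
    rw [map_mul φ, map_mul φ]
    exact h.trace _ (hm x hx) _ (hm y hy)

theorem inv_mem (R : RelSys ω A α q β) (hκ : ChFam A α κ) {τ : B →ₗ[ℂ] ℂ}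
    (hτ : τ ∈ relT ω κ q) (g : G) :
    τ ∘ₗ (β g : B →⋆ₐ[ℂ] B).toAlgHom.toLinearMap ∈ relT ω κ q := by
  obtain ⟨j, σ, hσ, hlim⟩ := hτ
  obtain ⟨j', hj'⟩ := hκ.inv g⁻¹ j
  have hinv : ∀ x : M, α g (α g⁻¹ x) = x := fun x => by
    rw [← StarAlgEquiv.mul_apply, ← map_mul, mul_inv_cancel, map_one]
    rfl
  have hg : ∀ i, α g (κ j' i) = κ j i := fun i => by rw [hj', hinv]
  refine ⟨j', fun n => σ n ∘ₗ (α g : M →⋆ₐ[ℂ] M).toAlgHom.toLinearMap, fun n => ⟨?_, ?_⟩, ?_⟩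
  · exact isLTrace_comp (hσ n).1 (α g) (hg 1)
  · change σ n (α g (κ j' 3 * κ j' 3)) = 1
    rw [map_mul (α g), hg, (hσ n).2]
  · intro y hy
    change Tendsto (fun n => σ n (α g (κ j' 3 * y n * κ j' 3))) ω
      (𝓝 (τ (β g (q ⟨Ultra.mk ω y, hy⟩))))
    rw [R.act]
    have hz : Ultra.mk ω (seqMap (α g : M →⋆ₐ[ℂ] M) y) =
        ((centralAct ω α g ⟨Ultra.mk ω y, hy⟩ : centralSeq ω M) : Ultra ω M) := by
      rw [coe_centralAct, ultraAct_mk]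
    have hz' : Ultra.mk ω (seqMap (α g : M →⋆ₐ[ℂ] M) y) ∈ centralSeq ω M := by
      rw [hz]
      exact (centralAct ω α g ⟨Ultra.mk ω y, hy⟩).2
    have h1 := hlim (seqMap (α g : M →⋆ₐ[ℂ] M) y) hz'
    have h2 : (⟨Ultra.mk ω (seqMap (α g : M →⋆ₐ[ℂ] M) y), hz'⟩ : centralSeq ω M) =
        centralAct ω α g ⟨Ultra.mk ω y, hy⟩ := Subtype.ext hz
    rw [h2] at h1
    refine h1.congr fun n => ?_
    rw [map_mul (α g), map_mul (α g), hg]
    rfl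

end RTrac

section Sys2

variable {G : Type*} [Group G] [Countable G] {ω : Ultrafilter ℕ} {M : Type u} [CStarAlgebra M]
  [SeparableSpace M] {A : Set M} {α : G →* (M ≃⋆ₐ[ℂ] M)} {B : Type u} [CStarAlgebra B]
  {q : centralSeq ω M →⋆ₐ[ℂ] B} {β : G →* (B ≃⋆ₐ[ℂ] B)} {κ : ℕ → ℕ → M}

theorem tracialSystem_rel (hω : (ω : Filter ℕ) ≤ cofinite) (R : RelSys ω A α q β)
    (hκ : ChFam A α κ) : TracialSystem β (relT ω κ q) (relNull ω κ q) where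
  trace := fun _ hτ => RTrac.isTrace_of_mem R hκ hτ
  inv := fun _ hτ g => RTrac.inv_mem R hκ hτ g
  copies := hasEqCopies_rel hω R hκ
  null := fun _ => Iff.rfl

end Sys2

end Vale.Agent.P095.NU
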