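import Vale.Agent.P095.NU.LTr
import Vale.Agent.P095.NU.ChainAux
import Vale.Agent.P095.NU.RAvgShift
import Vale.Agent.P095.NU.RLimTrace
import Vale.Agent.P095.NU.RTracial
import Vale.Agent.P095.FixedSigns

/-!
# P095, T7, row G12: fixed signs relative to the ideal
-/

open Filter Topology TopologicalSpace
open scoped BoundedContinuousFunction ComplexOrder

namespace Vale.Agent.P095.NU

open Vale.Agent.P101

universe u v w

namespace RSign

section Abs

variable {M : Type u} [CStarAlgebra M] {A : Set M} {k : ℕ → M}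

/-- The supremum of the absolute values over the normalised traces. -/
noncomputable def cAbs (k : ℕ → M) (x : M) : ℝ :=
  ⨆ τ : {τ : M →ₗ[ℂ] ℂ // IsLTrace (k 1) τ ∧ τ (k 3 * k 3) = 1}, ‖τ.1 (k 3 * x * k 3)‖

theorem norm_ntr_le (hk : IsCh A k) {τ : M →ₗ[ℂ] ℂ}
    (h : IsLTrace (k 1) τ ∧ τ (k 3 * k 3) = 1) (x : M) : ‖τ (k 3 * x * k 3)‖ ≤ ‖x‖ := by
  have h1 := h.1.norm_le (C47.sa hk 1) (C47.mem_LU hk (by norm_num : 1 < 3)) (C47.sa hk 3) x
  rw [h.2, Complex.one_re, mul_one] at h1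
  exact h1

theorem bddAbove_cAbs (hk : IsCh A k) (x : M) :
    BddAbove (Set.range fun τ : {τ : M →ₗ[ℂ] ℂ // IsLTrace (k 1) τ ∧ τ (k 3 * k 3) = 1} =>
      ‖τ.1 (k 3 * x * k 3)‖) :=
  ⟨‖x‖, by rintro _ ⟨τ, rfl⟩; exact norm_ntr_le hk τ.2 x⟩

theorem cAbs_nonneg (k : ℕ → M) (x : M) : 0 ≤ cAbs k x :=
  Real.iSup_nonneg fun _ => norm_nonneg _

theorem le_cAbs (hk : IsCh A k) (x : M) {τ : M →ₗ[ℂ] ℂ}
    (h : IsLTrace (k 1) τ ∧ τ (k 3 * k 3) = 1) : ‖τ (k 3 * x * k 3)‖ ≤ cAbs k x :=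
  le_ciSup (bddAbove_cAbs hk x) ⟨τ, h⟩

theorem cAbs_le_of {x : M} {c : ℝ} (hc : 0 ≤ c)
    (h : ∀ τ : M →ₗ[ℂ] ℂ, IsLTrace (k 1) τ ∧ τ (k 3 * k 3) = 1 → ‖τ (k 3 * x * k 3)‖ ≤ c) :
    cAbs k x ≤ c :=
  Real.iSup_le (fun τ => h τ.1 τ.2) hc

end Abs

section Rel

variable {G : Type*} [Group G] {ω : Ultrafilter ℕ} {M : Type u} [CStarAlgebra M]
  {A : Set M} {α : G →* (M ≃⋆ₐ[ℂ] M)} {B : Type u} [CStarAlgebra B]
  {q : centralSeq ω M →⋆ₐ[ℂ] B} {β : G →* (B ≃⋆ₐ[ℂ] B)} {κ : ℕ → ℕ → M}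

/-- A bound for the limit traces is a bound along `ω`. -/
theorem eventually_cAbs_lt (R : RelSys ω A α q β) (hκ : ChFam A α κ) (j : ℕ) {y : ℕ →ᵇ M}
    (hy : Ultra.mk ω y ∈ centralSeq ω M) {c ε : ℝ} (hc : 0 ≤ c) (hε : c < ε)
    (h : ∀ τ ∈ relT ω κ q, ‖τ (q ⟨Ultra.mk ω y, hy⟩)‖ ≤ c) :
    ∀ᶠ n in (ω : Filter ℕ), cAbs (κ j) (y n) < ε := by
  classical
  by_contra hcon
  rw [← Ultrafilter.eventually_not] at hcon
  have h1 : ∀ n, ¬ cAbs (κ j) (y n) < ε → ∃ τ : M →ₗ[ℂ] ℂ,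
      (IsLTrace (κ j 1) τ ∧ τ (κ j 3 * κ j 3) = 1) ∧
      (c + ε) / 2 < ‖τ (κ j 3 * y n * κ j 3)‖ := by
    intro n hn
    by_contra h2
    push Not at h2
    exact hn ((cAbs_le_of (c := (c + ε) / 2) (by linarith) fun τ hτ => h2 τ hτ).trans_lt
      (by linarith))
  obtain ⟨n₀, hn₀⟩ := hcon.exists
  obtain ⟨τ₀, hτ₀, -⟩ := h1 n₀ hn₀
  let σ : ℕ → M →ₗ[ℂ] ℂ := fun n =>
    if h : ¬ cAbs (κ j) (y n) < ε then (h1 n h).choose else τ₀
  have hσ : ∀ n, IsLTrace (κ j 1) (σ n) ∧ σ n (κ j 3 * κ j 3) = 1 := by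
    intro n
    by_cases h : ¬ cAbs (κ j) (y n) < ε
    · simp only [σ, dif_pos h]
      exact (h1 n h).choose_spec.1
    · simp only [σ, dif_neg h]
      exact hτ₀
  obtain ⟨τ, -, hlim⟩ := exists_limit_trace R (hκ.ch j) σ hσ
  have hmem : τ ∈ relT ω κ q := ⟨j, σ, hσ, hlim⟩
  have h3 := (hlim y hy).norm
  have h4 : (c + ε) / 2 ≤ ‖τ (q ⟨Ultra.mk ω y, hy⟩)‖ := by
    refine ge_of_tendsto h3 (hcon.mono fun n hn => ?_)
    have h5 : σ n = (h1 n hn).choose := by simp only [σ, dif_pos hn]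
    rw [h5]
    exact (h1 n hn).choose_spec.2.le
  have := h τ hmem
  linarith

theorem tau_eq_zero (hκ : ChFam A α κ) {y : ℕ →ᵇ M} (hy : Ultra.mk ω y ∈ centralSeq ω M)
    (h : ∀ j, Tendsto (fun n => cAbs (κ j) (y n)) ω (𝓝 0)) :
    ∀ τ ∈ relT ω κ q, τ (q ⟨Ultra.mk ω y, hy⟩) = 0 := by
  rintro τ ⟨j, σ, hσ, hlim⟩
  refine tendsto_nhds_unique (hlim y hy) ?_
  rw [tendsto_zero_iff_norm_tendsto_zero]
  exact squeeze_zero (fun _ => norm_nonneg _) (fun n => le_cAbs (hκ.ch j) _ (hσ n)) (h j)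

/-- every element of `B` comes from a sequence -/
theorem exists_seq (R : RelSys ω A α q β) (b : B) :
    ∃ (y : ℕ →ᵇ M) (hy : Ultra.mk ω y ∈ centralSeq ω M), q ⟨Ultra.mk ω y, hy⟩ = b := by
  obtain ⟨x, hx, -⟩ := R.lift b
  obtain ⟨y, hy, -⟩ := Ultra.exists_rep (x : Ultra ω M)
  have hy' : Ultra.mk ω y ∈ centralSeq ω M := by
    rw [hy]
    exact x.2
  refine ⟨y, hy', ?_⟩
  rw [← hx]
  congr 1
  exact Subtype.ext hy

/-- selfadjoint contractions of `B` come from sequences of selfadjoint contractions -/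
theorem exists_sa_seq (R : RelSys ω A α q β) (s : B) (hs : IsSelfAdjoint s) (hs1 : ‖s‖ ≤ 1) :
    ∃ (y : ℕ →ᵇ M) (hy : Ultra.mk ω y ∈ centralSeq ω M), q ⟨Ultra.mk ω y, hy⟩ = s ∧
      ∀ n, IsSelfAdjoint (y n) ∧ ‖y n‖ ≤ 1 := by
  obtain ⟨x, hx, hn⟩ := R.lift s
  have h2 : ‖(1 / 2 : ℂ)‖ = 1 / 2 := by norm_num
  have e1 : q ((1 / 2 : ℂ) • (x + star x)) = s := by
    rw [map_smul, map_add, map_star, hx, hs.star_eq, ← two_smul ℂ s, smul_smul]
    norm_num
  have e2 : IsSelfAdjoint ((1 / 2 : ℂ) • (x + star x)) := by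
    rw [isSelfAdjoint_iff, star_smul, star_add, star_star, add_comm (star x)]
    congr 1
    simp
  have e3 : ‖(1 / 2 : ℂ) • (x + star x)‖ ≤ 1 := by
    rw [norm_smul, h2]
    have h3 := norm_add_le x (star x)
    have h4 : ‖star x‖ = ‖x‖ := norm_star (x : Ultra ω M)
    rw [h4, hn] at h3
    linarith
  obtain ⟨z, hz, hz'⟩ := exists_rep_selfAdjoint
    (x := (((1 / 2 : ℂ) • (x + star x) : centralSeq ω M) : Ultra ω M))
    (by rw [isSelfAdjoint_iff]; exact congrArg Subtype.val e2.star_eq) e3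
  have hy' : Ultra.mk ω z ∈ centralSeq ω M := by
    rw [hz]
    exact ((1 / 2 : ℂ) • (x + star x) : centralSeq ω M).2
  refine ⟨z, hy', ?_, hz'⟩
  rw [← e1]
  congr 1
  exact Subtype.ext hz

/-- the kernel of `q` in terms of sequences -/
theorem tendsto_of_q_eq_zero (R : RelSys ω A α q β) {y : ℕ →ᵇ M}
    (hy : Ultra.mk ω y ∈ centralSeq ω M) (h : q ⟨Ultra.mk ω y, hy⟩ = 0) (b : M) (hb : b ∈ A) :
    Tendsto (fun n => ‖y n * b‖) ω (𝓝 0) := by
  have h1 := (R.ker _).1 h b hb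
  have h2 : Ultra.mk ω (y * Ultra.const b) = 0 := by
    rw [map_mul, ← Ultra.diag_apply]
    exact h1
  rw [Ultra.mk_eq_zero_iff] at h2
  exact h2

theorem q_eq_zero_of_tendsto (R : RelSys ω A α q β) (b : ℕ → M) (hb : A ⊆ closure (Set.range b))
    {y : ℕ →ᵇ M} (hy : Ultra.mk ω y ∈ centralSeq ω M)
    (h : ∀ l, Tendsto (fun n => ‖y n * b l‖) ω (𝓝 0)) : q ⟨Ultra.mk ω y, hy⟩ = 0 := by
  apply RAvg.ker_of_dense R b hb
  intro l
  show Ultra.mk ω y * Ultra.diag ω (b l) = 0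
  rw [Ultra.diag_apply, ← map_mul, Ultra.mk_eq_zero_iff]
  exact h l

end Rel

/-- The index set of the conditions. -/
abbrev SIdx (G : Type*) := (ℕ × ℕ) ⊕ (ℕ ⊕ ((G × ℕ) ⊕ ((ℕ × ℕ) ⊕ ℕ)))

/-- The conditions of the test. -/
noncomputable def sCond {G : Type*} [Group G] {M : Type u} [CStarAlgebra M]
    (α : G →* (M ≃⋆ₐ[ℂ] M)) (κ : ℕ → ℕ → M) (a b : ℕ → M) (y : ℕ → (ℕ →ᵇ M)) :
    SIdx G → (n : ℕ) → {x : M // IsSelfAdjoint x ∧ ‖x‖ ≤ 1} → ℝ
  | Sum.inl (i, l), n, x => ‖((x : M) * y i n - y i n * x) * b l‖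
  | Sum.inr (Sum.inl j), _, x => ‖a j * x - x * a j‖
  | Sum.inr (Sum.inr (Sum.inl (g, l))), _, x => (1 + ‖b l‖)⁻¹ * ‖(α g x - x) * b l‖
  | Sum.inr (Sum.inr (Sum.inr (Sum.inl (j, i)))), n, x => cAbs (κ j) (y i n * x)
  | Sum.inr (Sum.inr (Sum.inr (Sum.inr j))), _, x =>
      cAbs (κ j) (star (1 - x * x : M) * (1 - x * x))

theorem sCond_nonneg {G : Type*} [Group G] {M : Type u} [CStarAlgebra M]
    (α : G →* (M ≃⋆ₐ[ℂ] M)) (κ : ℕ → ℕ → M) (a b : ℕ → M) (y : ℕ → (ℕ →ᵇ M)) (k : SIdx G) (n : ℕ)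
    (x : {x : M // IsSelfAdjoint x ∧ ‖x‖ ≤ 1}) : 0 ≤ sCond α κ a b y k n x := by
  rcases k with ⟨i, l⟩ | j | ⟨g, l⟩ | ⟨j, i⟩ | j
  · exact norm_nonneg _
  · exact norm_nonneg _
  · exact mul_nonneg (by positivity) (norm_nonneg _)
  · exact cAbs_nonneg _ _
  · exact cAbs_nonneg _ _

end RSign

open RSign in
theorem hasFixedSigns_rel {G : Type*} [Group G] [Countable G] {ω : Ultrafilter ℕ} {M : Type u}
    [CStarAlgebra M] [SeparableSpace M] {A : Set M} {α : G →* (M ≃⋆ₐ[ℂ] M)} {B : Type u}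
    [CStarAlgebra B] {q : centralSeq ω M →⋆ₐ[ℂ] B} {β : G →* (B ≃⋆ₐ[ℂ] B)} {κ : ℕ → ℕ → M}
    (hω : (ω : Filter ℕ) ≤ cofinite) (R : RelSys ω A α q β)
    (hκ : ChFam A α κ) (hG : ReiterAmenable G) (hseed : HasSeed (relNull ω κ q)) :
    HasFixedSigns β (relT ω κ q) (relNull ω κ q) := by
  classical
  have hsys := tracialSystem_rel hω R hκ
  intro S hS hsep
  have : SeparableSpace S := hsep.separableSpace
  obtain ⟨d, hd⟩ := TopologicalSpace.exists_dense_seq S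
  obtain ⟨a, ha⟩ := TopologicalSpace.exists_dense_seq M
  obtain ⟨b, hbA, hb⟩ := RAvg.exists_dense_core (A := A) R.core
  choose y hyc hy using fun i => exists_seq R (d i : B)
  have hne : Nonempty {x : M // IsSelfAdjoint x ∧ ‖x‖ ≤ 1} :=
    ⟨⟨0, IsSelfAdjoint.zero M, by rw [norm_zero]; exact zero_le_one⟩⟩
  obtain ⟨x, hx⟩ := eps_test_countable (X := fun _ => {x : M // IsSelfAdjoint x ∧ ‖x‖ ≤ 1})
    (ω : Filter ℕ) hω (sCond α κ a b y) (sCond_nonneg α κ a b y) (by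
    intro F ε hε
    let K : Finset G := F.biUnion fun k => match k with
      | Sum.inr (Sum.inr (Sum.inl (g, _))) => {g}
      | _ => ∅
    obtain ⟨s, hsa, hs1, hsS, hsK, hsT⟩ := exists_sign_approx' hsys hG hseed S hS hsep K (ε / 2)
      (by positivity)
    obtain ⟨z, hzc, hz, hz'⟩ := exists_sa_seq R s hsa hs1
    refine ⟨fun n => ⟨z n, hz' n⟩, ?_⟩
    rintro (⟨i, l⟩ | j | ⟨g, l⟩ | ⟨j, i⟩ | j) hk
    · -- commutation with `y i`
      have hc : Ultra.mk ω (z * y i - y i * z) ∈ centralSeq ω M := by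
        rw [map_sub, map_mul, map_mul]
        exact sub_mem (mul_mem hzc (hyc i)) (mul_mem (hyc i) hzc)
      have h0 : q ⟨Ultra.mk ω (z * y i - y i * z), hc⟩ = 0 := by
        have e : (⟨Ultra.mk ω (z * y i - y i * z), hc⟩ : centralSeq ω M) =
            ⟨Ultra.mk ω z, hzc⟩ * ⟨Ultra.mk ω (y i), hyc i⟩ -
            ⟨Ultra.mk ω (y i), hyc i⟩ * ⟨Ultra.mk ω z, hzc⟩ := by
          apply Subtype.ext
          show Ultra.mk ω (z * y i - y i * z) =
            Ultra.mk ω z * Ultra.mk ω (y i) - Ultra.mk ω (y i) * Ultra.mk ω z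
          rw [map_sub, map_mul, map_mul]
        rw [e, map_sub, map_mul, map_mul, hz, hy, (hsS (d i) (d i).2).eq, sub_self]
      exact (tendsto_of_q_eq_zero R hc h0 (b l) (hbA l)).eventually (gt_mem_nhds hε)
    · exact (mk_mem_centralSeq_iff.1 hzc (a j)).eventually (gt_mem_nhds hε)
    · have hgK : g ∈ K := by
        simp only [K, Finset.mem_biUnion]
        exact ⟨_, hk, by simp⟩
      have h1 := hsK g hgK
      have h2 : q (centralAct ω α g ⟨Ultra.mk ω z, hzc⟩ - ⟨Ultra.mk ω z, hzc⟩) = β g s - s := by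
        rw [map_sub, ← R.act, hz]
      have h3 := RAvg.norm_mul_diag_le R (centralAct ω α g ⟨Ultra.mk ω z, hzc⟩ -
        ⟨Ultra.mk ω z, hzc⟩) (b l) (hbA l)
      rw [h2] at h3
      have h4 : ((centralAct ω α g ⟨Ultra.mk ω z, hzc⟩ - ⟨Ultra.mk ω z, hzc⟩ :
          centralSeq ω M) : Ultra ω M) * Ultra.diag ω (b l) =
          Ultra.mk ω ((seqMap (α g : M →⋆ₐ[ℂ] M) z - z) * Ultra.const (b l)) := by
        rw [map_mul, map_sub, ← ultraAct_mk, ← Ultra.diag_apply]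
        rfl
      rw [h4] at h3
      have hb0 : 0 ≤ ‖b l‖ := norm_nonneg _
      have h5 : ‖Ultra.mk ω ((seqMap (α g : M →⋆ₐ[ℂ] M) z - z) * Ultra.const (b l))‖ <
          (1 + ‖b l‖) * ε := by
        refine h3.trans_lt ?_
        calc ‖β g s - s‖ * ‖b l‖ ≤ ε / 2 * ‖b l‖ := mul_le_mul_of_nonneg_right h1 hb0
          _ < (1 + ‖b l‖) * ε := by nlinarith
      have h6 := Ultra.tendsto_norm_mk (ω := ω)
        ((seqMap (α g : M →⋆ₐ[ℂ] M) z - z) * Ultra.const (b l))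
      refine (h6.eventually (gt_mem_nhds h5)).mono fun n hn => ?_
      show (1 + ‖b l‖)⁻¹ * ‖(α g (z n) - z n) * b l‖ < ε
      have h7 : ‖(α g (z n) - z n) * b l‖ < (1 + ‖b l‖) * ε := hn
      rw [inv_mul_lt_iff₀ (by positivity)]
      exact h7
    · have hc : Ultra.mk ω (y i * z) ∈ centralSeq ω M := by
        rw [map_mul]
        exact mul_mem (hyc i) hzc
      have h1 : q ⟨Ultra.mk ω (y i * z), hc⟩ = (d i : B) * s := by
        have e : (⟨Ultra.mk ω (y i * z), hc⟩ : centralSeq ω M) =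
            ⟨Ultra.mk ω (y i), hyc i⟩ * ⟨Ultra.mk ω z, hzc⟩ := by
          apply Subtype.ext
          show Ultra.mk ω (y i * z) = Ultra.mk ω (y i) * Ultra.mk ω z
          rw [map_mul]
        rw [e, map_mul, hy, hz]
      exact eventually_cAbs_lt R hκ j hc le_rfl hε fun τ hτ => by
        rw [h1, (hsT τ hτ).2 _ (d i).2, norm_zero]
    · have hc : Ultra.mk ω (star (1 - z * z) * (1 - z * z)) ∈ centralSeq ω M := by
        rw [map_mul, map_star, map_sub, map_mul, map_one]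
        exact mul_mem (star_mem (sub_mem (one_mem _) (mul_mem hzc hzc)))
          (sub_mem (one_mem _) (mul_mem hzc hzc))
      have h1 : q ⟨Ultra.mk ω (star (1 - z * z) * (1 - z * z)), hc⟩ =
          star (1 - s * s) * (1 - s * s) := by
        have e : (⟨Ultra.mk ω (star (1 - z * z) * (1 - z * z)), hc⟩ : centralSeq ω M) =
            star (1 - ⟨Ultra.mk ω z, hzc⟩ * ⟨Ultra.mk ω z, hzc⟩) *
              (1 - ⟨Ultra.mk ω z, hzc⟩ * ⟨Ultra.mk ω z, hzc⟩) := by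
          apply Subtype.ext
          show Ultra.mk ω (star (1 - z * z) * (1 - z * z)) =
            star (1 - Ultra.mk ω z * Ultra.mk ω z) * (1 - Ultra.mk ω z * Ultra.mk ω z)
          rw [map_mul, map_star, map_sub, map_mul, map_one]
        rw [e, map_mul, map_star, map_sub, map_mul, map_one, hz]
      refine eventually_cAbs_lt R hκ j hc (c := ε / 2) (by positivity) (by linarith)
        fun τ hτ => ?_
      rw [h1]
      have h2 := (hsT τ hτ).1
      have h3 := Complex.nonneg_iff.1 ((hsys.trace τ hτ).nonneg (1 - s * s))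
      have h4 : τ (star (1 - s * s) * (1 - s * s)) =
          (((τ (star (1 - s * s) * (1 - s * s))).re : ℝ) : ℂ) :=
        Complex.ext rfl (by
          rw [Complex.ofReal_im]
          exact h3.2.symm)
      rw [h4, Complex.norm_real, Real.norm_eq_abs, abs_of_nonneg h3.1]
      exact h2)
  -- the limit element
  let z : ℕ →ᵇ M := BoundedContinuousFunction.ofNormedAddCommGroupDiscrete (fun n => (x n : M)) 1
    (fun n => (x n).2.2)
  have hzc : Ultra.mk ω z ∈ centralSeq ω M :=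
    isSeparable_of_dense_central ha fun j => hx (Sum.inr (Sum.inl j))
  let zc : centralSeq ω M := ⟨Ultra.mk ω z, hzc⟩
  have hzsa : IsSelfAdjoint zc := by
    rw [isSelfAdjoint_iff]
    apply Subtype.ext
    show star (Ultra.mk ω z) = Ultra.mk ω z
    rw [← map_star]
    congr 1
    ext n
    exact (x n).2.1.star_eq
  refine ⟨q zc, ?_, ?_, ?_, ?_, ?_, ?_⟩
  · rw [isSelfAdjoint_iff, ← map_star, hzsa.star_eq]
  · exact (NonUnitalStarAlgHom.norm_apply_le q zc).trans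
      (Ultra.norm_mk_le_of_eventually (Eventually.of_forall fun n => (x n).2.2))
  · intro g
    rw [R.act, ← sub_eq_zero, ← map_sub]
    apply RAvg.ker_of_dense R b hb
    intro l
    have h4 : ((centralAct ω α g zc - zc : centralSeq ω M) : Ultra ω M) *
        Ultra.diag ω (b l) =
        Ultra.mk ω ((seqMap (α g : M →⋆ₐ[ℂ] M) z - z) * Ultra.const (b l)) := by
      rw [map_mul, map_sub, ← ultraAct_mk, ← Ultra.diag_apply]
      rfl
    rw [h4, Ultra.mk_eq_zero_iff]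
    have h5 := (hx (Sum.inr (Sum.inr (Sum.inl (g, l))))).const_mul (1 + ‖b l‖)
    rw [mul_zero] at h5
    refine h5.congr fun n => ?_
    show (1 + ‖b l‖) * ((1 + ‖b l‖)⁻¹ * ‖(α g (x n : M) - x n) * b l‖) = _
    have hb0 : (1 + ‖b l‖) ≠ 0 := by positivity
    rw [← mul_assoc, mul_inv_cancel₀ hb0, one_mul]
    rfl
  · intro c hc
    have hcl : IsClosed {c : S | Commute (q zc) (c : B)} :=
      isClosed_eq (by fun_prop) (by fun_prop)
    have h1 : closure (Set.range d) ⊆ {c : S | Commute (q zc) (c : B)} := by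
      apply closure_minimal _ hcl
      rintro _ ⟨i, rfl⟩
      show q zc * (d i : B) = (d i : B) * q zc
      have hc : Ultra.mk ω (z * y i - y i * z) ∈ centralSeq ω M := by
        rw [map_sub, map_mul, map_mul]
        exact sub_mem (mul_mem hzc (hyc i)) (mul_mem (hyc i) hzc)
      have e : (⟨Ultra.mk ω (z * y i - y i * z), hc⟩ : centralSeq ω M) =
          zc * ⟨Ultra.mk ω (y i), hyc i⟩ - ⟨Ultra.mk ω (y i), hyc i⟩ * zc := by
        apply Subtype.ext
        show Ultra.mk ω (z * y i - y i * z) =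
          Ultra.mk ω z * Ultra.mk ω (y i) - Ultra.mk ω (y i) * Ultra.mk ω z
        rw [map_sub, map_mul, map_mul]
      have h0 := q_eq_zero_of_tendsto R b hb hc fun l => hx (Sum.inl (i, l))
      rw [e, map_sub, map_mul, map_mul, hy, sub_eq_zero] at h0
      exact h0
    exact h1 (hd ⟨c, hc⟩)
  · rw [hsys.null]
    have hc : Ultra.mk ω (star (1 - z * z) * (1 - z * z)) ∈ centralSeq ω M := by
      rw [map_mul, map_star, map_sub, map_mul, map_one]
      exact mul_mem (star_mem (sub_mem (one_mem _) (mul_mem hzc hzc)))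
        (sub_mem (one_mem _) (mul_mem hzc hzc))
    have e : (⟨Ultra.mk ω (star (1 - z * z) * (1 - z * z)), hc⟩ : centralSeq ω M) =
        star (1 - zc * zc) * (1 - zc * zc) := by
      apply Subtype.ext
      show Ultra.mk ω (star (1 - z * z) * (1 - z * z)) =
        star (1 - Ultra.mk ω z * Ultra.mk ω z) * (1 - Ultra.mk ω z * Ultra.mk ω z)
      rw [map_mul, map_star, map_sub, map_mul, map_one]
    have h0 := tau_eq_zero (q := q) hκ hc fun j => hx (Sum.inr (Sum.inr (Sum.inr (Sum.inr j))))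
    rw [e, map_mul, map_star, map_sub, map_mul, map_one] at h0
    exact h0
  · intro τ hτ c hc
    have hτ' := hsys.trace τ hτ
    have hcont : Continuous τ := continuous_of_isTrace hτ'
    have hcl : IsClosed {c : S | τ ((c : B) * q zc) = 0} :=
      isClosed_eq (hcont.comp (by fun_prop)) continuous_const
    have h1 : closure (Set.range d) ⊆ {c : S | τ ((c : B) * q zc) = 0} := by
      apply closure_minimal _ hcl
      rintro _ ⟨i, rfl⟩
      have hc : Ultra.mk ω (y i * z) ∈ centralSeq ω M := by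
        rw [map_mul]
        exact mul_mem (hyc i) hzc
      have e : (⟨Ultra.mk ω (y i * z), hc⟩ : centralSeq ω M) =
          ⟨Ultra.mk ω (y i), hyc i⟩ * zc := by
        apply Subtype.ext
        show Ultra.mk ω (y i * z) = Ultra.mk ω (y i) * Ultra.mk ω z
        rw [map_mul]
      have h0 := tau_eq_zero (q := q) hκ hc
        (fun j => hx (Sum.inr (Sum.inr (Sum.inr (Sum.inl (j, i)))))) τ hτ
      rw [e, map_mul, hy] at h0
      exact h0
    exact h1 (hd ⟨c, hc⟩)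

end Vale.Agent.P095.NU
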