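import Vale.Agent.P095.NU.RIota
import Vale.Agent.P095.NU.RApproxOf
import Vale.Agent.P095.TensorAct

/-!
# P095, T7, row G32: the action `α ⊗ id` on a tensor product, from the flip unitaries
-/

open Filter Topology TopologicalSpace
open scoped BoundedContinuousFunction ComplexOrder TensorProduct

namespace Vale.Agent.P095.NU

open Vale.Agent.P101

universe u v w

namespace TAct

section Basic

variable {Z : Type v} [CStarAlgebra Z] {A : Type u} [NonUnitalCStarAlgebra A] {T : Type w}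
  [NonUnitalCStarAlgebra T] {t : A →ₗ[ℂ] Z →ₗ[ℂ] T}

theorem eq_zero_of_tmul [Nontrivial Z] {a : A} (h : a ⊗ₜ[ℂ] (1 : Z) = 0) : a = 0 := by
  obtain ⟨f, -, hf⟩ := exists_dual_vector ℂ (1 : Z) (norm_ne_zero_iff.2 one_ne_zero)
  have h1 := congrArg (fun u => TensorProduct.rid ℂ A (LinearMap.lTensor A (f : Z →ₗ[ℂ] ℂ) u)) h
  simp only [LinearMap.lTensor_tmul, TensorProduct.rid_tmul, map_zero] at h1
  have h2 : (f : Z →ₗ[ℂ] ℂ) 1 = (‖(1 : Z)‖ : ℂ) := hf
  rw [h2] at h1
  rcases smul_eq_zero.1 h1 with h3 | h3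
  · exact absurd h3 (by simp)
  · exact h3

theorem injective_iota [Nontrivial Z] (ht : IsTensorNU t)
    (ι : Unitization ℂ A →⋆ₐ[ℂ] Unitization ℂ T)
    (hι : ∀ a : A, ι (a : Unitization ℂ A) = ((t a 1 : T) : Unitization ℂ T)) :
    Function.Injective ι := by
  rw [injective_iff_map_eq_zero]
  intro a ha
  have h1 := ha
  rw [Approx.decomp a, map_add, hι, AlgHomClass.commutes] at h1
  have h2 : a.fst = 0 := by
    have := congrArg (fun y : Unitization ℂ T => y.fst) h1
    simpa [Unitization.algebraMap_eq_inl] using this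
  have h3 : t a.snd 1 = 0 := by
    have := congrArg (fun y : Unitization ℂ T => y.snd) h1
    simpa [Unitization.algebraMap_eq_inl] using this
  have h4 : a.snd = 0 := by
    apply eq_zero_of_tmul (Z := Z)
    apply ht.injective
    rw [map_zero, TensorProduct.lift.tmul]
    exact h3
  rw [Approx.decomp a, h2, h4]
  simp

theorem ext_T (ht : IsTensorNU t) {T' : Type*} [NormedAddCommGroup T'] [NormedSpace ℂ T']
    (J₁ J₂ : T →L[ℂ] T') (h : ∀ a z, J₁ (t a z) = J₂ (t a z)) (x : T) : J₁ x = J₂ x := by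
  refine DenseRange.induction_on ht.dense x ?_ ?_
  · exact isClosed_eq J₁.continuous J₂.continuous
  · intro u
    induction u using TensorProduct.induction_on with
    | zero => simp
    | tmul a z => rw [TensorProduct.lift.tmul, h]
    | add x y hx hy => rw [map_add, map_add, map_add, hx, hy]

theorem map_mul_T (ht : IsTensorNU t) (J : T →L[ℂ] T) {f : A → A}
    (hf : ∀ a b, f (a * b) = f a * f b) (h : ∀ a z, J (t a z) = t (f a) z) (x y : T) :
    J (x * y) = J x * J y := by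
  have h1 : ∀ (b : A) (w : Z) (x : T), J (x * t b w) = J x * J (t b w) := by
    intro b w x
    refine ext_T ht (J.comp ((ContinuousLinearMap.mul ℂ T).flip (t b w)))
      (((ContinuousLinearMap.mul ℂ T).flip (J (t b w))).comp J) (fun a z => ?_) x
    show J (t a z * t b w) = J (t a z) * J (t b w)
    rw [ht.mul, h, h, h, ht.mul, hf]
  refine ext_T ht (J.comp (ContinuousLinearMap.mul ℂ T x))
    ((ContinuousLinearMap.mul ℂ T (J x)).comp J) (fun b w => ?_) y
  exact h1 b w x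

theorem map_star_T (ht : IsTensorNU t) (J : T →L[ℂ] T) {f : A → A}
    (hf : ∀ a, f (star a) = star (f a)) (h : ∀ a z, J (t a z) = t (f a) z) (x : T) :
    J (star x) = star (J x) := by
  refine DenseRange.induction_on ht.dense x ?_ ?_
  · exact isClosed_eq (J.continuous.comp continuous_star) (continuous_star.comp J.continuous)
  · intro u
    induction u using TensorProduct.induction_on with
    | zero => simp
    | tmul a z => rw [TensorProduct.lift.tmul, ht.star, h, h, ht.star, hf]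
    | add x y hx hy => rw [map_add, star_add, map_add, map_add, star_add, hx, hy]

theorem subsingleton_T (ht : IsTensorNU t) [Subsingleton Z] : Subsingleton T := by
  have h1 : ∀ x : T, x = 0 := by
    intro x
    refine ext_T ht (ContinuousLinearMap.id ℂ T) 0 (fun a z => ?_) x
    rw [Subsingleton.elim z 0, map_zero, map_zero, map_zero]
  exact ⟨fun x y => by rw [h1 x, h1 y]⟩

end Basic

section Main

variable {G : Type*} [Group G] {Z : Type v} [CStarAlgebra Z]
  {A : Type u} [NonUnitalCStarAlgebra A] {T : Type u}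
  [NonUnitalCStarAlgebra T] {t : A →ₗ[ℂ] Z →ₗ[ℂ] T}
  {α : G →* (A ≃⋆ₐ[ℂ] A)} {α' : G →* (Unitization ℂ A ≃⋆ₐ[ℂ] Unitization ℂ A)}
  {ω : Ultrafilter ℕ} {B : Type u} [CStarAlgebra B]
  {q : centralSeq ω (Unitization ℂ A) →⋆ₐ[ℂ] B} {β : G →* (B ≃⋆ₐ[ℂ] B)}

/-- the unitaries of the half flip -/
def FlipU (t : A →ₗ[ℂ] Z →ₗ[ℂ] T) (ω : Ultrafilter ℕ)
    (q : centralSeq ω (Unitization ℂ A) →⋆ₐ[ℂ] B) (ρ : Z →⋆ₐ[ℂ] B) : Prop :=
  ∀ (ι : Unitization ℂ A →⋆ₐ[ℂ] Unitization ℂ T),
    (∀ a : A, ι (a : Unitization ℂ A) = ((t a 1 : T) : Unitization ℂ T)) →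
    ∀ (Fz : Finset Z) (Fa : Finset A) (ε : ℝ), 0 < ε →
    ∃ V ∈ unitary (Ultra ω (Unitization ℂ T)),
      ∀ z ∈ Fz, ∀ a ∈ Fa, ∀ x : centralSeq ω (Unitization ℂ A), q x = ρ z →
        ‖star V * Ultra.diag ω ((t a z : T) : Unitization ℂ T) * V -
          Ultra.diag ω (ι (a : Unitization ℂ A)) * ultraMap ω ι (x : Ultra ω _)‖ < ε

theorem norm_conj_star {W : Type*} [CStarAlgebra W] {V : W} (hV : V ∈ unitary W) (X : W) :
    ‖star V * X * V‖ = ‖X‖ := by
  have h1 := ApproxEquiv.norm_conj_aux ⟨star V, Unitary.star_mem hV⟩ X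
  simpa using h1

theorem norm_eq [Nontrivial Z] (ht : IsTensorNU t)
    (ρ : Z →⋆ₐ[ℂ] B) (hU : FlipU t ω q ρ) {J : Type*} (S : Finset J) (a : J → A) (z : J → Z)
    (x : J → centralSeq ω (Unitization ℂ A)) (hx : ∀ i, q (x i) = ρ (z i)) :
    ‖∑ i ∈ S, t (a i) (z i)‖ =
      ‖∑ i ∈ S, Ultra.diag ω ((a i : A) : Unitization ℂ A) *
        (x i : Ultra ω (Unitization ℂ A))‖ := by
  classical
  obtain ⟨ι, hι⟩ := exists_iota ht
  have hinj := injective_iota ht ι hι
  have e2 : ‖∑ i ∈ S, Ultra.diag ω ((a i : A) : Unitization ℂ A) *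
        (x i : Ultra ω (Unitization ℂ A))‖ =
      ‖∑ i ∈ S, Ultra.diag ω (ι ((a i : A) : Unitization ℂ A)) *
        ultraMap ω ι (x i : Ultra ω (Unitization ℂ A))‖ := by
    rw [← TensorAct.isometry_ultraMap hinj, map_sum]
    congr 1
    refine Finset.sum_congr rfl fun i _ => ?_
    rw [map_mul]
    congr 1
    rw [Ultra.diag_apply, Ultra.diag_apply, ultraMap_mk]
    rfl
  have key : ∀ ε : ℝ, 0 < ε →
      |‖∑ i ∈ S, t (a i) (z i)‖ - ‖∑ i ∈ S, Ultra.diag ω ((a i : A) : Unitization ℂ A) *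
        (x i : Ultra ω (Unitization ℂ A))‖| ≤ (S.card : ℝ) * ε := by
    intro ε hε
    obtain ⟨V, hV, hVz⟩ := hU ι hι (S.image z) (S.image a) ε hε
    have e1 : ‖∑ i ∈ S, t (a i) (z i)‖ =
        ‖∑ i ∈ S, star V * Ultra.diag ω ((t (a i) (z i) : T) : Unitization ℂ T) * V‖ := by
      rw [← Finset.sum_mul, ← Finset.mul_sum, norm_conj_star hV, ← map_sum, Ultra.norm_diag,
        ← Approx.inr_sum, Unitization.norm_inr]
    rw [e1, e2]
    refine (abs_norm_sub_norm_le _ _).trans ?_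
    rw [← Finset.sum_sub_distrib]
    calc _ ≤ ∑ i ∈ S, ε := (norm_sum_le _ _).trans (Finset.sum_le_sum fun i hi =>
          (hVz _ (Finset.mem_image_of_mem _ hi) _ (Finset.mem_image_of_mem _ hi) _ (hx i)).le)
      _ = (S.card : ℝ) * ε := by rw [Finset.sum_const, nsmul_eq_mul]
  by_contra hne
  have h3 := abs_pos.2 (sub_ne_zero.2 hne)
  have h4 := key _ (div_pos h3 (by positivity : (0 : ℝ) < 2 * ((S.card : ℝ) + 1)))
  generalize |‖∑ i ∈ S, t (a i) (z i)‖ - ‖∑ i ∈ S, Ultra.diag ω ((a i : A) : Unitization ℂ A) *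
        (x i : Ultra ω (Unitization ℂ A))‖| = d at h3 h4
  have h6 : (0 : ℝ) ≤ (S.card : ℝ) := Nat.cast_nonneg _
  have h5 : (S.card : ℝ) * (d / (2 * ((S.card : ℝ) + 1))) < d := by
    rw [mul_div_assoc', div_lt_iff₀ (by positivity)]
    nlinarith
  linarith

theorem exists_clm [Nontrivial Z] (ht : IsTensorNU t)
    (hα' : ∀ g (a : A), α' g (a : Unitization ℂ A) = ((α g a : A) : Unitization ℂ A))
    (R : RelSys ω (Set.range (Unitization.inr : A → Unitization ℂ A)) α' q β)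
    (ρ : Z →⋆ₐ[ℂ] B) (hρ : ∀ g z, β g (ρ z) = ρ z) (hU : FlipU t ω q ρ) (g : G) :
    ∃ J : T →L[ℂ] T, ∀ a z, J (t a z) = t (α g a) z := by
  choose x hx using fun z : Z => (R.lift (ρ z))
  let fg : A →ₗ[ℂ] A :=
    { toFun := fun a => α g a
      map_add' := fun a b => map_add (α g) a b
      map_smul' := fun c a => map_smul (α g) c a }
  have hx' : ∀ z, q (centralAct ω α' g (x z)) = ρ z := by
    intro z
    rw [← R.act, (hx z).1, hρ]
  have hn : ∀ u : A ⊗[ℂ] Z, ‖TensorProduct.lift (t ∘ₗ fg) u‖ ≤ 1 * ‖TensorProduct.lift t u‖ := by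
    intro u
    obtain ⟨S, rfl⟩ := TensorProduct.exists_finset u
    rw [map_sum, map_sum]
    have h1 : ∑ i ∈ S, TensorProduct.lift (t ∘ₗ fg) (i.1 ⊗ₜ[ℂ] i.2) =
        ∑ i ∈ S, t (α g i.1) i.2 := Finset.sum_congr rfl fun i _ => by
      rw [TensorProduct.lift.tmul]
      rfl
    have h2 : ∑ i ∈ S, TensorProduct.lift t (i.1 ⊗ₜ[ℂ] i.2) = ∑ i ∈ S, t i.1 i.2 :=
      Finset.sum_congr rfl fun i _ => by rw [TensorProduct.lift.tmul]
    rw [h1, h2, one_mul, norm_eq ht ρ hU S (fun i => α g i.1) (fun i => i.2)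
      (fun i => centralAct ω α' g (x i.2)) (fun i => hx' i.2),
      norm_eq ht ρ hU S (fun i => i.1) (fun i => i.2)
      (fun i => x i.2) (fun i => (hx i.2).1)]
    have h3 : ∑ i ∈ S, Ultra.diag ω ((α g i.1 : A) : Unitization ℂ A) *
        (centralAct ω α' g (x i.2) : Ultra ω (Unitization ℂ A)) =
        ultraAct ω α' g (∑ i ∈ S, Ultra.diag ω ((i.1 : A) : Unitization ℂ A) *
        (x i.2 : Ultra ω (Unitization ℂ A))) := by
      rw [map_sum]
      refine Finset.sum_congr rfl fun i _ => ?_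
      rw [map_mul, ultraAct_diag, hα', coe_centralAct]
    rw [h3]
    exact (norm_act (ultraAct ω α') g _).le
  refine ⟨(TensorProduct.lift (t ∘ₗ fg)).extendOfNorm (TensorProduct.lift t), fun a z => ?_⟩
  have h4 := LinearMap.extendOfNorm_eq ht.dense ⟨1, hn⟩ (a ⊗ₜ[ℂ] z)
  rw [TensorProduct.lift.tmul, TensorProduct.lift.tmul] at h4
  exact h4

end Main

end TAct

section Tensor

variable {G : Type*} [Group G] {Z : Type v} [CStarAlgebra Z]
  {A : Type u} [NonUnitalCStarAlgebra A] {T : Type u}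
  [NonUnitalCStarAlgebra T] {t : A →ₗ[ℂ] Z →ₗ[ℂ] T}
  {α : G →* (A ≃⋆ₐ[ℂ] A)} {α' : G →* (Unitization ℂ A ≃⋆ₐ[ℂ] Unitization ℂ A)}
  {ω : Ultrafilter ℕ} {B : Type u} [CStarAlgebra B]
  {q : centralSeq ω (Unitization ℂ A) →⋆ₐ[ℂ] B} {β : G →* (B ≃⋆ₐ[ℂ] B)}

theorem exists_tensorAct_rel_of
    (ht : IsTensorNU t)
    (hα' : ∀ g (a : A), α' g (a : Unitization ℂ A) = ((α g a : A) : Unitization ℂ A))
    (R : RelSys ω (Set.range (Unitization.inr : A → Unitization ℂ A)) α' q β)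
    (ρ : Z →⋆ₐ[ℂ] B) (hρ : ∀ g z, β g (ρ z) = ρ z) (hU : TAct.FlipU t ω q ρ) :
    ∃ γ : G →* (T ≃⋆ₐ[ℂ] T), ∀ g a z, γ g (t a z) = t (α g a) z := by
  rcases subsingleton_or_nontrivial Z with hZ | hZ
  · have := TAct.subsingleton_T ht
    exact ⟨1, fun g a z => Subsingleton.elim _ _⟩
  choose J hJ using TAct.exists_clm (T := T) (t := t) ht hα' R ρ hρ hU
  have hmul : ∀ g h x, J (g * h) x = J g (J h x) := by
    intro g h x
    refine TAct.ext_T ht (J (g * h)) ((J g).comp (J h)) (fun a z => ?_) x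
    rw [hJ, ContinuousLinearMap.comp_apply, hJ, hJ, map_mul]
    rfl
  have hone : ∀ x, J 1 x = x := by
    intro x
    refine TAct.ext_T ht (J 1) (ContinuousLinearMap.id ℂ T) (fun a z => ?_) x
    rw [hJ, map_one]
    rfl
  let e : G → (T ≃⋆ₐ[ℂ] T) := fun g =>
    { toFun := J g
      invFun := J g⁻¹
      left_inv := fun x => by rw [← hmul, inv_mul_cancel, hone]
      right_inv := fun x => by rw [← hmul, mul_inv_cancel, hone]
      map_mul' := TAct.map_mul_T ht (J g) (f := fun a => α g a) (fun a b => map_mul _ _ _) (hJ g)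
      map_add' := fun x y => map_add (J g) x y
      map_star' := TAct.map_star_T ht (J g) (f := fun a => α g a) (fun a => map_star _ _) (hJ g)
      map_smul' := fun c x => map_smul (J g) c x }
  refine ⟨{ toFun := e
            map_one' := ?_
            map_mul' := ?_ }, fun g a z => hJ g a z⟩
  · ext x
    exact hone x
  · intro g h
    ext x
    exact hmul g h x

end Tensor

end Vale.Agent.P095.NU
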