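import Vale.Agent.P095.NU.RFlip
import Vale.Agent.P095.NU.RTensorActOf

/-!
# P095, T7, row G32: the action `α ⊗ id` on a tensor product, without unit
-/

open Filter Topology TopologicalSpace
open scoped BoundedContinuousFunction ComplexOrder

namespace Vale.Agent.P095.NU

open Vale.Agent.P101

universe u v w

section Tensor

variable {G : Type*} [Group G] {Z : Type v} [CStarAlgebra Z]
  {A : Type u} [NonUnitalCStarAlgebra A] [SeparableSpace A] {T : Type u}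
  [NonUnitalCStarAlgebra T] {t : A →ₗ[ℂ] Z →ₗ[ℂ] T}
  {α : G →* (A ≃⋆ₐ[ℂ] A)} {α' : G →* (Unitization ℂ A ≃⋆ₐ[ℂ] Unitization ℂ A)}
  {ω : Ultrafilter ℕ} {B : Type u} [CStarAlgebra B]
  {q : centralSeq ω (Unitization ℂ A) →⋆ₐ[ℂ] B} {β : G →* (B ≃⋆ₐ[ℂ] B)}

omit [SeparableSpace A] in
theorem TAct.relSys_unit (R : RelSys ω (Set.range (Unitization.inr : A → Unitization ℂ A)) α' q β) :
    RelSys (G := Unit) ω (Set.range (Unitization.inr : A → Unitization ℂ A)) 1 q 1 where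
  core := R.core
  inv := fun _ _ h => h
  ker := R.ker
  act := fun g x => by
    have h1 : g = 1 := Subsingleton.elim _ _
    rw [h1, map_one, map_one]
    rfl
  lift := R.lift

theorem TAct.flip_unit (hflip : HasExpHalfFlip.{v, u} Z) (ht : IsTensorNU t)
    (hω : (ω : Filter ℕ) ≤ cofinite)
    (R : RelSys ω (Set.range (Unitization.inr : A → Unitization ℂ A)) α' q β)
    (ρ : Z →⋆ₐ[ℂ] B) (ι : Unitization ℂ A →⋆ₐ[ℂ] Unitization ℂ T)
    (hι : ∀ a : A, ι (a : Unitization ℂ A) = ((t a 1 : T) : Unitization ℂ T))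
    (Fz : Finset Z) (Fa : Finset A) (ε : ℝ) (hε : 0 < ε) :
    ∃ V ∈ unitary (Ultra ω (Unitization ℂ T)),
      ∀ z ∈ Fz, ∀ a ∈ Fa, ∀ x : centralSeq ω (Unitization ℂ A), q x = ρ z →
        ‖star V * Ultra.diag ω ((t a z : T) : Unitization ℂ T) * V -
          Ultra.diag ω (ι (a : Unitization ℂ A)) * ultraMap ω ι (x : Ultra ω _)‖ < ε := by
  obtain ⟨V, hV, -, -, h⟩ := exists_flip_rel (G := Unit) (α := 1) (α' := 1) hflip ht
    (fun _ _ => rfl) hω (TAct.relSys_unit R) ρ (fun _ _ => rfl) 1 (fun _ _ _ => rfl) 1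
    (fun _ _ => rfl) ι hι Fz Fa ε hε
  exact ⟨V, hV, h⟩

theorem exists_tensorAct_rel [Countable G] (hflip : HasExpHalfFlip.{v, u} Z)
    (ht : IsTensorNU t)
    (hα' : ∀ g (a : A), α' g (a : Unitization ℂ A) = ((α g a : A) : Unitization ℂ A))
    (hω : (ω : Filter ℕ) ≤ cofinite)
    (R : RelSys ω (Set.range (Unitization.inr : A → Unitization ℂ A)) α' q β)
    (ρ : Z →⋆ₐ[ℂ] B) (hρ : ∀ g z, β g (ρ z) = ρ z) :
    ∃ γ : G →* (T ≃⋆ₐ[ℂ] T), ∀ g a z, γ g (t a z) = t (α g a) z := by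
  exact exists_tensorAct_rel_of ht hα' R ρ hρ
    (fun ι hι => TAct.flip_unit hflip ht hω R ρ ι hι)

end Tensor

end Vale.Agent.P095.NU
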