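import Vale.Agent.P095.FixedUnits
import Vale.Agent.P095.NU.NormDiag
import Vale.Agent.P095.NU.RLimTrace
import Vale.Agent.P095.NU.RNull
import Vale.Agent.P095.NU.RTracial
import Vale.Agent.P095.NU.RSigns

/-!
# P095 T7 (G13): exactly fixed matrix units in the relative central sequence algebra
-/

open Filter Topology TopologicalSpace
open scoped BoundedContinuousFunction ComplexOrder

namespace Vale.Agent.P095.NU

open Vale.Agent.P101

universe u v w


namespace RU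

section

variable {G : Type*} [Group G] {ω : Ultrafilter ℕ} {M : Type u} [CStarAlgebra M]
  {A : Set M} {α : G →* (M ≃⋆ₐ[ℂ] M)} {B : Type u} [CStarAlgebra B]
  {q : centralSeq ω M →⋆ₐ[ℂ] B} {β : G →* (B ≃⋆ₐ[ℂ] B)} {κ : ℕ → ℕ → M}

theorem ch_star {k : ℕ → M} (hk : IsCh A k) (i : ℕ) : star (k i) = k i := by
  obtain ⟨y, hy⟩ := hk.pos i
  rw [hy, star_mul, star_star]

theorem k3_mem_LU {k : ℕ → M} (hk : IsCh A k) : k 3 ∈ LU (k 1) := by
  have h1 : k 1 * k 2 = k 2 := hk.unit 1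
  have h2 : k 2 * k 3 = k 3 := hk.unit 2
  have h3 : k 1 * k 3 = k 3 := by
    calc k 1 * k 3 = k 1 * (k 2 * k 3) := by rw [h2]
      _ = k 1 * k 2 * k 3 := (mul_assoc _ _ _).symm
      _ = k 3 := by rw [h1, h2]
  refine ⟨h3, ?_⟩
  have h4 := congrArg star h3
  rwa [star_mul, ch_star hk, ch_star hk] at h4

theorem chSup_nonneg' {k : ℕ → M} (hk : IsCh A k) (x : M) : 0 ≤ chSup k x := by
  refine Real.iSup_nonneg fun τ => ?_
  have hk1 : IsSelfAdjoint (k 1) := ch_star hk 1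
  have h1 : 0 ≤ τ.1 (k 3 * (star x * x) * k 3) := by
    refine IsLTrace.nonneg_of_isPos τ.2.1 hk1 (LU_sandwich hk1 (k3_mem_LU hk) (k3_mem_LU hk) _)
      ⟨x * k 3, ?_⟩
    rw [star_mul, ch_star hk 3]
    simp only [mul_assoc]
  exact (Complex.nonneg_iff.1 h1).1

/-- Uniformity: a bound for all limit traces is a bound for `chSup` along `ω`. -/
theorem eventually_chSup_lt (R : RelSys ω A α q β) (hκ : ChFam A α κ) (j : ℕ) (y : ℕ →ᵇ M)
    (hy : Ultra.mk ω y ∈ centralSeq ω M) {c ε : ℝ} (hc : 0 ≤ c) (hcε : c < ε)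
    (h : ∀ τ ∈ relT ω κ q, sq τ (q ⟨Ultra.mk ω y, hy⟩) ≤ c) :
    ∀ᶠ n in (ω : Filter ℕ), chSup (κ j) (y n) < ε := by
  classical
  by_contra hcon
  rw [← Ultrafilter.eventually_not] at hcon
  have hex : ∀ n, ¬ chSup (κ j) (y n) < ε → ∃ τ : M →ₗ[ℂ] ℂ,
      (IsLTrace (κ j 1) τ ∧ τ (κ j 3 * κ j 3) = 1) ∧
        (c + ε) / 2 < (τ (κ j 3 * (star (y n) * y n) * κ j 3)).re := by
    intro n hn
    have h1 : (c + ε) / 2 < chSup (κ j) (y n) := by
      have := not_lt.1 hn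
      linarith
    rcases isEmpty_or_nonempty
      {τ : M →ₗ[ℂ] ℂ // IsLTrace (κ j 1) τ ∧ τ (κ j 3 * κ j 3) = 1} with he | hne
    · exfalso
      rw [chSup, Real.iSup_of_isEmpty] at h1
      linarith
    · obtain ⟨τ, hτ⟩ := exists_lt_of_lt_ciSup h1
      exact ⟨τ.1, τ.2, hτ⟩
  obtain ⟨n₀, hn₀⟩ := hcon.exists
  obtain ⟨τ₀, hτ₀, -⟩ := hex n₀ hn₀
  let σ : ℕ → (M →ₗ[ℂ] ℂ) := fun n =>
    if h : ¬ chSup (κ j) (y n) < ε then (hex n h).choose else τ₀
  have hσ : ∀ n, IsLTrace (κ j 1) (σ n) ∧ σ n (κ j 3 * κ j 3) = 1 := by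
    intro n
    by_cases h : ¬ chSup (κ j) (y n) < ε
    · simp only [σ, dif_pos h]
      exact (hex n h).choose_spec.1
    · simp only [σ, dif_neg h]
      exact hτ₀
  obtain ⟨τ, hτ, hlim⟩ := exists_limit_trace R (hκ.ch j) σ hσ
  have hmem : τ ∈ relT ω κ q := ⟨j, σ, hσ, hlim⟩
  have hy2 : Ultra.mk ω (star y * y) ∈ centralSeq ω M := by
    rw [map_mul, map_star]
    exact mul_mem (star_mem hy) hy
  have h1 := hlim (star y * y) hy2
  have e : q ⟨Ultra.mk ω (star y * y), hy2⟩ =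
      star (q ⟨Ultra.mk ω y, hy⟩) * q ⟨Ultra.mk ω y, hy⟩ := by
    rw [← map_star, ← map_mul]
    congr 1
  rw [e] at h1
  have h2 : Tendsto (fun n => (σ n (κ j 3 * (star y * y) n * κ j 3)).re) (ω : Filter ℕ)
      (𝓝 (sq τ (q ⟨Ultra.mk ω y, hy⟩))) := (Complex.continuous_re.tendsto _).comp h1
  have h3 : (c + ε) / 2 ≤ sq τ (q ⟨Ultra.mk ω y, hy⟩) := by
    refine ge_of_tendsto h2 (hcon.mono fun n hn => ?_)
    have h4 := (hex n hn).choose_spec.2
    simp only [σ, dif_pos hn]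
    exact h4.le
  linarith [h τ hmem]

/-- Norm estimates for the action pass to representing sequences. -/
theorem eventually_norm_act_lt (R : RelSys ω A α q β) {a : M} (ha : a ∈ A) (g : G)
    (x : centralSeq ω M) (y : ℕ →ᵇ M) (hy : Ultra.mk ω y = x) {ε : ℝ}
    (h : ‖β g (q x) - q x‖ * ‖a‖ < ε) :
    ∀ᶠ n in (ω : Filter ℕ), ‖(α g (y n) - y n) * a‖ < ε := by
  have h0 : β g (q x) - q x = q (centralAct ω α g x - x) := by rw [R.act, map_sub]
  rw [h0, ← norm_mul_diag R _ a ha] at h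
  have h1 : Ultra.mk ω ((seqMap (α g : M →⋆ₐ[ℂ] M) y - y) * BoundedContinuousFunction.const ℕ a) =
      ((centralAct ω α g x - x : centralSeq ω M) : Ultra ω M) * Ultra.diag ω a := by
    rw [map_mul, map_sub, ← ultraAct_mk, hy]
    rfl
  have h2 := Ultra.tendsto_norm_mk (ω := ω)
    ((seqMap (α g : M →⋆ₐ[ℂ] M) y - y) * BoundedContinuousFunction.const ℕ a)
  rw [h1] at h2
  exact h2.eventually (gt_mem_nhds h)

/-- Conversely. -/
theorem act_eq_of_tendsto (R : RelSys ω A α q β) {a : M} (ha : a ∈ A) (ha0 : a ≠ 0) (g : G)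
    (x : centralSeq ω M) (y : ℕ →ᵇ M) (hy : Ultra.mk ω y = x)
    (h : Tendsto (fun n => ‖(α g (y n) - y n) * a‖) ω (𝓝 0)) : β g (q x) = q x := by
  have h0 : β g (q x) - q x = q (centralAct ω α g x - x) := by rw [R.act, map_sub]
  have h1 : Ultra.mk ω ((seqMap (α g : M →⋆ₐ[ℂ] M) y - y) * BoundedContinuousFunction.const ℕ a) =
      ((centralAct ω α g x - x : centralSeq ω M) : Ultra ω M) * Ultra.diag ω a := by
    rw [map_mul, map_sub, ← ultraAct_mk, hy]
    rfl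
  have h2 := Ultra.tendsto_norm_mk (ω := ω)
    ((seqMap (α g : M →⋆ₐ[ℂ] M) y - y) * BoundedContinuousFunction.const ℕ a)
  rw [h1, norm_mul_diag R _ a ha, ← h0] at h2
  have h3 : ‖β g (q x) - q x‖ * ‖a‖ = 0 := tendsto_nhds_unique h2 h
  rcases mul_eq_zero.1 h3 with h4 | h4
  · exact sub_eq_zero.1 (norm_eq_zero.1 h4)
  · exact absurd (norm_eq_zero.1 h4) ha0

theorem exists_ne_zero {k : ℕ → M} (hk : IsCh A k) : ∃ a ∈ A, a ≠ 0 := ⟨k 0, hk.mem 0, hk.ne 0⟩

end

end RU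

section Sys

variable {G : Type*} [Group G] [Countable G] {ω : Ultrafilter ℕ} {M : Type u} [CStarAlgebra M]
  [SeparableSpace M] {A : Set M} {α : G →* (M ≃⋆ₐ[ℂ] M)} {B : Type u} [CStarAlgebra B]
  {q : centralSeq ω M →⋆ₐ[ℂ] B} {β : G →* (B ≃⋆ₐ[ℂ] B)} {κ : ℕ → ℕ → M}

theorem hasFixedUnits_rel (hω : (ω : Filter ℕ) ≤ cofinite) (R : RelSys ω A α q β)
    (hκ : ChFam A α κ) (hG : ReiterAmenable G) (hseed : HasSeed (relNull ω κ q)) :
    HasFixedUnits β (relNull ω κ q) := by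
  classical
  have sys := tracialSystem_rel hω R hκ
  have hs := hasFixedSigns_rel hω R hκ hG hseed
  obtain ⟨a₀, ha, ha0⟩ := RU.exists_ne_zero (hκ.ch 0)
  let f : G ⊕ (ℕ ⊕ ℕ) → ℕ → M → ℝ := fun k _ x =>
    match k with
    | Sum.inl g => ‖(α g x - x) * a₀‖
    | Sum.inr (Sum.inl j) => chSup (κ j) (x * x)
    | Sum.inr (Sum.inr j) => chSup (κ j) (1 - (x * star x + star x * x))
  have hf : ∀ k n x, 0 ≤ f k n x := by
    rintro (g | j | j) n x
    · exact norm_nonneg _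
    · exact RU.chSup_nonneg' (hκ.ch j) _
    · exact RU.chSup_nonneg' (hκ.ch j) _
  obtain ⟨y, hy1, hyc, hy⟩ := exists_central_seq hω f hf (by
    intro F ε hε
    obtain ⟨δ, hδ, hδ1, hδ2⟩ : ∃ δ : ℝ, 0 < δ ∧ δ < ε ∧ δ * ‖a₀‖ < ε := by
      refine ⟨ε / (2 * (1 + ‖a₀‖)), by positivity, ?_, ?_⟩
      · rw [div_lt_iff₀ (by positivity)]
        nlinarith [norm_nonneg a₀]
      · rw [div_mul_eq_mul_div, div_lt_iff₀ (by positivity)]
        nlinarith [norm_nonneg a₀]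
    obtain ⟨w, hw1, hw2, hw3⟩ := exists_unit_approx' sys hs hseed hG
      (F.preimage Sum.inl Sum.inl_injective.injOn) δ hδ
    obtain ⟨x, hqx, hxn⟩ := R.lift w
    obtain ⟨y, hy, hyn⟩ := Ultra.exists_rep (x : Ultra ω M)
    have hyc : Ultra.mk ω y ∈ centralSeq ω M := by rw [hy]; exact x.2
    have hyx : (⟨Ultra.mk ω y, hyc⟩ : centralSeq ω M) = x := Subtype.ext hy
    refine ⟨y, fun n => (hyn n).trans (hxn.le.trans hw1), hyc, ?_⟩
    rintro (g | j | j) hk
    · refine RU.eventually_norm_act_lt R ha g x y hy ?_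
      rw [hqx]
      refine lt_of_le_of_lt (mul_le_mul_of_nonneg_right (hw2 g ?_) (norm_nonneg _)) hδ2
      simpa using hk
    · have hyc2 : Ultra.mk ω (y * y) ∈ centralSeq ω M := by
        rw [map_mul]
        exact mul_mem hyc hyc
      refine RU.eventually_chSup_lt R hκ j (y * y) hyc2 hδ.le hδ1 fun τ hτ => ?_
      have e : q ⟨Ultra.mk ω (y * y), hyc2⟩ = w * w := by
        rw [← hqx, ← map_mul, ← hyx]
        congr 1
      rw [e]
      exact (hw3 τ hτ).1
    · have hyc2 : Ultra.mk ω (1 - (y * star y + star y * y)) ∈ centralSeq ω M := by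
        rw [map_sub, map_add, map_mul, map_mul, map_star, map_one]
        exact sub_mem (one_mem _) (add_mem (mul_mem hyc (star_mem hyc)) (mul_mem (star_mem hyc) hyc))
      refine RU.eventually_chSup_lt R hκ j (1 - (y * star y + star y * y)) hyc2 hδ.le hδ1
        fun τ hτ => ?_
      have e : q ⟨Ultra.mk ω (1 - (y * star y + star y * y)), hyc2⟩ =
          1 - (w * star w + star w * w) := by
        have e1 : (⟨Ultra.mk ω (1 - (y * star y + star y * y)), hyc2⟩ : centralSeq ω M) =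
            1 - (x * star x + star x * x) := by
          rw [← hyx]
          apply Subtype.ext
          show Ultra.mk ω (1 - (y * star y + star y * y)) = _
          rw [map_sub, map_add, map_mul, map_mul, map_star, map_one]
          rfl
        rw [e1, map_sub, map_add, map_mul, map_mul, map_star, map_one, hqx]
      rw [e]
      exact (hw3 τ hτ).2)
  have hyc2 : Ultra.mk ω (y * y) ∈ centralSeq ω M := by
    rw [map_mul]
    exact mul_mem hyc hyc
  have hyc3 : Ultra.mk ω (1 - (y * star y + star y * y)) ∈ centralSeq ω M := by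
    rw [map_sub, map_add, map_mul, map_mul, map_star, map_one]
    exact sub_mem (one_mem _) (add_mem (mul_mem hyc (star_mem hyc)) (mul_mem (star_mem hyc) hyc))
  refine ⟨q ⟨Ultra.mk ω y, hyc⟩, ?_, fun g => ?_, ?_, ?_⟩
  · refine (NonUnitalStarAlgHom.norm_apply_le q _).trans ?_
    exact Ultra.norm_mk_le_of_eventually (Eventually.of_forall hy1)
  · exact RU.act_eq_of_tendsto R ha ha0 g _ y rfl (hy (Sum.inl g))
  · have e : q ⟨Ultra.mk ω y, hyc⟩ * q ⟨Ultra.mk ω y, hyc⟩ = q ⟨Ultra.mk ω (y * y), hyc2⟩ := by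
      rw [← map_mul]
      congr 1
    rw [e, mem_relNull_iff R hκ]
    exact fun j => hy (Sum.inr (Sum.inl j))
  · have e : 1 - star (q ⟨Ultra.mk ω y, hyc⟩) * q ⟨Ultra.mk ω y, hyc⟩ -
        q ⟨Ultra.mk ω y, hyc⟩ * star (q ⟨Ultra.mk ω y, hyc⟩) =
        q ⟨Ultra.mk ω (1 - (y * star y + star y * y)), hyc3⟩ := by
      have e1 : (⟨Ultra.mk ω (1 - (y * star y + star y * y)), hyc3⟩ : centralSeq ω M) =
          1 - (⟨Ultra.mk ω y, hyc⟩ * star ⟨Ultra.mk ω y, hyc⟩ +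
            star ⟨Ultra.mk ω y, hyc⟩ * ⟨Ultra.mk ω y, hyc⟩) := by
        apply Subtype.ext
        show Ultra.mk ω (1 - (y * star y + star y * y)) = _
        rw [map_sub, map_add, map_mul, map_mul, map_star, map_one]
        rfl
      rw [e1, map_sub, map_add, map_mul, map_mul, map_star, map_one]
      abel
    rw [e, mem_relNull_iff R hκ]
    exact fun j => hy (Sum.inr (Sum.inr j))

end Sys

end Vale.Agent.P095.NU
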