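import Vale.Agent.P095.NU.RVWCompOf
import Vale.Agent.P095.NU.RFull
import Vale.Agent.P095.NU.RRank
import Vale.Agent.P095.NU.ROz

/-!
# P095, T7: very weak comparison relative to the ideal (row G19)
-/

open Filter Topology TopologicalSpace
open scoped BoundedContinuousFunction ComplexOrder

namespace Vale.Agent.P095.NU

open Vale.Agent.P101

universe u v w

section Sys

variable {G : Type*} [Group G] [Countable G] {ω : Ultrafilter ℕ} {M : Type u} [CStarAlgebra M]
  [SeparableSpace M] {A : Set M} {α : G →* (M ≃⋆ₐ[ℂ] M)} {B : Type u} [CStarAlgebra B]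
  {q : centralSeq ω M →⋆ₐ[ℂ] B} {β : G →* (B ≃⋆ₐ[ℂ] B)}

omit [Countable G] [SeparableSpace M] in
theorem relVWComp_of_nuclearDim (hω : (ω : Filter ℕ) ≤ cofinite) (R : RelSys ω A α q β)
    {d : ℕ} (hd : HasNuclearDim M d) (hcc : HasCommutingCopies B)
    (hchar : IsEmpty (B →⋆ₐ[ℂ] ℂ)) : RelVWComp A :=
  relVWComp_of R
    (fun x hxA hx hx0 a ha ε hε => exists_full_sum_rel R.core x hxA hx hx0 a ha ε hε)
    (fun _ hk N hN ε hε => exists_rank_small_rel hd hk N hN ε hε)
    (fun N hN ε hε => exists_oz_data_of_char hcc hchar N hN ε hε)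

end Sys

end Vale.Agent.P095.NU
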