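import Vale.Agent.P095.NU.Defs
import Vale.Agent.P095.VWCompOf

/-!
# P095, T7: very weak comparison relative to the ideal (row G19), from the rank estimate and the
order zero data
-/

open Filter Topology TopologicalSpace
open scoped BoundedContinuousFunction ComplexOrder

namespace Vale.Agent.P095.NU

open Vale.Agent.P101

universe u v w

namespace RVW

section Alg

variable {B : Type*} [Ring B] [StarRing B]

/-- the computation of `R* X R` -/
theorem star_mul_mul {ι : Type*} [Fintype ι] [DecidableEq ι] (v W : ι → B) (X t : B)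
    (hv : ∀ i i', X * (star (v i) * v i') = if i = i' then X * t else 0)
    (hX : ∀ i, Commute X (v i)) (hX' : star X = X) :
    star (∑ i, v i * W i) * X * (∑ i, v i * W i) = ∑ i, star (W i) * (X * t) * W i := by
  have hXs : ∀ i, Commute X (star (v i)) := fun i => by
    have h1 := (hX i).star_star
    rw [hX'] at h1
    exact h1
  rw [star_sum, Finset.sum_mul, Finset.sum_mul]
  refine Finset.sum_congr rfl fun i _ => ?_
  rw [Finset.mul_sum, Finset.sum_eq_single i]
  · have h1 := hv i i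
    rw [if_pos rfl] at h1
    calc star (v i * W i) * X * (v i * W i) = star (W i) * (star (v i) * X) * (v i * W i) := by
          rw [star_mul]; noncomm_ring
      _ = star (W i) * (X * star (v i)) * (v i * W i) := by rw [(hXs i).eq]
      _ = star (W i) * (X * (star (v i) * v i)) * W i := by noncomm_ring
      _ = _ := by rw [h1]
  · intro i' _ hne
    have h1 := hv i i'
    rw [if_neg (Ne.symm hne)] at h1
    calc star (v i * W i) * X * (v i' * W i') =
          star (W i) * (star (v i) * X) * (v i' * W i') := by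
          rw [star_mul]; noncomm_ring
      _ = star (W i) * (X * star (v i)) * (v i' * W i') := by rw [(hXs i).eq]
      _ = star (W i) * (X * (star (v i) * v i')) * W i' := by noncomm_ring
      _ = 0 := by rw [h1]; noncomm_ring
  · intro h
    exact absurd (Finset.mem_univ _) h

end Alg

variable {G : Type*} [Group G] {ω : Ultrafilter ℕ} {A : Type u} [CStarAlgebra A]
  {J : Set A} {α : G →* (A ≃⋆ₐ[ℂ] A)} {B : Type u} [CStarAlgebra B]
  {q : centralSeq ω A →⋆ₐ[ℂ] B} {β : G →* (B ≃⋆ₐ[ℂ] B)}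

theorem norm_mul_diag_le (R : RelSys ω J α q β) (x : centralSeq ω A) (a : A) (ha : a ∈ J) :
    ‖(x : Ultra ω A) * Ultra.diag ω a‖ ≤ ‖q x‖ * ‖a‖ := by
  obtain ⟨y, hy, hy1⟩ := R.lift (q x)
  have h1 : q (x - y) = 0 := by rw [map_sub, hy, sub_self]
  have h2 := (R.ker (x - y)).1 h1 a ha
  have h3 : (x : Ultra ω A) * Ultra.diag ω a = (y : Ultra ω A) * Ultra.diag ω a := by
    have h4 : ((x - y : centralSeq ω A) : Ultra ω A) = (x : Ultra ω A) - (y : Ultra ω A) := rfl
    rw [h4, sub_mul, sub_eq_zero] at h2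
    exact h2
  rw [h3, ← hy1]
  refine (norm_mul_le _ _).trans ?_
  rw [Ultra.norm_diag]
  exact le_rfl

/-- The comparison element in the ultrapower. -/
theorem exists_ultra (R0 : RelSys ω J α q β) {M N m k : ℕ} (x a b h : A) (hx : star x = x)
    (hxJ : x ∈ J) (haJ : a ∈ J) (ha1 : ‖a‖ ≤ 1) (dd : Fin k → A)
    (hbd : b = ∑ q, star (dd q) * (x * x) * dd q) (hb2 : ‖b‖ ≤ 2)
    (z : Fin m → Fin N → A) {ε0 ε1 ε2 : ℝ} (hbh : ‖b * h - h‖ ≤ ε0)
    (hz : ∀ j j', ‖∑ c, star (z c j) * z c j' - (if j = j' then a * a else 0)‖ ≤ ε1)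
    (hzh : ∀ c j, ‖h * z c j - z c j‖ ≤ ε1) (hsmall : N * (N * ε1) + ε2 ≤ 3)
    (e : Fin m × Fin k ≃ Fin M) (i0 : Fin M)
    (t : B) (v : Fin M → B) (u : Fin N → B)
    (hv1 : ∀ i, ‖v i‖ ≤ 1) (hu1 : ∀ j, ‖u j‖ ≤ 1)
    (hv : ∀ i i', star (v i) * v i' = if i = i' then t else 0)
    (hu : ‖∑ j, star (u j) * t * u j - 1‖ ≤ ε2) :
    ∃ R : Ultra ω A, ‖star R * Ultra.diag ω (x * x) * R - Ultra.diag ω (a * a)‖ ≤
      m * (2 * (2 * ε0 + 3 * (N * ε1))) + (N * (N * ε1) + ε2) := by
  choose L hL hL1 using R0.lift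
  have hu1' : ∀ i, ‖(L (u i) : Ultra ω A)‖ ≤ 1 := fun i => (hL1 (u i)).trans_le (hu1 i)
  have hV01 : ‖(L (v i0) : Ultra ω A)‖ ≤ 1 := (hL1 _).trans_le (hv1 _)
  let D := Ultra.diag ω (A := A)
  have hcomm : ∀ (y : A) (c : centralSeq ω A), Commute (D y) (c : Ultra ω A) :=
    fun y c => VWComp.commute_diag y c
  set T' : centralSeq ω A := star (L (v i0)) * L (v i0) with hT'
  have hqT : q T' = t := by
    rw [hT', map_mul, map_star, hL, hv, if_pos rfl]
  have hT : (T' : Ultra ω A) = star (L (v i0) : Ultra ω A) * (L (v i0) : Ultra ω A) := rfl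
  have ht1' : ‖(T' : Ultra ω A)‖ ≤ 1 := by
    rw [hT]
    refine (norm_mul_le _ _).trans ?_
    rw [norm_star]
    nlinarith [norm_nonneg (L (v i0) : Ultra ω A)]
  have hxxJ : x * x ∈ J := R0.core.left x x hxJ
  have haaJ : a * a ∈ J := R0.core.left a a haJ
  have hu' : ‖D (a * a) * (∑ j, star (L (u j) : Ultra ω A) * (T' : Ultra ω A) *
      (L (u j) : Ultra ω A) - 1)‖ ≤ ε2 := by
    have h2 : ((∑ j, star (L (u j)) * T' * L (u j) - 1 : centralSeq ω A) : Ultra ω A) =
        ∑ j, star (L (u j) : Ultra ω A) * (T' : Ultra ω A) * (L (u j) : Ultra ω A) - 1 := by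
      push_cast
      rfl
    rw [← h2, (hcomm (a * a) _).eq]
    refine (norm_mul_diag_le R0 _ _ haaJ).trans ?_
    have h3 : q (∑ j, star (L (u j)) * T' * L (u j) - 1) = ∑ j, star (u j) * t * u j - 1 := by
      rw [map_sub, map_sum, map_one]
      simp only [map_mul, map_star, hL, hqT]
    rw [h3]
    have h8 : ‖a * a‖ ≤ 1 := (norm_mul_le _ _).trans (by nlinarith [norm_nonneg a])
    calc _ ≤ ‖∑ j, star (u j) * t * u j - 1‖ * 1 :=
          mul_le_mul_of_nonneg_left h8 (norm_nonneg _)
      _ ≤ ε2 := by rw [mul_one]; exact hu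
  have hv' : ∀ i i', D (x * x) * (star (L (v i) : Ultra ω A) * (L (v i') : Ultra ω A)) =
      if i = i' then D (x * x) * (T' : Ultra ω A) else 0 := by
    intro i i'
    have h1 : q (star (L (v i)) * L (v i') - if i = i' then T' else 0) = 0 := by
      rw [map_sub, map_mul, map_star, hL, hL, hv]
      split_ifs
      · rw [hqT, sub_self]
      · rw [map_zero, sub_self]
    have h2 := (R0.ker _).1 h1 (x * x) hxxJ
    have h3 := (hcomm (x * x) (star (L (v i)) * L (v i') - if i = i' then T' else 0)).eq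
    have h2' : (((star (L (v i)) * L (v i') - if i = i' then T' else 0 : centralSeq ω A)) :
      Ultra ω A) * D (x * x) = 0 := h2
    rw [h2'] at h3
    have h4 : ((star (L (v i)) * L (v i') - (if i = i' then T' else 0) : centralSeq ω A) :
      Ultra ω A) = star (L (v i) : Ultra ω A) * (L (v i') : Ultra ω A) -
        (if i = i' then (T' : Ultra ω A) else 0) := by
      split_ifs <;> rfl
    rw [h4, mul_sub, sub_eq_zero] at h3
    rw [h3]
    split_ifs
    · rfl
    · rw [mul_zero]
  let Y : Fin m → Ultra ω A := fun c => ∑ j, D (z c j) * (L (u j) : Ultra ω A)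
  let P : Fin m → Ultra ω A := fun c => (L (v i0) : Ultra ω A) * Y c
  let W : Fin m × Fin k → Ultra ω A := fun p => D (dd p.2) * Y p.1
  let R : Ultra ω A := ∑ p : Fin m × Fin k, (L (v (e p)) : Ultra ω A) * W p
  have hxx : star (D (x * x)) = D (x * x) := by
    rw [← map_star, star_mul, hx]
  -- the product
  have h2 : star R * D (x * x) * R = ∑ p, star (W p) * (D (x * x) * (T' : Ultra ω A)) * W p := by
    refine star_mul_mul (fun p => (L (v (e p)) : Ultra ω A)) W (D (x * x)) (T' : Ultra ω A)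
      ?_ ?_ hxx
    · intro p p'
      rw [hv' (e p) (e p')]
      simp only [EmbeddingLike.apply_eq_iff_eq]
    · intro p
      exact hcomm (x * x) (L (v (e p)))
  have h3 : ∀ p, star (W p) * (D (x * x) * (T' : Ultra ω A)) * W p =
      star (Y p.1) * (D (star (dd p.2) * (x * x) * dd p.2) * (T' : Ultra ω A)) * Y p.1 := by
    intro p
    have h4 := (hcomm (dd p.2) T').eq
    change star (D (dd p.2) * Y p.1) * (D (x * x) * (T' : Ultra ω A)) *
      (D (dd p.2) * Y p.1) = _
    calc star (D (dd p.2) * Y p.1) * (D (x * x) * (T' : Ultra ω A)) * (D (dd p.2) * Y p.1)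
        = star (Y p.1) * (star (D (dd p.2)) * D (x * x)) *
            ((T' : Ultra ω A) * D (dd p.2)) * Y p.1 := by
          rw [star_mul]; noncomm_ring
      _ = star (Y p.1) * (star (D (dd p.2)) * D (x * x)) *
            (D (dd p.2) * (T' : Ultra ω A)) * Y p.1 := by
          rw [← h4]
      _ = star (Y p.1) * ((star (D (dd p.2)) * D (x * x) * D (dd p.2)) * (T' : Ultra ω A)) *
            Y p.1 := by
          noncomm_ring
      _ = _ := by
          rw [← map_star, ← map_mul, ← map_mul]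
  have h4 : ∀ (y : A) (c : Fin m), star (Y c) * (D y * (T' : Ultra ω A)) * Y c =
      star (P c) * D y * P c := by
    intro y c
    have h5 := (hcomm y (star (L (v i0)))).eq
    have h6 : ((star (L (v i0)) : centralSeq ω A) : Ultra ω A) = star (L (v i0) : Ultra ω A) :=
      rfl
    rw [h6] at h5
    change _ = star ((L (v i0) : Ultra ω A) * Y c) * D y * ((L (v i0) : Ultra ω A) * Y c)
    rw [hT, star_mul]
    calc star (Y c) * (D y * (star (L (v i0) : Ultra ω A) * (L (v i0) : Ultra ω A))) * Y c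
        = star (Y c) * (D y * star (L (v i0) : Ultra ω A)) * (L (v i0) : Ultra ω A) * Y c := by
          noncomm_ring
      _ = star (Y c) * (star (L (v i0) : Ultra ω A) * D y) * (L (v i0) : Ultra ω A) * Y c := by
          rw [h5]
      _ = _ := by noncomm_ring
  have h5 : star R * D (x * x) * R = ∑ c, star (P c) * D b * P c := by
    rw [h2, Finset.sum_congr rfl fun p _ => h3 p, Fintype.sum_prod_type]
    refine Finset.sum_congr rfl fun c _ => ?_
    simp only
    rw [← h4 b c, ← Finset.sum_mul, ← Finset.mul_sum, ← Finset.sum_mul, ← map_sum, ← hbd]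
  -- the sum of the squares
  have h6 : ∑ c, star (P c) * P c = ∑ j, ∑ j', star (L (u j) : Ultra ω A) *
      D (∑ c, star (z c j) * z c j') * (T' : Ultra ω A) * (L (u j') : Ultra ω A) := by
    have h7 : ∀ c, star (P c) * P c = ∑ j, ∑ j', star (L (u j) : Ultra ω A) *
      D (star (z c j) * z c j') * (T' : Ultra ω A) * (L (u j') : Ultra ω A) := by
      intro c
      have h8 := h4 1 c
      rw [map_one, one_mul, mul_one] at h8
      rw [← h8]
      change star (∑ j, D (z c j) * (L (u j) : Ultra ω A)) * (T' : Ultra ω A) *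
        (∑ j, D (z c j) * (L (u j) : Ultra ω A)) = _
      rw [star_sum, Finset.sum_mul, Finset.sum_mul]
      refine Finset.sum_congr rfl fun j _ => ?_
      rw [Finset.mul_sum]
      refine Finset.sum_congr rfl fun j' _ => ?_
      have h9 := (hcomm (z c j') T').eq
      calc star (D (z c j) * (L (u j) : Ultra ω A)) * (T' : Ultra ω A) *
            (D (z c j') * (L (u j') : Ultra ω A))
          = star (L (u j) : Ultra ω A) * star (D (z c j)) * ((T' : Ultra ω A) * D (z c j')) *
              (L (u j') : Ultra ω A) := by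
            rw [star_mul]; noncomm_ring
        _ = star (L (u j) : Ultra ω A) * star (D (z c j)) * (D (z c j') * (T' : Ultra ω A)) *
              (L (u j') : Ultra ω A) := by rw [← h9]
        _ = star (L (u j) : Ultra ω A) * (star (D (z c j)) * D (z c j')) * (T' : Ultra ω A) *
              (L (u j') : Ultra ω A) := by noncomm_ring
        _ = _ := by rw [← map_star, ← map_mul]
    rw [Finset.sum_congr rfl fun c _ => h7 c, Finset.sum_comm]
    refine Finset.sum_congr rfl fun j _ => ?_
    rw [Finset.sum_comm]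
    refine Finset.sum_congr rfl fun j' _ => ?_
    rw [← Finset.sum_mul, ← Finset.sum_mul, ← Finset.mul_sum, ← map_sum]
  have h7 : ∑ j, ∑ j', star (L (u j) : Ultra ω A) *
      D (if j = j' then a * a else 0) * (T' : Ultra ω A) * (L (u j') : Ultra ω A) =
      D (a * a) * ∑ j, star (L (u j) : Ultra ω A) * (T' : Ultra ω A) *
        (L (u j) : Ultra ω A) := by
    rw [Finset.mul_sum]
    refine Finset.sum_congr rfl fun j _ => ?_
    rw [Finset.sum_eq_single j]
    · rw [if_pos rfl]
      have h6 := (hcomm (a * a) (star (L (u j)))).eq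
      have h7 : ((star (L (u j)) : centralSeq ω A) : Ultra ω A) = star (L (u j) : Ultra ω A) :=
        rfl
      rw [h7] at h6
      rw [← h6]
      noncomm_ring
    · intro j' _ hne
      rw [if_neg (Ne.symm hne), map_zero, mul_zero, zero_mul, zero_mul]
    · intro h
      exact absurd (Finset.mem_univ _) h
  have h8 : ∑ c, star (P c) * P c - D (a * a) =
      (∑ j, ∑ j', star (L (u j) : Ultra ω A) *
        D (∑ c, star (z c j) * z c j' -
          (if j = j' then a * a else 0)) * (T' : Ultra ω A) * (L (u j') : Ultra ω A)) +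
      D (a * a) * (∑ j, star (L (u j) : Ultra ω A) * (T' : Ultra ω A) *
        (L (u j) : Ultra ω A) - 1) := by
    rw [h6, mul_sub, mul_one, ← h7]
    have h9 : ∀ j j', star (L (u j) : Ultra ω A) *
        D (∑ c, star (z c j) * z c j' - (if j = j' then a * a else 0)) *
          (T' : Ultra ω A) * (L (u j') : Ultra ω A) =
        star (L (u j) : Ultra ω A) *
          D (∑ c, star (z c j) * z c j') * (T' : Ultra ω A) * (L (u j') : Ultra ω A) -
        star (L (u j) : Ultra ω A) * D (if j = j' then a * a else 0) * (T' : Ultra ω A) *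
          (L (u j') : Ultra ω A) := by
      intro j j'
      rw [map_sub]
      noncomm_ring
    simp only [h9, Finset.sum_sub_distrib]
    abel
  have h9 : ‖∑ c, star (P c) * P c - D (a * a)‖ ≤ N * (N * ε1) + ε2 := by
    rw [h8]
    refine (norm_add_le _ _).trans (add_le_add ?_ hu')
    have h8 : ∀ j j', ‖star (L (u j) : Ultra ω A) *
        D (∑ c, star (z c j) * z c j' - (if j = j' then a * a else 0)) *
          (T' : Ultra ω A) * (L (u j') : Ultra ω A)‖ ≤ ε1 := by
      intro j j'
      have h9 : ‖D (∑ c, star (z c j) * z c j' - (if j = j' then a * a else 0))‖ ≤ ε1 :=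
        (Ultra.norm_diag _).trans_le (hz j j')
      have h10 : 0 ≤ ε1 := (norm_nonneg _).trans h9
      have h11 : ‖star (L (u j) : Ultra ω A)‖ ≤ 1 := by
        rw [norm_star]
        exact hu1' j
      calc _ ≤ ‖star (L (u j) : Ultra ω A)‖ *
            ‖D (∑ c, star (z c j) * z c j' - (if j = j' then a * a else 0))‖ *
            ‖(T' : Ultra ω A)‖ * ‖(L (u j') : Ultra ω A)‖ := by
            refine (norm_mul_le _ _).trans (mul_le_mul_of_nonneg_right ?_ (norm_nonneg _))
            refine (norm_mul_le _ _).trans (mul_le_mul_of_nonneg_right ?_ (norm_nonneg _))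
            exact norm_mul_le _ _
        _ ≤ 1 * ε1 * 1 * 1 := by
            refine mul_le_mul ?_ (hu1' j') (norm_nonneg _) (by positivity)
            refine mul_le_mul ?_ ht1' (norm_nonneg _) (by positivity)
            exact mul_le_mul h11 h9 (norm_nonneg _) zero_le_one
        _ = ε1 := by ring
    refine (norm_sum_le _ _).trans ?_
    have h9 : ∀ j : Fin N, ‖∑ j', star (L (u j) : Ultra ω A) *
        D (∑ c, star (z c j) * z c j' - (if j = j' then a * a else 0)) *
          (T' : Ultra ω A) * (L (u j') : Ultra ω A)‖ ≤ N * ε1 := by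
      intro j
      refine (norm_sum_le _ _).trans ?_
      refine (Finset.sum_le_sum fun j' _ => h8 j j').trans ?_
      rw [Finset.sum_const, Finset.card_univ, Fintype.card_fin, nsmul_eq_mul]
    refine (Finset.sum_le_sum fun j _ => h9 j).trans ?_
    rw [Finset.sum_const, Finset.card_univ, Fintype.card_fin, nsmul_eq_mul]
  -- the norms of the columns
  have h10 : ∀ c, ‖P c‖ ≤ 2 := by
    intro c
    let _ := CStarAlgebra.spectralOrder (Ultra ω A)
    let _ := CStarAlgebra.spectralOrderedRing (Ultra ω A)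
    have h1 : ‖star (P c) * P c‖ ≤ ‖∑ c, star (P c) * P c‖ := by
      refine CStarAlgebra.norm_le_norm_of_nonneg_of_le (star_mul_self_nonneg _) ?_
      exact Finset.single_le_sum (f := fun c => star (P c) * P c)
        (fun c _ => star_mul_self_nonneg (P c)) (Finset.mem_univ c)
    have h2 : ‖∑ c, star (P c) * P c‖ ≤ 4 := by
      have h3 : ∑ c, star (P c) * P c = (∑ c, star (P c) * P c - D (a * a)) + D (a * a) := by
        abel
      rw [h3]
      refine (norm_add_le _ _).trans ?_
      have h4 : ‖D (a * a)‖ ≤ 1 := by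
        refine (Ultra.norm_diag (ω := ω) (a * a)).trans_le ?_
        exact (norm_mul_le _ _).trans (by nlinarith [norm_nonneg a])
      linarith
    rw [CStarRing.norm_star_mul_self] at h1
    nlinarith [norm_nonneg (P c)]
  have h11 : ∀ c, ‖D (b - 1) * P c‖ ≤ 2 * ε0 + 3 * (N * ε1) := by
    intro c
    have h12 : D (b - 1) * P c = D (b * h - h) * P c +
        D (b - 1) * ((L (v i0) : Ultra ω A) * ∑ j, D (z c j - h * z c j) *
          (L (u j) : Ultra ω A)) := by
      have h13 : ∑ j, D (z c j - h * z c j) * (L (u j) : Ultra ω A) = Y c - D h * Y c := by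
        change _ = (∑ j, D (z c j) * (L (u j) : Ultra ω A)) -
          D h * ∑ j, D (z c j) * (L (u j) : Ultra ω A)
        rw [Finset.mul_sum, ← Finset.sum_sub_distrib]
        refine Finset.sum_congr rfl fun j _ => ?_
        rw [map_sub, map_mul, sub_mul, mul_assoc]
      have h14 := (hcomm h (L (v i0))).eq
      rw [h13]
      change D (b - 1) * ((L (v i0) : Ultra ω A) * Y c) =
        D (b * h - h) * ((L (v i0) : Ultra ω A) * Y c) + _
      have h15 : (L (v i0) : Ultra ω A) * (Y c - D h * Y c) =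
          (L (v i0) : Ultra ω A) * Y c - D h * ((L (v i0) : Ultra ω A) * Y c) := by
        rw [mul_sub, ← mul_assoc, ← mul_assoc, h14]
      have h16 : D (b * h - h) = D (b - 1) * D h := by
        rw [← map_mul, sub_mul, one_mul]
      rw [h15, h16]
      noncomm_ring
    rw [h12]
    have h13 : ‖D (b * h - h) * P c‖ ≤ ε0 * 2 := by
      refine (norm_mul_le _ _).trans ?_
      refine mul_le_mul ((Ultra.norm_diag _).trans_le hbh) (h10 c) (norm_nonneg _)
        ((norm_nonneg _).trans hbh)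
    have h14 : ‖∑ j, D (z c j - h * z c j) * (L (u j) : Ultra ω A)‖ ≤ N * ε1 := by
      refine (norm_sum_le _ _).trans ?_
      have h15 : ∀ j ∈ (Finset.univ : Finset (Fin N)),
          ‖D (z c j - h * z c j) * (L (u j) : Ultra ω A)‖ ≤ ε1 := by
        intro j _
        have h16 : ‖D (z c j - h * z c j)‖ ≤ ε1 := by
          refine (Ultra.norm_diag (ω := ω) _).trans_le ?_
          rw [norm_sub_rev]
          exact hzh c j
        refine (norm_mul_le _ _).trans ?_
        calc _ ≤ ε1 * 1 := mul_le_mul h16 (hu1' j) (norm_nonneg _) ((norm_nonneg _).trans h16)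
          _ = ε1 := mul_one _
      refine (Finset.sum_le_sum h15).trans ?_
      rw [Finset.sum_const, Finset.card_univ, Fintype.card_fin, nsmul_eq_mul]
    have h15 : ‖D (b - 1)‖ ≤ 3 := by
      rw [map_sub, map_one]
      refine (norm_sub_le _ _).trans ?_
      have h16 : ‖D b‖ ≤ 2 := (Ultra.norm_diag (ω := ω) b).trans_le hb2
      have h17 : ‖(1 : Ultra ω A)‖ ≤ 1 := by
        have h18 : ‖(1 : Ultra ω A)‖ * ‖(1 : Ultra ω A)‖ = ‖(1 : Ultra ω A)‖ := by
          rw [← CStarRing.norm_star_mul_self, star_one, one_mul]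
        nlinarith [norm_nonneg (1 : Ultra ω A)]
      linarith
    have h16 : ‖D (b - 1) * ((L (v i0) : Ultra ω A) * ∑ j, D (z c j - h * z c j) *
          (L (u j) : Ultra ω A))‖ ≤ 3 * (1 * (N * ε1)) := by
      refine (norm_mul_le _ _).trans ?_
      refine mul_le_mul h15 ?_ (norm_nonneg _) (by norm_num)
      refine (norm_mul_le _ _).trans ?_
      exact mul_le_mul hV01 h14 (norm_nonneg _) zero_le_one
    refine (norm_add_le _ _).trans ?_
    linarith
  refine ⟨R, ?_⟩
  have h12 : star R * D (x * x) * R - D (a * a) = ∑ c, star (P c) * (D (b - 1) * P c) +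
      (∑ c, star (P c) * P c - D (a * a)) := by
    have h13 : ∑ c, star (P c) * (D (b - 1) * P c) =
        ∑ c, star (P c) * D b * P c - ∑ c, star (P c) * P c := by
      rw [← Finset.sum_sub_distrib]
      refine Finset.sum_congr rfl fun c _ => ?_
      rw [map_sub, map_one]
      noncomm_ring
    rw [h5, h13]
    abel
  change ‖star R * D (x * x) * R - D (a * a)‖ ≤ _
  rw [h12]
  refine (norm_add_le _ _).trans (add_le_add ?_ h9)
  refine (norm_sum_le _ _).trans ?_
  have h13 : ∀ c ∈ (Finset.univ : Finset (Fin m)), ‖star (P c) * (D (b - 1) * P c)‖ ≤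
      2 * (2 * ε0 + 3 * (N * ε1)) := by
    intro c _
    refine (norm_mul_le _ _).trans ?_
    rw [norm_star]
    exact mul_le_mul (h10 c) (h11 c) (norm_nonneg _) (by norm_num)
  refine (Finset.sum_le_sum h13).trans ?_
  rw [Finset.sum_const, Finset.card_univ, Fintype.card_fin, nsmul_eq_mul]

end RVW

section Main

variable {G : Type*} [Group G] {ω : Ultrafilter ℕ} {M : Type u} [CStarAlgebra M]
  {A : Set M} {α : G →* (M ≃⋆ₐ[ℂ] M)} {B : Type u} [CStarAlgebra B]
  {q : centralSeq ω M →⋆ₐ[ℂ] B} {β : G →* (B ≃⋆ₐ[ℂ] B)}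

/-- Very weak comparison relative to the ideal, from the rank estimate and the order zero
data. -/
theorem relVWComp_of (R : RelSys ω A α q β) {d : ℕ}
    (hfull : ∀ x ∈ A, IsPos x → x ≠ 0 → ∀ a ∈ A, ∀ ε : ℝ, 0 < ε →
      ∃ (n : ℕ) (dd : Fin n → M), 0 < n ∧ ‖∑ i, star (dd i) * (x * x) * dd i‖ ≤ 2 ∧
        ‖(∑ i, star (dd i) * (x * x) * dd i) * a - a‖ ≤ ε)
    (hrank : ∀ k : ℕ → M, IsCh A k → ∀ N : ℕ, 0 < N → ∀ ε : ℝ, 0 < ε → ∃ η : ℝ, 0 < η ∧
      ∀ E : M, IsPos E → ‖E‖ ≤ 1 →
      (∀ τ : M →ₗ[ℂ] ℂ, IsLTrace (k 1) τ →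
        (τ (k 3 * E * k 3)).re ≤ η * (τ (k 3 * k 3)).re) →
      ∃ z : Fin (d + 1) → Fin N → M, (∀ j j', ‖∑ c, star (z c j) * z c j' -
        (if j = j' then k 4 * E * k 4 * (k 4 * E * k 4) else 0)‖ ≤ ε) ∧
        ∀ c j, ‖k 0 * z c j - z c j‖ ≤ ε)
    (hoz : ∀ N : ℕ, 0 < N → ∀ ε : ℝ, 0 < ε → ∃ (t : B) (v : Fin N → B) (u : Fin (N + 1) → B),
      (∀ i, ‖v i‖ ≤ 1) ∧ (∀ j, ‖u j‖ ≤ 1) ∧ ‖t‖ ≤ 1 ∧
      (∀ i i', star (v i) * v i' = if i = i' then t else 0) ∧
      ‖∑ j, star (u j) * t * u j - 1‖ ≤ ε) : RelVWComp A := by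
  intro k hk x hxA hx hx0 ε hε
  have hxs : star x = x := by
    obtain ⟨y, rfl⟩ := hx
    rw [star_mul, star_star]
  have hdp : (0 : ℝ) < (d : ℝ) + 1 := by positivity
  set ε0 : ℝ := min ε 1 with hε0
  have hε0p : 0 < ε0 := lt_min hε one_pos
  obtain ⟨n, dd, hn, hb2, hbh⟩ := hfull x hxA hx hx0 (k 0) (hk.mem 0) (ε0 / (16 * (d + 1)))
    (by positivity)
  set N : ℕ := (d + 1) * n + 1 with hN
  have hNr : (1 : ℝ) ≤ N := by
    rw [hN]
    push_cast
    have : (0 : ℝ) ≤ ((d : ℝ) + 1) * n := by positivity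
    linarith
  have hNp : (0 : ℝ) < N := by linarith
  obtain ⟨η, hη, hrank'⟩ := hrank k hk N (by omega) (ε0 / (24 * (d + 1) * N * N))
    (by positivity)
  refine ⟨η, hη, fun E hE hE1 htr => ?_⟩
  obtain ⟨z, hz, hzh⟩ := hrank' E hE hE1 htr
  have hM : 0 < (d + 1) * n := by positivity
  obtain ⟨t, v, u, hv1, hu1, -, hv, hu⟩ := hoz ((d + 1) * n) hM (ε0 / 8) (by positivity)
  have ha1 : ‖k 4 * E * k 4‖ ≤ 1 := by
    have h1 := hk.le 4
    calc ‖k 4 * E * k 4‖ ≤ ‖k 4‖ * ‖E‖ * ‖k 4‖ :=
          (norm_mul_le _ _).trans (mul_le_mul_of_nonneg_right (norm_mul_le _ _) (norm_nonneg _))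
      _ ≤ 1 * 1 * 1 := by gcongr
      _ = 1 := by norm_num
  have haA : k 4 * E * k 4 ∈ A := R.core.left _ _ (hk.mem 4)
  have e1 : (N : ℝ) * (N * (ε0 / (24 * (d + 1) * N * N))) = ε0 / (24 * (d + 1)) := by
    field_simp
  have e2 : ε0 / (24 * ((d : ℝ) + 1)) ≤ ε0 / 24 := by
    refine div_le_div_of_nonneg_left hε0p.le (by norm_num) ?_
    have : (0 : ℝ) ≤ d := by positivity
    linarith
  have e3 : ((d : ℝ) + 1) * (2 * (2 * (ε0 / (16 * (d + 1))) +
      3 * (N * (ε0 / (24 * (d + 1) * N * N))))) = ε0 / 4 + ε0 / (4 * N) := by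
    field_simp
    ring
  have e4 : ε0 / (4 * (N : ℝ)) ≤ ε0 / 4 := by
    refine div_le_div_of_nonneg_left hε0p.le (by norm_num) ?_
    linarith
  have hε01 : ε0 ≤ 1 := min_le_right _ _
  obtain ⟨R', hR'⟩ := RVW.exists_ultra R x (k 4 * E * k 4)
    (∑ i, star (dd i) * (x * x) * dd i) (k 0) hxs hxA haA ha1 dd rfl hb2 z hbh hz hzh
    (by rw [e1]; linarith) finProdFinEquiv ⟨0, hM⟩ t v u hv1 hu1 hv hu
  rw [e1] at hR'
  push_cast at hR'
  rw [e3] at hR'
  have h2 : ‖star R' * Ultra.diag ω (x * x) * R' -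
      Ultra.diag ω (k 4 * E * k 4 * (k 4 * E * k 4))‖ < ε0 := by
    linarith
  obtain ⟨r, hr, hr1⟩ := Ultra.exists_rep R'
  have h3 : Ultra.mk ω (star r * Ultra.const (x * x) * r -
      Ultra.const (k 4 * E * k 4 * (k 4 * E * k 4))) =
      star R' * Ultra.diag ω (x * x) * R' - Ultra.diag ω (k 4 * E * k 4 * (k 4 * E * k 4)) := by
    rw [map_sub, map_mul, map_mul, map_star, hr]
    rfl
  rw [← h3] at h2
  obtain ⟨i, hi⟩ := ((Ultra.tendsto_norm_mk (ω := ω) _).eventually (gt_mem_nhds h2)).exists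
  have hi' : ‖star (r i) * (x * x) * r i - k 4 * E * k 4 * (k 4 * E * k 4)‖ < ε0 := hi
  have h4 : star (x * r i) * (x * r i) = star (r i) * (x * x) * r i := by
    rw [star_mul, hxs]
    noncomm_ring
  refine ⟨x * r i, ?_, ?_, ?_⟩
  · have h5 : ‖x * r i‖ * ‖x * r i‖ ≤ 2 := by
      rw [← CStarRing.norm_star_mul_self, h4]
      have h6 : star (r i) * (x * x) * r i =
          (star (r i) * (x * x) * r i - k 4 * E * k 4 * (k 4 * E * k 4)) +
            k 4 * E * k 4 * (k 4 * E * k 4) := by abel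
      rw [h6]
      refine (norm_add_le _ _).trans ?_
      have h7 : ‖k 4 * E * k 4 * (k 4 * E * k 4)‖ ≤ 1 :=
        (norm_mul_le _ _).trans (by nlinarith [norm_nonneg (k 4 * E * k 4)])
      linarith
    nlinarith [norm_nonneg (x * r i)]
  · intro y hy
    rw [← mul_assoc, hy]
  · rw [h4]
    exact hi'.le.trans (min_le_left _ _)

end Main

end Vale.Agent.P095.NU
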