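import Vale.Agent.P095.NU.Defs
import Vale.Agent.P095.Central

/-!
# P095, target T7, row G29: a `Z`-stable algebra without unit has central copies of `Z`
-/

open Filter Topology TopologicalSpace
open scoped BoundedContinuousFunction TensorProduct ComplexOrder

namespace Vale.Agent.P095.NU

open Vale.Agent.P101

universe u v w

namespace RZ

section Tensor

variable {A : Type u} {Z : Type v} {T : Type w} [NonUnitalCStarAlgebra A] [CStarAlgebra Z]
  [NonUnitalCStarAlgebra T] {t : A →ₗ[ℂ] Z →ₗ[ℂ] T}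

/-- `a ↦ a ⊗ 1` -/
noncomputable def leftHom (hT : IsTensorNU t) : A →⋆ₙₐ[ℂ] T where
  toFun a := t a 1
  map_smul' c a := by simp
  map_zero' := by simp
  map_add' a b := by simp
  map_mul' a b := by rw [hT.mul, mul_one]
  map_star' a := by rw [hT.star, star_one]

theorem norm_t_one_le (hT : IsTensorNU t) (a : A) : ‖t a 1‖ ≤ ‖a‖ :=
  NonUnitalStarAlgHom.norm_apply_le (leftHom hT) a

theorem norm_t_le (hT : IsTensorNU t) (a : A) (z : Z) : ‖t a z‖ ≤ ‖a‖ * ‖z‖ := by
  let _ := CStarAlgebra.spectralOrder Z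
  have _ := CStarAlgebra.spectralOrderedRing Z
  let _ := CStarAlgebra.spectralOrder T
  have _ := CStarAlgebra.spectralOrderedRing T
  have h1 : star z * z ≤ algebraMap ℝ Z (‖z‖ ^ 2) := CStarAlgebra.star_mul_le_algebraMap_norm_sq
  obtain ⟨w, hw⟩ := CStarAlgebra.nonneg_iff_eq_star_mul_self.1 (sub_nonneg.2 h1)
  have e1 : algebraMap ℝ Z (‖z‖ ^ 2) = ((‖z‖ ^ 2 : ℝ) : ℂ) • (1 : Z) := by
    rw [Algebra.algebraMap_eq_smul_one, Complex.coe_smul]
  have e2 : star (t a z) * t a z + star (t a w) * t a w =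
      ((‖z‖ ^ 2 : ℝ) : ℂ) • (star (t a 1) * t a 1) := by
    rw [hT.star, hT.star, hT.star, hT.mul, hT.mul, hT.mul, ← map_add, ← hw, star_one, one_mul,
      add_sub_cancel, e1, map_smul]
  have h2 : ‖star (t a z) * t a z‖ ≤ ‖((‖z‖ ^ 2 : ℝ) : ℂ) • (star (t a 1) * t a 1)‖ := by
    apply CStarAlgebra.norm_le_norm_of_nonneg_of_le (star_mul_self_nonneg _)
    rw [← e2]
    exact le_add_of_nonneg_right (star_mul_self_nonneg _)
  rw [CStarRing.norm_star_mul_self, norm_smul, CStarRing.norm_star_mul_self, Complex.norm_real,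
    Real.norm_eq_abs, abs_of_nonneg (by positivity)] at h2
  have h3 := norm_t_one_le hT a
  have h4 : ‖t a z‖ * ‖t a z‖ ≤ (‖a‖ * ‖z‖) * (‖a‖ * ‖z‖) := by
    calc _ ≤ ‖z‖ ^ 2 * (‖t a 1‖ * ‖t a 1‖) := h2
      _ ≤ ‖z‖ ^ 2 * (‖a‖ * ‖a‖) := by gcongr
      _ = _ := by ring
  exact abs_le_of_sq_le_sq' (by nlinarith) (by positivity) |>.2

end Tensor

theorem exists_unit {A : Type u} [NonUnitalCStarAlgebra A] (F : Finset A) {ε : ℝ} (hε : 0 < ε) :
    ∃ h : A, star h = h ∧ ‖h‖ ≤ 1 ∧ ∀ a ∈ F, ‖h * a - a‖ < ε ∧ ‖a * h - a‖ < ε := by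
  let _ := CStarAlgebra.spectralOrder A
  have _ := CStarAlgebra.spectralOrderedRing A
  have hl := CStarAlgebra.increasingApproximateUnit A
  have : (CStarAlgebra.approximateUnit A).NeBot := hl.neBot
  have h1 : ∀ᶠ h in CStarAlgebra.approximateUnit A, ∀ a ∈ F, ‖h * a - a‖ < ε ∧ ‖a * h - a‖ < ε := by
    rw [Filter.eventually_all_finset]
    intro a _
    have h2 := (tendsto_iff_norm_sub_tendsto_zero.1 (hl.tendsto_mul_right a)).eventually
      (gt_mem_nhds hε)
    have h3 := (tendsto_iff_norm_sub_tendsto_zero.1 (hl.tendsto_mul_left a)).eventually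
      (gt_mem_nhds hε)
    exact h2.and h3
  obtain ⟨h, h2, h3, h4⟩ := (h1.and (hl.eventually_star_eq.and hl.eventually_norm)).exists
  exact ⟨h, h3, h4, h2⟩

/-- Almost multiplicative, almost central maps of `Z` into a tensor product. -/
theorem exists_almost_tensor {Z : Type v} [CStarAlgebra Z] (hZ : StronglySelfAbsorbing Z)
    {A : Type u} [NonUnitalCStarAlgebra A] {T : Type w} [NonUnitalCStarAlgebra T]
    {t : A →ₗ[ℂ] Z →ₗ[ℂ] T} (hT : IsTensorNU t) (F : Finset T) {ε : ℝ} (hε : 0 < ε) :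
    ∃ μ : Z →ₗ[ℂ] T, (∀ z, μ (star z) = star (μ z)) ∧ (∀ z, ‖μ z‖ ≤ ‖z‖) ∧
      ∀ b ∈ F, (∀ z, ‖μ z * b - b * μ z‖ ≤ ε * ‖z‖) ∧
        (∀ z z', ‖(μ (z * z') - μ z * μ z') * b‖ ≤ ε * (‖z‖ * ‖z'‖)) ∧ ‖μ 1 * b - b‖ ≤ ε := by
  classical
  have happ : ∀ b : T, ∃ S : Finset (A × Z), ‖b - ∑ i ∈ S, t i.1 i.2‖ < ε / 4 := by
    intro b
    obtain ⟨x, hx⟩ := hT.dense.exists_dist_lt b (by positivity : 0 < ε / 4)
    obtain ⟨S, rfl⟩ := TensorProduct.exists_finset x
    refine ⟨S, ?_⟩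
    rw [dist_eq_norm, map_sum] at hx
    simpa using hx
  choose S hS using happ
  let K : ℝ := 1 + ∑ b ∈ F, ∑ i ∈ S b, (‖i.1‖ + ‖i.2‖)
  have hK0 : 0 ≤ ∑ b ∈ F, ∑ i ∈ S b, (‖i.1‖ + ‖i.2‖) :=
    Finset.sum_nonneg (fun _ _ => Finset.sum_nonneg (fun _ _ => by positivity))
  have hK : 0 < K := by linarith
  have hKb : ∀ b ∈ F, ∑ i ∈ S b, (‖i.1‖ + ‖i.2‖) ≤ K := by
    intro b hb
    have : ∑ i ∈ S b, (‖i.1‖ + ‖i.2‖) ≤ ∑ b ∈ F, ∑ i ∈ S b, (‖i.1‖ + ‖i.2‖) :=
      Finset.single_le_sum (f := fun b => ∑ i ∈ S b, (‖i.1‖ + ‖i.2‖))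
        (fun _ _ => Finset.sum_nonneg (fun _ _ => by positivity)) hb
    linarith
  set η : ℝ := ε / (4 * K) with hη
  have hη0 : 0 < η := by positivity
  obtain ⟨ν, hν⟩ := Central.exists_almost_central hZ
    (F.biUnion (fun b => (S b).image Prod.snd)) (ε := η) hη0
  obtain ⟨h, hs, h1, hu⟩ := exists_unit (F.biUnion (fun b => (S b).image Prod.fst)) (ε := η) hη0
  have hν1 : ∀ z, ‖ν z‖ ≤ ‖z‖ := fun z => Central.norm_le ν z
  let μ : Z →ₗ[ℂ] T := (t h).comp ν.toAlgHom.toLinearMap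
  have hμ : ∀ z, μ z = t h (ν z) := fun _ => rfl
  have hμn : ∀ z, ‖μ z‖ ≤ ‖z‖ := by
    intro z
    rw [hμ]
    calc _ ≤ ‖h‖ * ‖ν z‖ := norm_t_le hT _ _
      _ ≤ 1 * ‖z‖ := by
          gcongr
          exact hν1 z
      _ = ‖z‖ := one_mul _
  refine ⟨μ, fun z => ?_, hμn, fun b hb => ?_⟩
  · rw [hμ, hμ, hT.star, hs, map_star]
  have hA : ∀ i ∈ S b, ‖h * i.1 - i.1‖ < η ∧ ‖i.1 * h - i.1‖ < η := fun i hi => hu i.1
    (Finset.mem_biUnion.2 ⟨b, hb, Finset.mem_image_of_mem _ hi⟩)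
  have hZ' : ∀ z, ∀ i ∈ S b, ‖ν z * i.2 - i.2 * ν z‖ ≤ η * ‖z‖ := fun z i hi => hν z i.2
    (Finset.mem_biUnion.2 ⟨b, hb, Finset.mem_image_of_mem _ hi⟩)
  set s := ∑ i ∈ S b, t i.1 i.2 with hsd
  have hr : ‖b - s‖ ≤ ε / 4 := (hS b).le
  have hηK : η * K = ε / 4 := by
    rw [hη]
    field_simp
  refine ⟨fun z => ?_, fun z z' => ?_, ?_⟩
  · have e1 : μ z * b - b * μ z = (μ z * (b - s) - (b - s) * μ z) + (μ z * s - s * μ z) := by
      noncomm_ring
    have e2 : μ z * s - s * μ z = ∑ i ∈ S b, (t ((h * i.1 - i.1) + (i.1 - i.1 * h)) (ν z * i.2) +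
        t (i.1 * h) (ν z * i.2 - i.2 * ν z)) := by
      rw [hsd, Finset.mul_sum, Finset.sum_mul, ← Finset.sum_sub_distrib]
      refine Finset.sum_congr rfl fun i _ => ?_
      rw [hμ, hT.mul, hT.mul, sub_add_sub_cancel, map_sub, LinearMap.sub_apply, map_sub]
      abel
    have h2 : ‖μ z * s - s * μ z‖ ≤ (ε / 2) * ‖z‖ := by
      rw [e2]
      calc _ ≤ ∑ i ∈ S b, (2 * η * ‖z‖ * (‖i.1‖ + ‖i.2‖)) := by
            refine (norm_sum_le _ _).trans (Finset.sum_le_sum (fun i hi => ?_))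
            obtain ⟨ha, hb'⟩ := hA i hi
            have h3 : ‖(h * i.1 - i.1) + (i.1 - i.1 * h)‖ ≤ 2 * η := by
              refine (norm_add_le _ _).trans ?_
              rw [norm_sub_rev i.1 (i.1 * h)]
              linarith
            have h4 : ‖t ((h * i.1 - i.1) + (i.1 - i.1 * h)) (ν z * i.2)‖ ≤
                2 * η * (‖z‖ * ‖i.2‖) := by
              refine (norm_t_le hT _ _).trans ?_
              gcongr
              refine (norm_mul_le _ _).trans ?_
              gcongr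
              exact hν1 z
            have h5 : ‖t (i.1 * h) (ν z * i.2 - i.2 * ν z)‖ ≤ ‖i.1‖ * (η * ‖z‖) := by
              refine (norm_t_le hT _ _).trans ?_
              gcongr
              · refine (norm_mul_le _ _).trans ?_
                calc _ ≤ ‖i.1‖ * 1 := by gcongr
                  _ = _ := mul_one _
              · exact hZ' z i hi
            refine (norm_add_le _ _).trans ((add_le_add h4 h5).trans ?_)
            have h6 : 0 ≤ η * ‖z‖ * ‖i.1‖ := by positivity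
            nlinarith [norm_nonneg z, norm_nonneg i.1, norm_nonneg i.2]
        _ = 2 * η * ‖z‖ * ∑ i ∈ S b, (‖i.1‖ + ‖i.2‖) := by rw [Finset.mul_sum]
        _ ≤ 2 * η * ‖z‖ * K := by
            gcongr
            exact hKb b hb
        _ = 2 * (η * K) * ‖z‖ := by ring
        _ = (ε / 2) * ‖z‖ := by
            rw [hηK]
            ring
    have h3 : ‖μ z * (b - s) - (b - s) * μ z‖ ≤ (ε / 2) * ‖z‖ := by
      calc _ ≤ ‖μ z‖ * ‖b - s‖ + ‖b - s‖ * ‖μ z‖ :=
            (norm_sub_le _ _).trans (add_le_add (norm_mul_le _ _) (norm_mul_le _ _))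
        _ ≤ ‖z‖ * (ε / 4) + (ε / 4) * ‖z‖ := by
            gcongr
            · exact hμn z
            · exact hμn z
        _ = (ε / 2) * ‖z‖ := by ring
    rw [e1]
    refine (norm_add_le _ _).trans ?_
    linarith
  · have e0 : μ (z * z') - μ z * μ z' = t (h - h * h) (ν (z * z')) := by
      rw [hμ, hμ, hμ, hT.mul, map_mul, map_sub, LinearMap.sub_apply]
    have hn : ‖ν (z * z')‖ ≤ ‖z‖ * ‖z'‖ := (hν1 _).trans (norm_mul_le _ _)
    have e1 : (μ (z * z') - μ z * μ z') * b =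
        (μ (z * z') - μ z * μ z') * (b - s) + (μ (z * z') - μ z * μ z') * s := by
      rw [← mul_add, sub_add_cancel]
    have e2 : (μ (z * z') - μ z * μ z') * s =
        ∑ i ∈ S b, t (h * (i.1 - h * i.1)) (ν (z * z') * i.2) := by
      rw [hsd, Finset.mul_sum]
      refine Finset.sum_congr rfl fun i _ => ?_
      rw [e0, hT.mul]
      congr 2
      noncomm_ring
    have h2 : ‖(μ (z * z') - μ z * μ z') * s‖ ≤ (ε / 4) * (‖z‖ * ‖z'‖) := by
      rw [e2]
      calc _ ≤ ∑ i ∈ S b, (η * (‖z‖ * ‖z'‖) * (‖i.1‖ + ‖i.2‖)) := by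
            refine (norm_sum_le _ _).trans (Finset.sum_le_sum (fun i hi => ?_))
            obtain ⟨ha, hb'⟩ := hA i hi
            have h3 : ‖h * (i.1 - h * i.1)‖ ≤ η := by
              refine (norm_mul_le _ _).trans ?_
              rw [norm_sub_rev]
              calc _ ≤ 1 * η := by gcongr
                _ = η := one_mul _
            have h4 : ‖t (h * (i.1 - h * i.1)) (ν (z * z') * i.2)‖ ≤
                η * ((‖z‖ * ‖z'‖) * ‖i.2‖) := by
              refine (norm_t_le hT _ _).trans ?_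
              gcongr
              refine (norm_mul_le _ _).trans ?_
              gcongr
            refine h4.trans ?_
            have h6 : 0 ≤ η * (‖z‖ * ‖z'‖) * ‖i.1‖ := by positivity
            nlinarith
        _ = η * (‖z‖ * ‖z'‖) * ∑ i ∈ S b, (‖i.1‖ + ‖i.2‖) := by rw [Finset.mul_sum]
        _ ≤ η * (‖z‖ * ‖z'‖) * K := by
            gcongr
            exact hKb b hb
        _ = (η * K) * (‖z‖ * ‖z'‖) := by ring
        _ = (ε / 4) * (‖z‖ * ‖z'‖) := by rw [hηK]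
    have h3 : ‖(μ (z * z') - μ z * μ z') * (b - s)‖ ≤ (ε / 2) * (‖z‖ * ‖z'‖) := by
      have h4 : ‖μ (z * z') - μ z * μ z'‖ ≤ 2 * (‖z‖ * ‖z'‖) := by
        calc _ ≤ ‖μ (z * z')‖ + ‖μ z‖ * ‖μ z'‖ :=
              (norm_sub_le _ _).trans (add_le_add le_rfl (norm_mul_le _ _))
          _ ≤ ‖z‖ * ‖z'‖ + ‖z‖ * ‖z'‖ := by
              gcongr
              · exact (hμn _).trans (norm_mul_le _ _)
              · exact hμn z
              · exact hμn z'
          _ = _ := by ring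
      calc _ ≤ 2 * (‖z‖ * ‖z'‖) * (ε / 4) := by
            refine (norm_mul_le _ _).trans ?_
            gcongr
        _ = _ := by ring
    rw [e1]
    refine (norm_add_le _ _).trans ?_
    have : 0 ≤ ε * (‖z‖ * ‖z'‖) := by positivity
    linarith
  · have hn1 : ‖μ 1‖ ≤ 1 := by
      rw [hμ, map_one]
      exact (norm_t_one_le hT h).trans h1
    have e1 : μ 1 * b - b = (μ 1 * (b - s) - (b - s)) + (μ 1 * s - s) := by
      noncomm_ring
    have e2 : μ 1 * s - s = ∑ i ∈ S b, t (h * i.1 - i.1) i.2 := by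
      rw [hsd, Finset.mul_sum, ← Finset.sum_sub_distrib]
      refine Finset.sum_congr rfl fun i _ => ?_
      rw [hμ, hT.mul, map_one, one_mul, map_sub, LinearMap.sub_apply]
    have h2 : ‖μ 1 * s - s‖ ≤ ε / 4 := by
      rw [e2]
      calc _ ≤ ∑ i ∈ S b, (η * (‖i.1‖ + ‖i.2‖)) := by
            refine (norm_sum_le _ _).trans (Finset.sum_le_sum (fun i hi => ?_))
            obtain ⟨ha, hb'⟩ := hA i hi
            refine (norm_t_le hT _ _).trans ?_
            have h6 : 0 ≤ η * ‖i.1‖ := by positivity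
            nlinarith [norm_nonneg i.2]
        _ = η * ∑ i ∈ S b, (‖i.1‖ + ‖i.2‖) := by rw [Finset.mul_sum]
        _ ≤ η * K := by
            gcongr
            exact hKb b hb
        _ = ε / 4 := hηK
    have h3 : ‖μ 1 * (b - s) - (b - s)‖ ≤ ε / 2 := by
      calc _ ≤ ‖μ 1‖ * ‖b - s‖ + ‖b - s‖ :=
            (norm_sub_le _ _).trans (add_le_add (norm_mul_le _ _) le_rfl)
        _ ≤ 1 * (ε / 4) + ε / 4 := by gcongr
        _ = ε / 2 := by ring
    rw [e1]
    refine (norm_add_le _ _).trans ?_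
    linarith

theorem exists_almost {Z : Type v} [CStarAlgebra Z] (hZ : StronglySelfAbsorbing Z)
    {A : Type u} [NonUnitalCStarAlgebra A] (hA : ZStableNU Z A) (F : Finset A) {ε : ℝ}
    (hε : 0 < ε) :
    ∃ μ : Z →ₗ[ℂ] A, (∀ z, μ (star z) = star (μ z)) ∧ (∀ z, ‖μ z‖ ≤ ‖z‖) ∧
      ∀ b ∈ F, (∀ z, ‖μ z * b - b * μ z‖ ≤ ε * ‖z‖) ∧
        (∀ z z', ‖(μ (z * z') - μ z * μ z') * b‖ ≤ ε * (‖z‖ * ‖z'‖)) ∧ ‖μ 1 * b - b‖ ≤ ε := by
  classical
  obtain ⟨T, _, t, hT, ⟨ψ⟩⟩ := hA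
  have hψ : ∀ a : A, ‖ψ a‖ = ‖a‖ := fun a => NonUnitalStarAlgHom.norm_map ψ ψ.injective a
  obtain ⟨μ, h1, h2, h3⟩ := exists_almost_tensor hZ hT (F.image ψ) hε
  let μ' : Z →ₗ[ℂ] A :=
    { toFun := fun z => ψ.symm (μ z)
      map_add' := fun x y => by rw [map_add, map_add]
      map_smul' := fun c x => by rw [map_smul, map_smul, RingHom.id_apply] }
  have hμ : ∀ z, ψ (μ' z) = μ z := fun z => ψ.apply_symm_apply (μ z)
  refine ⟨μ', fun z => ψ.injective ?_, fun z => ?_, fun b hb => ?_⟩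
  · show ψ (μ' (star z)) = ψ (star (μ' z))
    rw [hμ (star z), map_star ψ, hμ, h1]
  · rw [← hψ, hμ]
    exact h2 z
  · obtain ⟨h4, h5, h6⟩ := h3 (ψ b) (Finset.mem_image_of_mem _ hb)
    refine ⟨fun z => ?_, fun z z' => ?_, ?_⟩
    · rw [← hψ, map_sub, map_mul, map_mul, hμ]
      exact h4 z
    · rw [← hψ, map_mul ψ, map_sub ψ, map_mul ψ, hμ, hμ, hμ]
      exact h5 z z'
    · rw [← hψ, map_sub, map_mul, hμ]
      exact h6

end RZ

open RZ in
theorem exists_hom_of_zStableNU {Z : Type v} [CStarAlgebra Z] [SeparableSpace Z]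
    (hZ' : StronglySelfAbsorbing Z) {A : Type u} [NonUnitalCStarAlgebra A] [SeparableSpace A]
    (hA : ZStableNU Z A) {ω : Ultrafilter ℕ} (hω : (ω : Filter ℕ) ≤ cofinite)
    {G : Type*} [Group G] {α : G →* (Unitization ℂ A ≃⋆ₐ[ℂ] Unitization ℂ A)}
    {B : Type u} [CStarAlgebra B] {q : centralSeq ω (Unitization ℂ A) →⋆ₐ[ℂ] B}
    {β : G →* (B ≃⋆ₐ[ℂ] B)}
    (R : RelSys ω (Set.range (Unitization.inr : A → Unitization ℂ A)) α q β) :
    Nonempty (Z →⋆ₐ[ℂ] B) := by
  classical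
  obtain ⟨d, hd⟩ := TopologicalSpace.exists_dense_seq A
  choose μ hμs hμ using fun n : ℕ => exists_almost hZ' hA ((Finset.range (n + 1)).image d)
    (ε := 1 / ((n : ℝ) + 1)) (by positivity)
  have hμn : ∀ n z, ‖μ n z‖ ≤ ‖z‖ := fun n z => (hμ n).1 z
  have hμd : ∀ n i, i ≤ n → (∀ z, ‖μ n z * d i - d i * μ n z‖ ≤ 1 / ((n : ℝ) + 1) * ‖z‖) ∧
      (∀ z z', ‖(μ n (z * z') - μ n z * μ n z') * d i‖ ≤ 1 / ((n : ℝ) + 1) * (‖z‖ * ‖z'‖)) ∧
      ‖μ n 1 * d i - d i‖ ≤ 1 / ((n : ℝ) + 1) := fun n i hi =>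
    (hμ n).2 (d i) (Finset.mem_image_of_mem _ (by rw [Finset.mem_range]; omega))
  let M := Unitization ℂ A
  have hinr : ∀ a : A, ‖(a : Unitization ℂ A)‖ = ‖a‖ := fun a => Unitization.norm_inr a
  let y : Z → (ℕ →ᵇ Unitization ℂ A) := fun z =>
    BoundedContinuousFunction.ofNormedAddCommGroupDiscrete
      (fun n => ((μ n z : A) : Unitization ℂ A)) ‖z‖ (fun n => by
        rw [hinr]
        exact hμn n z)
  have hy : ∀ z n, y z n = ((μ n z : A) : Unitization ℂ A) := fun _ _ => rfl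
  have hlim : ∀ c : ℝ, Tendsto (fun n : ℕ => 1 / ((n : ℝ) + 1) * c) ω (𝓝 0) := by
    intro c
    have h3 : Tendsto (fun n : ℕ => 1 / ((n : ℝ) + 1) * c) atTop (𝓝 (0 * c)) :=
      tendsto_one_div_add_atTop_nhds_zero_nat.mul_const _
    rw [zero_mul] at h3
    exact h3.mono_left (Nat.cofinite_eq_atTop ▸ hω)
  have hev : ∀ i : ℕ, ∀ᶠ n in (ω : Filter ℕ), i ≤ n := fun i =>
    hω (Nat.cofinite_eq_atTop ▸ eventually_ge_atTop i)
  have hci : Continuous (Unitization.inr : A → Unitization ℂ A) :=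
    (Unitization.isometry_inr (𝕜 := ℂ) (A := A)).continuous
  have hcd : Continuous (fun a : A => Ultra.diag ω (a : Unitization ℂ A)) :=
    (AddMonoidHomClass.continuous_of_bound (Ultra.diag ω) 1
      (fun b => by rw [one_mul, Ultra.norm_diag])).comp hci
  -- almost central
  have h1 : ∀ z, ∀ a : A, Commute (Ultra.diag ω (a : Unitization ℂ A)) (Ultra.mk ω (y z)) := by
    intro z
    have hcl : IsClosed {a : A | Commute (Ultra.diag ω (a : Unitization ℂ A))
        (Ultra.mk ω (y z))} :=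
      isClosed_eq (hcd.mul continuous_const) (continuous_const.mul hcd)
    intro a
    have h2 : closure (Set.range d) ⊆ {a : A | Commute (Ultra.diag ω (a : Unitization ℂ A))
        (Ultra.mk ω (y z))} := by
      apply closure_minimal _ hcl
      rintro _ ⟨i, rfl⟩
      show Commute _ _
      rw [commute_iff_eq, Ultra.diag_apply, ← map_mul, ← map_mul, Ultra.mk_eq_mk_iff]
      refine squeeze_zero' (Eventually.of_forall fun _ => norm_nonneg _) ?_ (hlim ‖z‖)
      filter_upwards [hev i] with n hn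
      show ‖((d i : A) : Unitization ℂ A) * y z n - y z n * (d i : A)‖ ≤ _
      rw [norm_sub_rev, hy, ← Unitization.inr_mul, ← Unitization.inr_mul, ← Unitization.inr_sub,
        hinr]
      exact (hμd n i hn).1 z
    exact h2 (hd a)
  have hcentral : ∀ z, Ultra.mk ω (y z) ∈ centralSeq ω (Unitization ℂ A) := by
    intro z
    rw [mem_centralSeq_iff]
    intro m
    induction m using Unitization.ind with
    | inl_add_inr c a =>
      rw [map_add]
      refine Commute.add_left ?_ (h1 z a)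
      have : (Unitization.inl c : Unitization ℂ A) = algebraMap ℂ (Unitization ℂ A) c := rfl
      rw [this, AlgHomClass.commutes]
      exact Algebra.commutes _ _
  -- the kernel
  have hker : ∀ (x : ℕ →ᵇ Unitization ℂ A) (hx : Ultra.mk ω x ∈ centralSeq ω (Unitization ℂ A)),
      (∀ i, Tendsto (fun n => ‖x n * ((d i : A) : Unitization ℂ A)‖) ω (𝓝 0)) →
      q ⟨Ultra.mk ω x, hx⟩ = 0 := by
    intro x hx h
    rw [R.ker]
    rintro _ ⟨a, rfl⟩
    have hcl : IsClosed {a : A | Ultra.mk ω x * Ultra.diag ω (a : Unitization ℂ A) = 0} :=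
      isClosed_eq (continuous_const.mul hcd) continuous_const
    have h2 : closure (Set.range d) ⊆
        {a : A | Ultra.mk ω x * Ultra.diag ω (a : Unitization ℂ A) = 0} := by
      apply closure_minimal _ hcl
      rintro _ ⟨i, rfl⟩
      show Ultra.mk ω x * Ultra.diag ω _ = 0
      rw [Ultra.diag_apply, ← map_mul, Ultra.mk_eq_zero_iff]
      exact h i
    exact h2 (hd a)
  have hker' : ∀ (x x' : ℕ →ᵇ Unitization ℂ A)
      (hx : Ultra.mk ω x ∈ centralSeq ω (Unitization ℂ A))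
      (hx' : Ultra.mk ω x' ∈ centralSeq ω (Unitization ℂ A)),
      (∀ i, Tendsto (fun n => ‖(x n - x' n) * ((d i : A) : Unitization ℂ A)‖) ω (𝓝 0)) →
      q ⟨Ultra.mk ω x, hx⟩ = q ⟨Ultra.mk ω x', hx'⟩ := by
    intro x x' hx hx' h
    have hm : Ultra.mk ω (x - x') ∈ centralSeq ω (Unitization ℂ A) := by
      rw [map_sub]
      exact sub_mem hx hx'
    have h2 := hker (x - x') hm h
    rw [← sub_eq_zero, ← map_sub, ← h2]
    congr 1
  have hone : q ⟨Ultra.mk ω (y 1), hcentral 1⟩ = 1 := by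
    have h1' : Ultra.mk ω (1 : ℕ →ᵇ Unitization ℂ A) ∈ centralSeq ω (Unitization ℂ A) := by
      rw [map_one]
      exact one_mem _
    have h2 : (1 : B) = q ⟨Ultra.mk ω (1 : ℕ →ᵇ Unitization ℂ A), h1'⟩ := by
      rw [← map_one q]
      congr 1
    rw [h2]
    refine hker' _ _ _ _ fun i => ?_
    refine squeeze_zero' (Eventually.of_forall fun _ => norm_nonneg _) ?_ (hlim 1)
    filter_upwards [hev i] with n hn
    show ‖(y 1 n - 1) * ((d i : A) : Unitization ℂ A)‖ ≤ _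
    rw [hy, sub_mul, one_mul, ← Unitization.inr_mul, ← Unitization.inr_sub, hinr, mul_one]
    exact (hμd n i hn).2.2
  refine ⟨{ toFun := fun z => q ⟨Ultra.mk ω (y z), hcentral z⟩
            map_one' := ?_
            map_mul' := ?_
            map_zero' := ?_
            map_add' := ?_
            commutes' := ?_
            map_star' := ?_ }⟩
  · exact hone
  · intro z z'
    have h1' : Ultra.mk ω (y z * y z') ∈ centralSeq ω (Unitization ℂ A) := by
      rw [map_mul]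
      exact mul_mem (hcentral z) (hcentral z')
    have h2 : q ⟨Ultra.mk ω (y z), hcentral z⟩ * q ⟨Ultra.mk ω (y z'), hcentral z'⟩ =
        q ⟨Ultra.mk ω (y z * y z'), h1'⟩ := by
      rw [← map_mul]
      congr 1
    show q ⟨Ultra.mk ω (y (z * z')), _⟩ = _
    rw [h2]
    refine hker' _ _ _ _ fun i => ?_
    refine squeeze_zero' (Eventually.of_forall fun _ => norm_nonneg _) ?_ (hlim (‖z‖ * ‖z'‖))
    filter_upwards [hev i] with n hn
    show ‖(y (z * z') n - y z n * y z' n) * ((d i : A) : Unitization ℂ A)‖ ≤ _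
    rw [hy, hy, hy, ← Unitization.inr_mul, ← Unitization.inr_sub, ← Unitization.inr_mul, hinr]
    exact (hμd n i hn).2.1 z z'
  · show q ⟨Ultra.mk ω (y 0), _⟩ = 0
    rw [← map_zero q]
    congr 1
    apply Subtype.ext
    show Ultra.mk ω (y 0) = 0
    rw [← map_zero (Ultra.mk ω)]
    congr 1
    ext n : 1
    show ((μ n 0 : A) : Unitization ℂ A) = 0
    rw [map_zero, Unitization.inr_zero]
  · intro z z'
    show q ⟨Ultra.mk ω (y (z + z')), _⟩ = _
    rw [← map_add]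
    congr 1
    apply Subtype.ext
    show Ultra.mk ω (y (z + z')) = Ultra.mk ω (y z) + Ultra.mk ω (y z')
    rw [← map_add]
    congr 1
    ext n : 1
    show ((μ n (z + z') : A) : Unitization ℂ A) = (μ n z : A) + (μ n z' : A)
    rw [map_add, Unitization.inr_add]
  · intro c
    have h1' : ∀ z : Z, q ⟨Ultra.mk ω (y (c • z)), hcentral (c • z)⟩ =
        c • q ⟨Ultra.mk ω (y z), hcentral z⟩ := by
      intro z
      rw [← map_smul]
      congr 1
      apply Subtype.ext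
      show Ultra.mk ω (y (c • z)) = c • Ultra.mk ω (y z)
      rw [← map_smul]
      congr 1
      ext n : 1
      show ((μ n (c • z) : A) : Unitization ℂ A) = c • ((μ n z : A) : Unitization ℂ A)
      rw [map_smul, Unitization.inr_smul]
    show q ⟨Ultra.mk ω (y (algebraMap ℂ Z c)), hcentral _⟩ = algebraMap ℂ B c
    have h2 := h1' 1
    rw [hone, ← Algebra.algebraMap_eq_smul_one] at h2
    rw [h2, Algebra.algebraMap_eq_smul_one]
  · intro z
    show q ⟨Ultra.mk ω (y (star z)), _⟩ = _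
    rw [← map_star]
    congr 1
    apply Subtype.ext
    show Ultra.mk ω (y (star z)) = star (Ultra.mk ω (y z))
    rw [← map_star]
    congr 1
    ext n : 1
    show ((μ n (star z) : A) : Unitization ℂ A) = star ((μ n z : A) : Unitization ℂ A)
    rw [hμs, Unitization.inr_star]

end Vale.Agent.P095.NU
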