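import Vale.Agent.P095.NU.Defs2
import Vale.Agent.P095.NU.Chains
import Vale.Agent.P095.NU.Sys
import Vale.Agent.P095.NU.RCopies
import Vale.Agent.P095.NU.RCopiesJ
import Vale.Agent.P095.NU.RTracial
import Vale.Agent.P095.NU.RSeed
import Vale.Agent.P095.NU.RUnits
import Vale.Agent.P095.NU.ROz
import Vale.Agent.P095.NU.RVWComp
import Vale.Agent.P095.NU.RExc
import Vale.Agent.P095.NU.RMoved
import Vale.Agent.P095.NU.RShiftApprox
import Vale.Agent.P095.NU.RShift
import Vale.Agent.P095.NU.RAvgShift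
import Vale.Agent.P095.NU.RChar
import Vale.Agent.P095.NU.RHom
import Vale.Agent.P095.NU.RZ
import Vale.Agent.P095.NU.RIota
import Vale.Agent.P095.NU.RTensorAct
import Vale.Agent.P095.NU.RApprox
import Vale.Agent.P095.NU.RConj
import Vale.Agent.P095.NU.ZMult
import Vale.Agent.P095.NucDimExc

/-!
# P095: final assembly of T7 (simple algebras without unit)
-/

open Filter Topology TopologicalSpace
open scoped BoundedContinuousFunction ComplexOrder TensorProduct

namespace Vale.Agent.P095.NU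

open Vale.Agent.P101

universe u v w

/-! ### separability and small lemmas -/

theorem separable_unitization {A : Type u} [NonUnitalCStarAlgebra A] [SeparableSpace A] :
    SeparableSpace (Unitization ℂ A) := by
  have h1 : Continuous fun p : ℂ × A =>
      (algebraMap ℂ (Unitization ℂ A) p.1 + (p.2 : Unitization ℂ A)) := by
    refine Continuous.add ((continuous_algebraMap ℂ _).comp continuous_fst) ?_
    exact (Unitization.isometry_inr (𝕜 := ℂ) (A := A)).continuous.comp continuous_snd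
  refine (Function.Surjective.denseRange (f := fun p : ℂ × A =>
      (algebraMap ℂ (Unitization ℂ A) p.1 + (p.2 : Unitization ℂ A))) ?_).separableSpace h1
  intro x
  refine ⟨(x.fst, x.snd), ?_⟩
  exact Unitization.inl_fst_add_inr_snd_eq x

theorem iota_injective {A T : Type u} {Z : Type v} [NonUnitalCStarAlgebra A] [CStarAlgebra Z]
    [Nontrivial Z] [NonUnitalCStarAlgebra T] {t : A →ₗ[ℂ] Z →ₗ[ℂ] T} (ht : IsTensorNU t)
    (ι : Unitization ℂ A →⋆ₐ[ℂ] Unitization ℂ T)
    (hι : ∀ a : A, ι (a : Unitization ℂ A) = ((t a 1 : T) : Unitization ℂ T)) :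
    Function.Injective ι := by
  have hinj : ∀ a : A, t a 1 = 0 → a = 0 := by
    intro a ha
    have h1 : TensorProduct.lift t (a ⊗ₜ[ℂ] (1 : Z)) = 0 := by
      rw [TensorProduct.lift.tmul]; exact ha
    have h2 : a ⊗ₜ[ℂ] (1 : Z) = 0 := ht.injective (by rw [h1, map_zero])
    obtain ⟨f, hf⟩ := SeparatingDual.exists_eq_one (R := ℂ) (one_ne_zero (α := Z))
    have h3 := congrArg (fun w => TensorProduct.rid ℂ A (LinearMap.lTensor A (f : Z →ₗ[ℂ] ℂ) w)) h2
    simpa [hf] using h3
  rw [injective_iff_map_eq_zero]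
  intro x hx
  rw [← Unitization.inl_fst_add_inr_snd_eq x] at hx ⊢
  rw [map_add, hι] at hx
  have e0 : ι (Unitization.inl x.fst) = Unitization.inl x.fst := AlgHomClass.commutes ι x.fst
  rw [e0] at hx
  have h1 := congrArg (fun w : Unitization ℂ T => w.fst) hx
  have h2 := congrArg (fun w : Unitization ℂ T => w.snd) hx
  simp at h1 h2
  rw [h1, hinj _ h2]
  simp

theorem separable_tensor {A T : Type u} {Z : Type v} [NonUnitalCStarAlgebra A] [CStarAlgebra Z]
    [SeparableSpace A] [SeparableSpace Z] [NonUnitalCStarAlgebra T] {t : A →ₗ[ℂ] Z →ₗ[ℂ] T}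
    (ht : IsTensorNU t) (hn : ∀ a z, ‖t a z‖ ≤ ‖a‖ * ‖z‖) : SeparableSpace T := by
  have hc : Continuous fun p : A × Z => t p.1 p.2 := by
    let L := LinearMap.mkContinuous₂ t 1 (fun a z => by rw [one_mul]; exact hn a z)
    exact (L.continuous₂ : Continuous fun p : A × Z => L p.1 p.2)
  have h1 : IsSeparable (Set.range fun p : A × Z => t p.1 p.2) := isSeparable_range hc
  have h2 : IsSeparable ((Submodule.span ℂ (Set.range fun p : A × Z => t p.1 p.2) :
      Submodule ℂ T) : Set T) := h1.span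
  have h3 : Set.range (TensorProduct.lift t) ⊆
      (Submodule.span ℂ (Set.range fun p : A × Z => t p.1 p.2) : Set T) := by
    rintro _ ⟨w, rfl⟩
    induction w using TensorProduct.induction_on with
    | zero => rw [map_zero]; exact Submodule.zero_mem _
    | tmul a z =>
      rw [TensorProduct.lift.tmul]
      exact Submodule.subset_span ⟨(a, z), rfl⟩
    | add x y hx hy => rw [map_add]; exact Submodule.add_mem _ hx hy
  have h4 : IsSeparable (Set.univ : Set T) := by
    have h5 := (h2.mono h3).closure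
    rwa [ht.dense.closure_range] at h5
  exact isSeparable_univ_iff.1 h4

theorem act_iota {G : Type*} [Group G] {A T : Type u} {Z : Type v} [NonUnitalCStarAlgebra A]
    [CStarAlgebra Z] [NonUnitalCStarAlgebra T] {t : A →ₗ[ℂ] Z →ₗ[ℂ] T}
    {α : G →* (A ≃⋆ₐ[ℂ] A)} {α' : G →* (Unitization ℂ A ≃⋆ₐ[ℂ] Unitization ℂ A)}
    (hα' : ∀ g (a : A), α' g (a : Unitization ℂ A) = ((α g a : A) : Unitization ℂ A))
    (γ : G →* (T ≃⋆ₐ[ℂ] T)) (hγ : ∀ g a z, γ g (t a z) = t (α g a) z)
    (γ' : G →* (Unitization ℂ T ≃⋆ₐ[ℂ] Unitization ℂ T))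
    (hγ' : ∀ g (x : T), γ' g (x : Unitization ℂ T) = ((γ g x : T) : Unitization ℂ T))
    (ι : Unitization ℂ A →⋆ₐ[ℂ] Unitization ℂ T)
    (hι : ∀ a : A, ι (a : Unitization ℂ A) = ((t a 1 : T) : Unitization ℂ T)) (g : G)
    (x : Unitization ℂ A) : γ' g (ι x) = ι (α' g x) := by
  have h0 : ∀ c : ℂ, (Unitization.inl c : Unitization ℂ A) = algebraMap ℂ _ c := fun c => rfl
  have e1 : ∀ c : ℂ, γ' g (algebraMap ℂ (Unitization ℂ T) c) = algebraMap ℂ _ c := fun c =>
    AlgHomClass.commutes (γ' g) c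
  have e2 : ∀ c : ℂ, α' g (algebraMap ℂ (Unitization ℂ A) c) = algebraMap ℂ _ c := fun c =>
    AlgHomClass.commutes (α' g) c
  have e3 : ∀ c : ℂ, ι (algebraMap ℂ (Unitization ℂ A) c) = algebraMap ℂ _ c := fun c =>
    AlgHomClass.commutes ι c
  rw [← Unitization.inl_fst_add_inr_snd_eq x, map_add, map_add, map_add, map_add, hι, hα', hι,
    hγ', hγ, h0, e3, e2, e1, e3]

/-- T7: every action of a countable amenable group on a simple separable `Z`-stable algebra
without unit whose unitization has finite nuclear dimension is equivariantly `Z`-stable. -/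
theorem nonunital_equivariantlyZStable {Z : Type v} [CStarAlgebra Z]
    (hZ : IsJiangSuAlgebra.{v, u} Z) (hZ' : StronglySelfAbsorbing Z)
    (hflip : HasExpHalfFlip.{v, u} Z) {A : Type u} [NonUnitalCStarAlgebra A]
    [SeparableSpace A] (hs : IsSimpleNU A) (hn : ¬ ∃ e : A, ∀ a, e * a = a) {d : ℕ}
    (hd : HasNuclearDim (Unitization ℂ A) d) (hA : ZStableNU Z A)
    {G : Type w} [Group G] [Countable G] (hG : ReiterAmenable G) (α : G →* (A ≃⋆ₐ[ℂ] A)) :
    EquivariantlyZStableNU Z α := by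
  intro T _ t ht
  let ω : Ultrafilter ℕ := hyperfilter ℕ
  have hω : (ω : Filter ℕ) ≤ cofinite := hyperfilter_le_cofinite
  have hZ1 : IsJiangSu.{v, u} Z := hZ.isJiangSu
  have := separableSpace_of_isDimDropLimit hZ1.limit
  have hnt : Nontrivial Z := by
    by_contra hcon
    rw [not_nontrivial_iff_subsingleton] at hcon
    exact hZ1.infinite inferInstance
  have hsepM : SeparableSpace (Unitization ℂ A) := separable_unitization
  obtain ⟨α', hα'⟩ := exists_unitAct α
  have hcore := isCore_range hs hn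
  have hinv : ∀ g, ∀ a ∈ Set.range (Unitization.inr : A → Unitization ℂ A),
      α' g a ∈ Set.range (Unitization.inr : A → Unitization ℂ A) := by
    rintro g _ ⟨a, rfl⟩
    exact ⟨α g a, (hα' g a).symm⟩
  obtain ⟨B, _, q, β, R⟩ := exists_relSys ω hcore α' hinv
  obtain ⟨κ, hκ⟩ := exists_chFam hcore α' hinv
  obtain ⟨ρ₀⟩ := exists_hom_of_zStableNU hZ' hA hω R
  have hE := isEmpty_character_of_isJiangSu hZ1.infinite hZ1.simple
  have hchar : IsEmpty (B →⋆ₐ[ℂ] ℂ) := ⟨fun χ => hE.false (StarAlgHom.comp χ ρ₀)⟩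
  have hfree := hasFreeCopies_rel hω R
  have hcc := hasCommutingCopies_of_free hfree
  have hcomp := relVWComp_of_nuclearDim hω R hd hcc hchar
  have hexc := excApproxIn_of_isNuclear hcore (isNuclear_of_nuclearDim hd)
  have hseed := hasSeed_rel hω R hκ hchar
  have hunits := hasFixedUnits_rel hω R hκ hG hseed
  have sys := tracialSystem_rel hω R hκ
  have hfix : IsEmpty (fixedAlg β →⋆ₐ[ℂ] ℂ) :=
    isEmpty_character_of_pair β sys hunits (fun e he he1 hen hfx => by
      obtain ⟨x, hx, hxp, hx1⟩ := exists_pos_lift R e he he1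
      refine exists_fixed_shift_rel hω R hG e he1 hfx ?_
      have h1 := exists_shift_rel hω R x hx1 (fun F Fa hFa K hK ε hε =>
        exists_shift_approx_rel hcomp hexc hω R hκ
          (fun m K hK => exists_orth_families_rel hω R hchar m K hK) x hxp hx1
          (by rwa [hx]) F Fa hFa K hK ε hε)
      rwa [hx] at h1)
  obtain ⟨ρ, hρ⟩ := exists_hom_fixed_rel hω R hZ1.limit (fun p r hp hr hpr => by
    obtain ⟨φ⟩ := exists_dimDrop_hom_of_isEmpty
      (hasCommutingCopies_fixedAlg (hasEqCopies_rel hω R hκ)) hfix hp hr hpr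
    exact ⟨(fixedAlg β).subtype.comp φ, fun g x => (φ x).2 g⟩)
  obtain ⟨γ, hγ⟩ := exists_tensorAct_rel hflip ht hα' hω R ρ hρ
  obtain ⟨γ', hγ'⟩ := exists_unitAct γ
  obtain ⟨ι, hι⟩ := exists_iota ht
  have hsepT : SeparableSpace T := separable_tensor ht (norm_t_le ht)
  have hsepT' : SeparableSpace (Unitization ℂ T) := separable_unitization
  refine ⟨γ, hγ, cocycleConjugateNU_of_unitization hs hn ht hnt hα' γ γ' hγ' ?_⟩
  refine cocycleConjugate_of_approx α' γ' ι (iota_injective ht ι hι)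
    (act_iota hα' γ hγ γ' hγ' ι hι) ?_
  intro K F E ε hε
  exact exists_unitary_approx_rel hflip ht hα' hω R ρ hρ γ hγ γ' hγ' ι hι K F E ε hε

end Vale.Agent.P095.NU
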