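import Vale.Agent.P095.NU.ZMult

/-!
# P095, T7: the action `α ⊗ id` on a tensor product, from a norm estimate
-/

open Filter Topology
open scoped TensorProduct

namespace Vale.Agent.P095.NU

universe u v w

theorem tensorAct_of_norm {G : Type*} [Group G] {A : Type u} {Z : Type v} {T : Type w}
    [NonUnitalCStarAlgebra A] [CStarAlgebra Z] [NonUnitalCStarAlgebra T]
    {t : A →ₗ[ℂ] Z →ₗ[ℂ] T} (hT : IsTensorNU t) (α : G →* (A ≃⋆ₐ[ℂ] A))
    (hN : ∀ g (S : Finset (A × Z)), ‖∑ i ∈ S, t (α g i.1) i.2‖ ≤ ‖∑ i ∈ S, t i.1 i.2‖) :
    ∃ γ : G →* (T ≃⋆ₐ[ℂ] T), ∀ g a z, γ g (t a z) = t (α g a) z := by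
  classical
  let f : G → A →ₗ[ℂ] A := fun g =>
    { toFun := α g
      map_add' := map_add (α g)
      map_smul' := fun c x => map_smul (α g) c x }
  have hJ : ∀ g, ∃ J : T →L[ℂ] T, ∀ a z, J (t a z) = t (α g a) z := by
    intro g
    obtain ⟨J, hJ⟩ := ZMult.exists_extend (TensorProduct.lift t) hT.injective hT.dense
      (TensorProduct.lift t ∘ₗ LinearMap.rTensor Z (f g)) 1 (by
        intro s
        obtain ⟨S, rfl⟩ := TensorProduct.exists_finset s
        rw [one_mul, LinearMap.comp_apply, map_sum, map_sum, map_sum]
        simp only [LinearMap.rTensor_tmul, TensorProduct.lift.tmul]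
        exact hN g S)
    refine ⟨J, fun a z => ?_⟩
    have h1 := hJ (a ⊗ₜ[ℂ] z)
    rw [LinearMap.comp_apply, LinearMap.rTensor_tmul, TensorProduct.lift.tmul,
      TensorProduct.lift.tmul] at h1
    exact h1
  choose J hJt using hJ
  have hmulJ : ∀ g x y, J g (x * y) = J g x * J g y := by
    intro g x y
    refine ZMult.induct hT (P := fun x => J g (x * y) = J g x * J g y) ?_ ?_ ?_ ?_ x
    · exact isClosed_eq ((J g).continuous.comp (continuous_mul_const y))
        ((J g).continuous.mul continuous_const)
    · rw [zero_mul, map_zero, zero_mul]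
    · intro a z
      refine ZMult.induct hT (P := fun y => J g (t a z * y) = J g (t a z) * J g y) ?_ ?_ ?_ ?_ y
      · exact isClosed_eq ((J g).continuous.comp (continuous_const_mul _))
          (continuous_const.mul (J g).continuous)
      · rw [mul_zero, map_zero, mul_zero]
      · intro b z'
        rw [hT.mul, hJt, hJt, hJt, hT.mul, map_mul (α g) a b]
      · intro u v hu hv
        rw [mul_add, map_add, map_add, mul_add, hu, hv]
    · intro u v hu hv
      rw [add_mul, map_add, map_add, add_mul, hu, hv]
  have hstarJ : ∀ g x, J g (star x) = star (J g x) := by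
    intro g x
    refine ZMult.induct hT (P := fun x => J g (star x) = star (J g x)) ?_ ?_ ?_ ?_ x
    · exact isClosed_eq ((J g).continuous.comp continuous_star)
        (continuous_star.comp (J g).continuous)
    · rw [star_zero, map_zero, star_zero]
    · intro a z
      rw [hT.star, hJt, hJt, hT.star, map_star (α g) a]
    · intro u v hu hv
      rw [star_add, map_add, map_add, star_add, hu, hv]
  have hmul : ∀ g h x, J (g * h) x = J g (J h x) := by
    intro g h x
    have h1 : J (g * h) = (J g).comp (J h) := ZMult.clm_ext hT fun a z => by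
      rw [ContinuousLinearMap.comp_apply, hJt, hJt, hJt, map_mul]
      rfl
    rw [h1]
    rfl
  have hone : ∀ x, J 1 x = x := by
    intro x
    have h1 : J 1 = ContinuousLinearMap.id ℂ T := ZMult.clm_ext hT fun a z => by
      rw [hJt, map_one]
      rfl
    rw [h1]
    rfl
  let e : G → (T ≃⋆ₐ[ℂ] T) := fun g =>
    { toFun := J g
      invFun := J g⁻¹
      left_inv := fun x => by rw [← hmul, inv_mul_cancel, hone]
      right_inv := fun x => by rw [← hmul, mul_inv_cancel, hone]
      map_mul' := hmulJ g
      map_add' := map_add (J g)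
      map_smul' := fun c x => map_smul (J g) c x
      map_star' := hstarJ g }
  refine ⟨{ toFun := e
            map_one' := ?_
            map_mul' := ?_ }, fun g a z => hJt g a z⟩
  · ext1 x
    exact hone x
  · intro g h
    ext1 x
    exact hmul g h x

end Vale.Agent.P095.NU
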