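import Mathlib

/-!
# P095, non-unital case: automorphisms and isomorphisms of unitizations
-/

open Filter Topology

namespace Vale.Agent.P095.NU

universe u v w

section Alg

variable {A : Type u} {T : Type v} [NonUnitalCStarAlgebra A] [NonUnitalCStarAlgebra T]

/-- An isomorphism of the unitizations which respects the ideals restricts to an isomorphism. -/
theorem exists_restrict (Φ : Unitization ℂ A ≃⋆ₐ[ℂ] Unitization ℂ T)
    (h : ∀ x, (Φ x).fst = 0 ↔ x.fst = 0) :
    ∃ φ : A ≃⋆ₐ[ℂ] T, ∀ a : A, Φ (a : Unitization ℂ A) = (φ a : Unitization ℂ T) := by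
  have h1 : ∀ a : A, Φ (a : Unitization ℂ A) =
      (((Φ (a : Unitization ℂ A)).snd : T) : Unitization ℂ T) := by
    intro a
    apply Unitization.ext
    · rw [Unitization.fst_inr]
      exact (h _).2 (Unitization.fst_inr ℂ a)
    · rw [Unitization.snd_inr]
  have hinj : Function.Injective fun t : T => (t : Unitization ℂ T) := Unitization.inr_injective
  let φ : A → T := fun a => (Φ (a : Unitization ℂ A)).snd
  have hφ : ∀ a : A, Φ (a : Unitization ℂ A) = (φ a : Unitization ℂ T) := h1
  let F : A →⋆ₙₐ[ℂ] T :=
    { toFun := φ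
      map_smul' := fun c a => hinj (by
        show ((φ (c • a) : T) : Unitization ℂ T) = ((c • φ a : T) : Unitization ℂ T)
        rw [← hφ, Unitization.inr_smul, Unitization.inr_smul, map_smul, hφ])
      map_zero' := hinj (by
        show ((φ 0 : T) : Unitization ℂ T) = ((0 : T) : Unitization ℂ T)
        rw [← hφ, Unitization.inr_zero, Unitization.inr_zero, map_zero])
      map_add' := fun a b => hinj (by
        show ((φ (a + b) : T) : Unitization ℂ T) = ((φ a + φ b : T) : Unitization ℂ T)
        rw [← hφ, Unitization.inr_add, Unitization.inr_add, map_add, hφ, hφ])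
      map_mul' := fun a b => hinj (by
        show ((φ (a * b) : T) : Unitization ℂ T) = ((φ a * φ b : T) : Unitization ℂ T)
        rw [← hφ, Unitization.inr_mul, Unitization.inr_mul, map_mul, hφ, hφ])
      map_star' := fun a => hinj (by
        show ((φ (star a) : T) : Unitization ℂ T) = ((star (φ a) : T) : Unitization ℂ T)
        rw [← hφ, Unitization.inr_star, Unitization.inr_star, map_star, hφ]) }
  have hF : ∀ a, F a = φ a := fun _ => rfl
  have hbij : Function.Bijective F := by
    constructor
    · intro a b hab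
      have h2 : Φ (a : Unitization ℂ A) = Φ (b : Unitization ℂ A) := by
        rw [hφ, hφ, ← hF, ← hF, hab]
      exact Unitization.inr_injective (Φ.injective h2)
    · intro t
      obtain ⟨x, hx⟩ := Φ.surjective (t : Unitization ℂ T)
      change Φ x = (t : Unitization ℂ T) at hx
      have hx0 : x.fst = 0 := (h x).1 (by rw [hx, Unitization.fst_inr])
      refine ⟨x.snd, hinj ?_⟩
      show ((φ x.snd : T) : Unitization ℂ T) = (t : Unitization ℂ T)
      rw [← hφ, ← hx]
      congr 1
      apply Unitization.ext
      · rw [Unitization.fst_inr, hx0]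
      · rw [Unitization.snd_inr]
  exact ⟨StarAlgEquiv.ofBijective F hbij, fun a => hφ a⟩

/-- The extension of an isomorphism to the unitizations. -/
def uMap (φ : A ≃⋆ₐ[ℂ] T) : Unitization ℂ A ≃⋆ₐ[ℂ] Unitization ℂ T where
  toFun x := Unitization.inl x.fst + (φ x.snd : Unitization ℂ T)
  invFun x := Unitization.inl x.fst + (φ.symm x.snd : Unitization ℂ A)
  left_inv x := by
    apply Unitization.ext <;> simp
  right_inv x := by
    apply Unitization.ext <;> simp
  map_mul' x y := by
    apply Unitization.ext
    · simp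
    · simp
  map_add' x y := by
    apply Unitization.ext
    · simp
    · simp
  map_star' x := by
    apply Unitization.ext
    · simp
    · simp [map_star]
  map_smul' c x := by
    apply Unitization.ext
    · simp
    · simp

@[simp] theorem uMap_inr (φ : A ≃⋆ₐ[ℂ] T) (a : A) :
    uMap φ (a : Unitization ℂ A) = (φ a : Unitization ℂ T) := by
  show (Unitization.inl (a : Unitization ℂ A).fst : Unitization ℂ T) +
    ((φ (a : Unitization ℂ A).snd : T) : Unitization ℂ T) = _
  simp

@[simp] theorem fst_uMap (φ : A ≃⋆ₐ[ℂ] T) (x : Unitization ℂ A) : (uMap φ x).fst = x.fst := by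
  show ((Unitization.inl x.fst : Unitization ℂ T) + ((φ x.snd : T) : Unitization ℂ T)).fst = _
  simp

@[simp] theorem snd_uMap (φ : A ≃⋆ₐ[ℂ] T) (x : Unitization ℂ A) :
    (uMap φ x).snd = φ x.snd := by
  show ((Unitization.inl x.fst : Unitization ℂ T) + ((φ x.snd : T) : Unitization ℂ T)).snd = _
  simp

/-- The extension of an action to the unitization. -/
def uAct {G : Type w} [Group G] (α : G →* (A ≃⋆ₐ[ℂ] A)) :
    G →* (Unitization ℂ A ≃⋆ₐ[ℂ] Unitization ℂ A) where
  toFun g := uMap (α g)
  map_one' := by
    apply StarAlgEquiv.ext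
    intro x
    apply Unitization.ext
    · rw [fst_uMap]; rfl
    · rw [snd_uMap, map_one]; rfl
  map_mul' g h := by
    apply StarAlgEquiv.ext
    intro x
    apply Unitization.ext
    · rw [StarAlgEquiv.mul_apply, fst_uMap, fst_uMap, fst_uMap]
    · rw [StarAlgEquiv.mul_apply, snd_uMap, snd_uMap, snd_uMap, map_mul]; rfl

/-- [G4], first part -/
theorem exists_unitAct' {G : Type w} [Group G] (α : G →* (A ≃⋆ₐ[ℂ] A)) :
    ∃ α' : G →* (Unitization ℂ A ≃⋆ₐ[ℂ] Unitization ℂ A),
      ∀ g (a : A), α' g (a : Unitization ℂ A) = ((α g a : A) : Unitization ℂ A) :=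
  ⟨uAct α, fun g a => uMap_inr (α g) a⟩

end Alg

end Vale.Agent.P095.NU
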