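import Vale.Agent.P095.NU.Defs2

/-!
# P095, target T7: a `C⋆`-algebra with a unit in the class of non-unital algebras
-/

open Filter Topology TopologicalSpace
open scoped BoundedContinuousFunction ComplexOrder

namespace Vale.Agent.P095.NU

open Vale.Agent.P101

universe u v w

namespace UCopy

/-- A left unit of a `C⋆`-algebra is self-adjoint. -/
theorem star_unit {A : Type u} [NonUnitalCStarAlgebra A] {e : A} (he : ∀ a, e * a = a) :
    star e = e := by
  have h2 := he (star e)
  have h3 := congrArg star h2
  rw [star_mul, star_star, h2] at h3
  exact h3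

/-- A left unit of a `C⋆`-algebra is a right unit. -/
theorem right_unit {A : Type u} [NonUnitalCStarAlgebra A] {e : A} (he : ∀ a, e * a = a) (a : A) :
    a * e = a := by
  have h4 := congrArg star (he (star a))
  rwa [star_mul, star_star, star_unit he] at h4

/-- the algebra structure with unit -/
@[implicit_reducible]
noncomputable def unital (A : Type u) [NonUnitalCStarAlgebra A] (e : A) (he : ∀ a, e * a = a) :
    CStarAlgebra A :=
  letI r : NormedRing A :=
    { (inferInstance : NonUnitalNormedRing A) with
      one := e
      one_mul := he
      mul_one := right_unit he }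
  letI : Algebra ℂ A := Algebra.ofModule (fun r x y => smul_mul_assoc r x y)
    (fun r x y => mul_smul_comm r x y)
  letI : NormedAlgebra ℂ A := { norm_smul_le := fun r x => norm_smul_le r x }
  letI : StarRing A := inferInstance
  { }

/-- a copy of `A` -/
def Copy (A : Type u) [NonUnitalCStarAlgebra A] (e : A) (_ : ∀ a, e * a = a) : Type u := A

noncomputable instance (A : Type u) [NonUnitalCStarAlgebra A] (e : A) (he : ∀ a, e * a = a) :
    CStarAlgebra (Copy A e he) := unital A e he

/-- A `C⋆`-algebra with a (left) unit is isomorphic to a unital `C⋆`-algebra. -/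
theorem exists_copy {A : Type u} [NonUnitalCStarAlgebra A] {e : A} (he : ∀ a, e * a = a) :
    ∃ (B : Type u) (_ : CStarAlgebra B), Nonempty (A ≃⋆ₐ[ℂ] B) :=
  ⟨Copy A e he, inferInstance, ⟨
    { toFun := fun a => a
      invFun := fun a => a
      left_inv := fun _ => rfl
      right_inv := fun _ => rfl
      map_mul' := fun _ _ => rfl
      map_add' := fun _ _ => rfl
      map_star' := fun _ => rfl
      map_smul' := fun _ _ => rfl }⟩⟩

end UCopy

end Vale.Agent.P095.NU
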