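import Vale.Agent.P095.NU.UCopy

/-!
# P095, target T7: transport to a unital copy (simplicity, nuclear dimension, tensor products)
-/

open Filter Topology TopologicalSpace
open scoped BoundedContinuousFunction ComplexOrder TensorProduct

namespace Vale.Agent.P095.NU

open Vale.Agent.P101

universe u v w

namespace UCopy

section Basic

variable {A : Type u} [NonUnitalCStarAlgebra A] {B : Type w} [CStarAlgebra B]

theorem symm_one_mul (φ : A ≃⋆ₐ[ℂ] B) (a : A) : φ.symm 1 * a = a := by
  have h : φ (φ.symm 1 * a) = φ a := by rw [map_mul, φ.apply_symm_apply, one_mul]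
  exact φ.injective h

theorem norm_equiv (φ : A ≃⋆ₐ[ℂ] B) (a : A) : ‖φ a‖ = ‖a‖ :=
  NonUnitalStarAlgHom.norm_map (φ : A →⋆ₙₐ[ℂ] B) φ.injective a

theorem continuous_equiv (φ : A ≃⋆ₐ[ℂ] B) : Continuous φ :=
  (AddMonoidHomClass.isometry_of_norm φ (norm_equiv φ)).continuous

theorem continuous_equiv_symm (φ : A ≃⋆ₐ[ℂ] B) : Continuous φ.symm := by
  refine (AddMonoidHomClass.isometry_of_norm φ.symm fun b => ?_).continuous
  rw [← norm_equiv φ, φ.apply_symm_apply]

theorem separable (φ : A ≃⋆ₐ[ℂ] B) [SeparableSpace A] : SeparableSpace B :=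
  φ.surjective.denseRange.separableSpace (continuous_equiv φ)

theorem isPos_map (φ : A ≃⋆ₐ[ℂ] B) {a : A} (ha : IsPos a) : IsPos (φ a) := by
  obtain ⟨y, rfl⟩ := ha
  exact ⟨φ y, by rw [map_mul, map_star]⟩

theorem isPos_symm (φ : A ≃⋆ₐ[ℂ] B) {b : B} (hb : IsPos b) : IsPos (φ.symm b) := by
  obtain ⟨y, rfl⟩ := hb
  exact ⟨φ.symm y, by rw [map_mul, map_star]⟩

/-- `φ` as a linear equivalence -/
def lin (φ : A ≃⋆ₐ[ℂ] B) : A ≃ₗ[ℂ] B where
  toFun := φ
  invFun := φ.symm
  left_inv := φ.symm_apply_apply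
  right_inv := φ.apply_symm_apply
  map_add' := map_add φ
  map_smul' c x := map_smul φ c x

theorem hasNuclearDim (φ : A ≃⋆ₐ[ℂ] B) {d : ℕ} (hd : HasNuclearDimNU A d) : HasNuclearDim B d := by
  classical
  intro S ε hε
  obtain ⟨m, n, f, g, hf, hf1, hg, hg1, hg2, h⟩ := hd (S.image φ.symm) ε hε
  refine ⟨m, n, fun c => f c ∘ₗ (lin φ).symm.toLinearMap, fun c => (lin φ).toLinearMap ∘ₗ g c,
    ?_, ?_, ?_, ?_⟩
  · rintro c N X ⟨Y, rfl⟩
    have h1 : ((star Y * Y).map φ.symm) = star (Y.map φ.symm) * Y.map φ.symm := by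
      ext i j
      simp only [Matrix.map_apply, Matrix.mul_apply, map_sum, map_mul, Matrix.star_apply, map_star]
    have h2 := hf c N ((star Y * Y).map φ.symm) ⟨Y.map φ.symm, h1⟩
    rw [Matrix.map_map] at h2
    exact h2
  · intro c
    refine hf1 c (φ.symm 1) (isPos_symm φ ⟨1, by rw [star_one, one_mul]⟩) ?_
    rw [← norm_equiv φ, φ.apply_symm_apply]
    rcases subsingleton_or_nontrivial B with hB | hB
    · rw [Subsingleton.elim (1 : B) 0, norm_zero]
      exact zero_le_one
    · exact le_of_eq CStarRing.norm_one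
  · intro c
    refine ⟨?_, ?_, ?_⟩
    · rintro N X hX
      obtain ⟨Y, hY⟩ := hg c N X hX
      refine ⟨Y.map φ, ?_⟩
      have h1 : X.map ((lin φ).toLinearMap ∘ₗ g c) = (X.map (g c)).map φ := by
        rw [Matrix.map_map]
        rfl
      rw [h1, hY]
      ext i j
      simp only [Matrix.map_apply, Matrix.mul_apply, map_sum, map_mul, Matrix.star_apply, map_star]
    · intro x y
      show φ (g c x) * φ (g c y) = φ (g c 1) * φ (g c (x * y))
      rw [← map_mul, hg1, map_mul]
    · show ‖φ (g c 1)‖ ≤ 1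
      rw [norm_equiv]
      exact hg2 c
  · intro b hb
    have h1 := h (φ.symm b) (Finset.mem_image_of_mem _ hb)
    rw [← norm_equiv φ, map_sub, φ.apply_symm_apply, map_sum] at h1
    exact h1

theorem isSimpleRing (φ : A ≃⋆ₐ[ℂ] B) (hs : IsSimpleNU A) : IsSimpleRing B := by
  obtain ⟨⟨a0, ha0⟩, hI⟩ := hs
  have hnt : Nontrivial B := ⟨φ a0, 0, fun h => ha0 (φ.injective (h.trans (map_zero φ).symm))⟩
  refine ⟨⟨fun I => ?_⟩⟩
  -- the closure of `I`, pulled back
  let J : Submodule ℂ B :=
    { carrier := closure {x | x ∈ I}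
      add_mem' := by
        intro x y hx hy
        exact map_mem_closure₂ continuous_add hx hy fun _ h1 _ h2 => I.add_mem h1 h2
      zero_mem' := subset_closure I.zero_mem
      smul_mem' := by
        intro c x hx
        refine map_mem_closure (continuous_const_smul c) hx fun y hy => ?_
        have : c • y = (c • (1 : B)) * y := by rw [smul_mul_assoc, one_mul]
        show c • y ∈ I
        rw [this]
        exact I.mul_mem_left _ _ hy }
  have hJ := hI (J.comap (lin φ).toLinearMap) (isClosed_closure.preimage (continuous_equiv φ))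
    (by
      intro a x hx
      refine ⟨?_, ?_⟩
      · show φ (a * x) ∈ closure {x | x ∈ I}
        rw [map_mul]
        exact map_mem_closure (f := fun y : B => φ a * y)
          (continuous_const.mul continuous_id) hx fun y hy => I.mul_mem_left _ _ hy
      · show φ (x * a) ∈ closure {x | x ∈ I}
        rw [map_mul]
        exact map_mem_closure (f := fun y : B => y * φ a)
          (continuous_id.mul continuous_const) hx fun y hy => I.mul_mem_right _ _ hy)
  rcases hJ with hJ | hJ
  · left
    rw [eq_bot_iff]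
    intro x hx
    have h1 : φ.symm x ∈ J.comap (lin φ).toLinearMap := by
      show φ (φ.symm x) ∈ closure {x | x ∈ I}
      rw [φ.apply_symm_apply]
      exact subset_closure hx
    rw [hJ, Submodule.mem_bot] at h1
    have h2 : x = 0 := by
      rw [← φ.apply_symm_apply x, h1, map_zero]
    rw [h2]
    exact TwoSidedIdeal.zero_mem _
  · right
    have h1 : (1 : B) ∈ closure {x | x ∈ I} := by
      have h2 : φ.symm 1 ∈ J.comap (lin φ).toLinearMap := by
        rw [hJ]
        exact Submodule.mem_top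
      have h3 : φ (φ.symm 1) ∈ closure {x | x ∈ I} := h2
      rwa [φ.apply_symm_apply] at h3
    rw [Metric.mem_closure_iff] at h1
    obtain ⟨x, hx, hx1⟩ := h1 1 one_pos
    rw [dist_eq_norm] at hx1
    have h3 : IsUnit x := by
      have h4 := isUnit_one_sub_of_norm_lt_one hx1
      rwa [sub_sub_cancel] at h4
    obtain ⟨y, rfl⟩ := h3
    rw [eq_top_iff]
    intro z _
    have h5 : z = z * (↑y⁻¹ : B) * (y : B) := by rw [mul_assoc, Units.inv_mul, mul_one]
    rw [h5]
    exact I.mul_mem_left _ _ hx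

end Basic

end UCopy

end Vale.Agent.P095.NU
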