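import Vale.Agent.P095.NU.UnitalCase0

/-!
# P095, target T7: transport of tensor products to unital copies
-/

open Filter Topology TopologicalSpace
open scoped BoundedContinuousFunction ComplexOrder TensorProduct

namespace Vale.Agent.P095.NU

open Vale.Agent.P101

universe u v w x

namespace UCopy

section Tensor

variable {Z : Type v} [CStarAlgebra Z] {A : Type u} [NonUnitalCStarAlgebra A] {T : Type w}
  [NonUnitalCStarAlgebra T] {t : A →ₗ[ℂ] Z →ₗ[ℂ] T}

theorem tensor_unit (ht : IsTensorNU t) {e : A} (he : ∀ a, e * a = a) (x : T) :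
    t e 1 * x = x := by
  have h1 : IsClosed {x : T | t e 1 * x = x} :=
    isClosed_eq (continuous_const.mul continuous_id) continuous_id
  have h2 : Set.range (TensorProduct.lift t) ⊆ {x : T | t e 1 * x = x} := by
    rintro _ ⟨y, rfl⟩
    show t e 1 * TensorProduct.lift t y = TensorProduct.lift t y
    induction y using TensorProduct.induction_on with
    | zero => rw [map_zero, mul_zero]
    | tmul a z => rw [TensorProduct.lift.tmul, ht.mul, he, one_mul]
    | add x y hx hy => rw [map_add, mul_add, hx, hy]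
  exact h1.closure_subset_iff.2 h2 (ht.dense x)

variable {B : Type u} [CStarAlgebra B] {U : Type w} [CStarAlgebra U] (φ : A ≃⋆ₐ[ℂ] B)
  (ψ : T ≃⋆ₐ[ℂ] U)

theorem psi_unit (ht : IsTensorNU t) : ψ (t (φ.symm 1) 1) = 1 := by
  have h := tensor_unit ht (symm_one_mul φ) (ψ.symm 1)
  have h2 := congrArg ψ h
  rwa [map_mul, ψ.apply_symm_apply, mul_one] at h2

theorem one_mul_symm (b : B) : φ.symm 1 * φ.symm b = φ.symm b := symm_one_mul φ _

theorem mul_symm_one (b : B) : φ.symm b * φ.symm 1 = φ.symm b := right_unit (symm_one_mul φ) _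

/-- the embedding of the first factor -/
noncomputable def iotaB (ht : IsTensorNU t) : B →⋆ₐ[ℂ] U where
  toFun b := ψ (t (φ.symm b) 1)
  map_one' := psi_unit φ ψ ht
  map_mul' x y := by rw [map_mul, ← map_mul ψ, ht.mul, one_mul]
  map_zero' := by rw [map_zero, map_zero, LinearMap.zero_apply, map_zero]
  map_add' x y := by rw [map_add, map_add, LinearMap.add_apply, map_add]
  commutes' r := by
    rw [Algebra.algebraMap_eq_smul_one, Algebra.algebraMap_eq_smul_one, map_smul φ.symm,
      map_smul t, LinearMap.smul_apply, map_smul ψ, psi_unit φ ψ ht]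
  map_star' b := by rw [map_star, ← map_star ψ, ht.star, star_one]

/-- the embedding of the second factor -/
noncomputable def iotaZ (ht : IsTensorNU t) : Z →⋆ₐ[ℂ] U where
  toFun z := ψ (t (φ.symm 1) z)
  map_one' := psi_unit φ ψ ht
  map_mul' x y := by rw [← map_mul ψ, ht.mul, one_mul_symm]
  map_zero' := by rw [map_zero, map_zero]
  map_add' x y := by rw [map_add, map_add]
  commutes' r := by
    rw [Algebra.algebraMap_eq_smul_one, Algebra.algebraMap_eq_smul_one, map_smul, map_smul ψ,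
      psi_unit φ ψ ht]
  map_star' b := by rw [← map_star ψ, ht.star, ← map_star φ.symm, star_one]

theorem iotaB_mul_iotaZ (ht : IsTensorNU t) (b : B) (z : Z) :
    iotaB φ ψ ht b * iotaZ φ ψ ht z = ψ (t (φ.symm b) z) := by
  show ψ (t (φ.symm b) 1) * ψ (t (φ.symm 1) z) = _
  rw [← map_mul ψ, ht.mul, mul_symm_one, one_mul]

theorem iotaZ_mul_iotaB (ht : IsTensorNU t) (b : B) (z : Z) :
    iotaZ φ ψ ht z * iotaB φ ψ ht b = ψ (t (φ.symm b) z) := by
  show ψ (t (φ.symm 1) z) * ψ (t (φ.symm b) 1) = _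
  rw [← map_mul ψ, ht.mul, one_mul_symm, mul_one]

theorem isTensor (ht : IsTensorNU t) : IsTensor (iotaB φ ψ ht) (iotaZ φ ψ ht) := by
  have hcomm : ∀ b z, Commute (iotaB φ ψ ht b) (iotaZ φ ψ ht z) := fun b z =>
    (iotaB_mul_iotaZ φ ψ ht b z).trans (iotaZ_mul_iotaB φ ψ ht b z).symm
  let E : B ⊗[ℂ] Z ≃ₗ[ℂ] A ⊗[ℂ] Z := TensorProduct.congr (lin φ).symm (LinearEquiv.refl ℂ Z)
  have key : ∀ x : B ⊗[ℂ] Z, Algebra.TensorProduct.lift (iotaB φ ψ ht : B →ₐ[ℂ] U)
      (iotaZ φ ψ ht : Z →ₐ[ℂ] U) hcomm x = ψ (TensorProduct.lift t (E x)) := by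
    intro x
    induction x using TensorProduct.induction_on with
    | zero => rw [map_zero, map_zero, map_zero, map_zero]
    | tmul b z =>
      rw [Algebra.TensorProduct.lift_tmul]
      exact iotaB_mul_iotaZ φ ψ ht b z
    | add x y hx hy => rw [map_add, map_add, map_add, map_add, hx, hy]
  have key' : (fun x => Algebra.TensorProduct.lift (iotaB φ ψ ht : B →ₐ[ℂ] U)
      (iotaZ φ ψ ht : Z →ₐ[ℂ] U) hcomm x) = ψ ∘ (TensorProduct.lift t) ∘ E := funext key
  refine ⟨hcomm, ?_, ?_⟩
  · have h1 : Function.Injective (ψ ∘ (TensorProduct.lift t) ∘ E) :=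
      ψ.injective.comp (ht.injective.comp E.injective)
    rw [← key'] at h1
    exact h1
  · have h2 : DenseRange ((TensorProduct.lift t) ∘ E) := by
      rw [DenseRange, E.surjective.range_comp]
      exact ht.dense
    have h1 : DenseRange (ψ ∘ (TensorProduct.lift t) ∘ E) :=
      ψ.surjective.denseRange.comp h2 (continuous_equiv ψ)
    rw [← key'] at h1
    exact h1

end Tensor

/-- `Z`-stability of the copy. -/
theorem zStable {Z : Type v} [CStarAlgebra Z] {A : Type u} [NonUnitalCStarAlgebra A] {B : Type u}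
    [CStarAlgebra B] (φ : A ≃⋆ₐ[ℂ] B) (hA : ZStableNU Z A) : ZStable Z B := by
  obtain ⟨T, _, t, ht, ⟨Θ⟩⟩ := hA
  obtain ⟨U, _, ⟨ψ⟩⟩ := exists_copy (tensor_unit ht (symm_one_mul φ))
  exact ⟨U, inferInstance, iotaB φ ψ ht, iotaZ φ ψ ht, isTensor φ ψ ht,
    ⟨(φ.symm.trans Θ).trans ψ⟩⟩

end UCopy

end Vale.Agent.P095.NU
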