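import Vale.Agent.P095.NU.Defs

/-!
# P095, target T7, row G1: quasi-invariant quasi-central local units
-/

open Filter Topology TopologicalSpace
open scoped BoundedContinuousFunction ComplexOrder

namespace Vale.Agent.P095.NU

open Vale.Agent.P101

universe u v w

namespace GUnits

variable {M : Type u} [CStarAlgebra M]

section Order

variable [PartialOrder M] [StarOrderedRing M]

theorem norm_le_of_two_sided {y : M} (hy : IsSelfAdjoint y) {r : ℝ} (hr : 0 ≤ r)
    (h1 : y ≤ algebraMap ℝ M r) (h2 : -(algebraMap ℝ M r) ≤ y) : ‖y‖ ≤ r := by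
  obtain (h | h) := subsingleton_or_nontrivial M
  · rw [Subsingleton.elim y 0, norm_zero]; exact hr
  · rcases CStarAlgebra.norm_or_neg_norm_mem_spectrum hy with h3 | h3
    · exact (le_algebraMap_iff_spectrum_le (ha := hy)).1 h1 _ h3
    · have h4 : algebraMap ℝ M (-r) ≤ y := by rw [map_neg]; exact h2
      have h5 := (algebraMap_le_iff_le_spectrum (ha := hy)).1 h4 _ h3
      linarith

/-- one step unit -/
theorem exists_unit {A : Set M} (hA : IsCore A) (S : Finset M) (hS : ∀ a ∈ S, a ∈ A)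
    {δ : ℝ} (hδ : 0 < δ) : ∃ k ∈ A, 0 ≤ k ∧ ‖k‖ ≤ 1 ∧ ∀ a ∈ S, ‖k * a - a‖ < δ := by
  obtain ⟨b, hb⟩ : ∃ b : M, b = ∑ a ∈ S, a * star a := ⟨_, rfl⟩
  obtain ⟨t, ht⟩ : ∃ t : ℝ, t = δ ^ 2 / 2 := ⟨_, rfl⟩
  have ht0 : 0 < t := by rw [ht]; positivity
  have hbA : b ∈ A := by
    rw [hb]
    exact Finset.sum_induction _ (fun x => x ∈ A) (fun x y hx hy => hA.add x hx y hy) hA.zero
      fun a ha => hA.right _ _ (hS a ha)
  have hb0 : 0 ≤ b := by
    rw [hb]
    exact Finset.sum_nonneg fun a _ => mul_star_self_nonneg a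
  have hbs : IsSelfAdjoint b := IsSelfAdjoint.of_nonneg hb0
  have hsp : ∀ x ∈ spectrum ℝ b, 0 ≤ x := fun x hx => spectrum_nonneg_of_nonneg hb0 hx
  have hden : ∀ x : ℝ, 0 < |x| + t := fun x => by positivity
  have cu : Continuous fun x : ℝ => 1 / (|x| + t) :=
    continuous_const.div (continuous_abs.add continuous_const) fun x => (hden x).ne'
  have cf : Continuous fun x : ℝ => x / (|x| + t) :=
    continuous_id.div (continuous_abs.add continuous_const) fun x => (hden x).ne'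
  have cg : Continuous fun x : ℝ => t / (|x| + t) :=
    continuous_const.div (continuous_abs.add continuous_const) fun x => (hden x).ne'
  obtain ⟨k, hk⟩ : ∃ k : M, k = cfc (fun x : ℝ => x / (|x| + t)) b := ⟨_, rfl⟩
  obtain ⟨w, hw⟩ : ∃ w : M, w = cfc (fun x : ℝ => t / (|x| + t)) b := ⟨_, rfl⟩
  have hkA : k ∈ A := by
    have h1 : k = b * cfc (fun x : ℝ => 1 / (|x| + t)) b := by
      rw [hk]
      nth_rw 2 [← cfc_id' ℝ b]
      rw [← cfc_mul (fun x : ℝ => x) (fun x : ℝ => 1 / (|x| + t)) b continuous_id.continuousOn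
        cu.continuousOn]
      exact cfc_congr fun x _ => by ring
    rw [h1]
    exact hA.right _ _ hbA
  have hk0 : 0 ≤ k := by
    rw [hk]
    exact cfc_nonneg fun x hx => div_nonneg (hsp x hx) (hden x).le
  have hk1 : ‖k‖ ≤ 1 := by
    rw [hk]
    refine norm_cfc_le zero_le_one fun x hx => ?_
    rw [Real.norm_eq_abs, abs_div, abs_of_pos (hden x), div_le_one (hden x)]
    linarith
  have hwk : w = 1 - k := by
    have h1 : cfc (fun x : ℝ => t / (|x| + t)) b + cfc (fun x : ℝ => x / (|x| + t)) b = 1 := by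
      rw [← cfc_add b (fun x : ℝ => t / (|x| + t)) (fun x : ℝ => x / (|x| + t)) cg.continuousOn
        cf.continuousOn, ← cfc_one ℝ b]
      refine cfc_congr fun x hx => ?_
      have h2 : |x| = x := abs_of_nonneg (hsp x hx)
      have h3 := hden x
      show t / (|x| + t) + x / (|x| + t) = (1 : ℝ → ℝ) x
      rw [h2] at h3 ⊢
      rw [← add_div, add_comm t x, Pi.one_apply]
      exact div_self h3.ne'
    rw [hw, hk]
    exact eq_sub_of_add_eq h1
  have hwsa : star w = w := by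
    have h1 : IsSelfAdjoint w := by rw [hw]; exact cfc_predicate _ _
    exact h1.star_eq
  have hwb : ‖w * b * w‖ ≤ t := by
    have h1 : w * b * w = cfc (fun x : ℝ => t / (|x| + t) * x * (t / (|x| + t))) b := by
      rw [cfc_mul (fun x : ℝ => t / (|x| + t) * x) (fun x : ℝ => t / (|x| + t)) b
        (cg.mul continuous_id).continuousOn cg.continuousOn,
        cfc_mul (fun x : ℝ => t / (|x| + t)) (fun x : ℝ => x) b cg.continuousOn
          continuous_id.continuousOn, cfc_id' ℝ b, ← hw]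
    rw [h1]
    refine norm_cfc_le ht0.le fun x hx => ?_
    have hx0 := hsp x hx
    have h2 : |x| = x := abs_of_nonneg hx0
    have h3 : 0 < x + t := by linarith
    rw [h2, Real.norm_eq_abs, abs_of_nonneg (by positivity)]
    have h4 : t / (x + t) * x * (t / (x + t)) = t * (t * x) / (x + t) ^ 2 := by
      field_simp
    rw [h4, div_le_iff₀ (by positivity)]
    nlinarith [mul_nonneg ht0.le hx0, mul_pos ht0 ht0, mul_nonneg hx0 hx0,
      mul_nonneg ht0.le (mul_nonneg hx0 hx0), mul_nonneg ht0.le (mul_nonneg ht0.le hx0),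
      mul_pos ht0 (mul_pos ht0 ht0)]
  refine ⟨k, hkA, hk0, hk1, fun a ha => ?_⟩
  have h1 : ‖k * a - a‖ = ‖w * a‖ := by
    rw [hwk, sub_mul, one_mul, ← norm_neg, neg_sub]
  have h2 : ‖w * a‖ ^ 2 ≤ t := by
    have h3 : a * star a ≤ b := by
      rw [hb]
      exact Finset.single_le_sum (f := fun a => a * star a) (fun a _ => mul_star_self_nonneg a) ha
    have h4 : w * (a * star a) * w ≤ w * b * w := by
      have := star_left_conjugate_le_conjugate h3 w
      rwa [hwsa] at this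
    have h5 : 0 ≤ w * (a * star a) * w := by
      have := star_left_conjugate_nonneg (mul_star_self_nonneg a) w
      rwa [hwsa] at this
    have h6 : ‖w * a‖ ^ 2 = ‖w * (a * star a) * w‖ := by
      rw [pow_two, ← CStarRing.norm_self_mul_star, star_mul, hwsa]
      congr 1
      noncomm_ring
    rw [h6]
    exact (CStarAlgebra.norm_le_norm_of_nonneg_of_le h5 h4).trans hwb
  rw [h1]
  refine lt_of_pow_lt_pow_left₀ 2 hδ.le (h2.trans_lt ?_)
  rw [ht]
  have : 0 < δ ^ 2 := by positivity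
  linarith

theorem le_of_unit {x k : M} {δ : ℝ} (hx0 : 0 ≤ x) (hx1 : ‖x‖ ≤ 1) (hk0 : 0 ≤ k)
    (hk1 : ‖k‖ ≤ 1) (h : ‖k * x - x‖ < δ) : x ≤ k + algebraMap ℝ M (2 * δ) := by
  have hks : star k = k := (IsSelfAdjoint.of_nonneg hk0).star_eq
  have hxs : star x = x := (IsSelfAdjoint.of_nonneg hx0).star_eq
  have hx1' : x ≤ 1 := (CStarAlgebra.norm_le_one_iff_of_nonneg x hx0).1 hx1
  have hk1' : k ≤ 1 := (CStarAlgebra.norm_le_one_iff_of_nonneg k hk0).1 hk1
  have h1 : k * x * k ≤ k := by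
    have h2 : k * x * k ≤ k * 1 * k := by
      have := star_left_conjugate_le_conjugate hx1' k
      rwa [hks] at this
    have h3 : k ^ 2 ≤ k ^ 1 := CStarAlgebra.pow_antitone hk0 hk1' (by norm_num)
    rw [mul_one, ← pow_two] at h2
    rw [pow_one] at h3
    exact h2.trans h3
  have h4 : ‖x * k - x‖ < δ := by
    have h5 : x * k - x = star (k * x - x) := by
      rw [star_sub, star_mul, hks, hxs]
    rw [h5, norm_star]
    exact h
  have h6 : ‖x - k * x * k‖ ≤ 2 * δ := by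
    have h7 : x - k * x * k = -(k * x - x) - k * (x * k - x) := by
      noncomm_ring
    rw [h7]
    calc ‖-(k * x - x) - k * (x * k - x)‖ ≤ ‖-(k * x - x)‖ + ‖k * (x * k - x)‖ := norm_sub_le _ _
      _ ≤ δ + 1 * δ := by
          rw [norm_neg]
          refine add_le_add h.le ((norm_mul_le _ _).trans ?_)
          exact mul_le_mul hk1 h4.le (norm_nonneg _) zero_le_one
      _ = 2 * δ := by ring
  have h8 : IsSelfAdjoint (x - k * x * k) := by
    rw [isSelfAdjoint_iff, star_sub, star_mul, star_mul, hks, hxs, mul_assoc]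
  have h9 : x - k * x * k ≤ algebraMap ℝ M (2 * δ) :=
    h8.le_algebraMap_norm_self.trans (algebraMap_mono M h6)
  calc x = k * x * k + (x - k * x * k) := by abel
    _ ≤ k + algebraMap ℝ M (2 * δ) := add_le_add h1 h9

end Order

end GUnits

open GUnits in
/-- [G1] -/
theorem exists_quasi_unit {G : Type*} [Group G] {M : Type u} [CStarAlgebra M] {A : Set M}
    (hA : IsCore A) (α : G →* (M ≃⋆ₐ[ℂ] M)) (hα : ∀ g, ∀ a ∈ A, α g a ∈ A)
    (Fa : Finset M) (hFa : ∀ a ∈ Fa, a ∈ A) (Fm : Finset M) (K : Finset G) (ε : ℝ) (hε : 0 < ε) :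
    ∃ h ∈ A, IsPos h ∧ ‖h‖ ≤ 1 ∧ (∀ a ∈ Fa, ‖h * a - a‖ < ε ∧ ‖a * h - a‖ < ε) ∧
      (∀ m ∈ Fm, ‖h * m - m * h‖ < ε) ∧ ∀ g ∈ K, ‖α g h - h‖ < ε := by
  classical
  let _ := CStarAlgebra.spectralOrder M
  have _ := CStarAlgebra.spectralOrderedRing M
  obtain ⟨δ, hδ⟩ : ∃ δ : ℝ, δ = ε / 8 := ⟨_, rfl⟩
  have hδ0 : 0 < δ := by rw [hδ]; positivity
  choose cc hcc using hA.codim
  -- the finite set
  obtain ⟨T0, hT0⟩ : ∃ T0 : Finset M, T0 = Fa ∪ Fa.image star ∪
      (Fm.image (fun m => m - cc m • (1 : M)) ∪ Fm.image (fun m => star (m - cc m • (1 : M)))) :=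
    ⟨_, rfl⟩
  have hT0A : ∀ a ∈ T0, a ∈ A := by
    intro a ha
    rw [hT0] at ha
    simp only [Finset.mem_union, Finset.mem_image] at ha
    rcases ha with (h | ⟨b, hb, rfl⟩) | (⟨m, _, rfl⟩ | ⟨m, _, rfl⟩)
    · exact hFa a h
    · exact hA.star b (hFa b hb)
    · exact hcc m
    · exact hA.star _ (hcc m)
  -- the sequence
  have hstep : ∀ x : {x : M // x ∈ A ∧ 0 ≤ x ∧ ‖x‖ ≤ 1}, ∃ k : {x : M // x ∈ A ∧ 0 ≤ x ∧ ‖x‖ ≤ 1},
      (∀ a ∈ T0, ‖(k : M) * a - a‖ < δ) ∧ (∀ g ∈ K, ‖(k : M) * α g x - α g x‖ < δ) ∧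
      ∀ g ∈ K, ‖(k : M) * α g⁻¹ x - α g⁻¹ x‖ < δ := by
    rintro ⟨x, hxA, hx0, hx1⟩
    obtain ⟨k, hkA, hk0, hk1, hk⟩ := exists_unit hA
      (T0 ∪ (K.image (fun g => α g x) ∪ K.image (fun g => α g⁻¹ x))) (by
        intro a ha
        simp only [Finset.mem_union, Finset.mem_image] at ha
        rcases ha with h | ⟨g, _, rfl⟩ | ⟨g, _, rfl⟩
        · exact hT0A a h
        · exact hα g x hxA
        · exact hα g⁻¹ x hxA) hδ0
    refine ⟨⟨k, hkA, hk0, hk1⟩, fun a ha => hk a (Finset.mem_union_left _ ha), fun g hg => ?_,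
      fun g hg => ?_⟩
    · exact hk _ (Finset.mem_union_right _ (Finset.mem_union_left _
        (Finset.mem_image.2 ⟨g, hg, rfl⟩)))
    · exact hk _ (Finset.mem_union_right _ (Finset.mem_union_right _
        (Finset.mem_image.2 ⟨g, hg, rfl⟩)))
  choose f hf using hstep
  obtain ⟨h, hh⟩ : ∃ h : ℕ → {x : M // x ∈ A ∧ 0 ≤ x ∧ ‖x‖ ≤ 1},
      h = fun i => f^[i + 1] ⟨0, hA.zero, le_rfl, by rw [norm_zero]; exact zero_le_one⟩ := ⟨_, rfl⟩
  have hsucc : ∀ i, h (i + 1) = f (h i) := by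
    intro i
    rw [hh]
    exact Function.iterate_succ_apply' f (i + 1) _
  have hT : ∀ i, ∀ a ∈ T0, ‖(h i : M) * a - a‖ < δ := by
    intro i a ha
    have h1 : h i = f (f^[i] ⟨0, hA.zero, le_rfl, by rw [norm_zero]; exact zero_le_one⟩) := by
      rw [hh]
      exact Function.iterate_succ_apply' f i _
    rw [h1]
    exact (hf _).1 a ha
  have hg1 : ∀ i, ∀ g ∈ K, ‖(h (i + 1) : M) * α g (h i) - α g (h i)‖ < δ := by
    intro i g hg
    rw [hsucc]
    exact (hf _).2.1 g hg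
  have hg2 : ∀ i, ∀ g ∈ K, ‖(h (i + 1) : M) * α g⁻¹ (h i) - α g⁻¹ (h i)‖ < δ := by
    intro i g hg
    rw [hsucc]
    exact (hf _).2.2 g hg
  have hnn : ∀ g (x : M), 0 ≤ x → 0 ≤ α g x := by
    intro g x hx
    obtain ⟨y, rfl⟩ := CStarAlgebra.nonneg_iff_eq_star_mul_self.1 hx
    rw [map_mul, map_star]
    exact star_mul_self_nonneg _
  have hnorm : ∀ g (x : M), ‖α g x‖ = ‖x‖ := fun g x => norm_act α g x
  have hmap : ∀ g (r : ℝ), α g (algebraMap ℝ M r) = algebraMap ℝ M r := by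
    intro g r
    rw [IsScalarTower.algebraMap_apply ℝ ℂ M]
    exact AlgHomClass.commutes (α g) _
  -- order relations
  have o1 : ∀ i, ∀ g ∈ K, α g (h i) ≤ (h (i + 1) : M) + algebraMap ℝ M (2 * δ) := by
    intro i g hg
    exact le_of_unit (hnn g _ (h i).2.2.1) (by rw [hnorm]; exact (h i).2.2.2) (h (i + 1)).2.2.1
      (h (i + 1)).2.2.2 (hg1 i g hg)
  have o2 : ∀ i, ∀ g ∈ K, (h i : M) ≤ α g (h (i + 1)) + algebraMap ℝ M (2 * δ) := by
    intro i g hg
    have h1 : α g⁻¹ (h i) ≤ (h (i + 1) : M) + algebraMap ℝ M (2 * δ) :=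
      le_of_unit (hnn _ _ (h i).2.2.1) (by rw [hnorm]; exact (h i).2.2.2) (h (i + 1)).2.2.1
        (h (i + 1)).2.2.2 (hg2 i g hg)
    have h2 := hnn g _ (sub_nonneg.2 h1)
    rw [map_sub, map_add, hmap] at h2
    have h3 : α g (α g⁻¹ (h i : M)) = h i := by
      have : α g * α g⁻¹ = 1 := by rw [← map_mul, mul_inv_cancel, map_one]
      exact DFunLike.congr_fun this (h i : M)
    rw [h3] at h2
    exact sub_nonneg.1 h2
  obtain ⟨N, hN⟩ := exists_nat_gt (4 / ε)
  have hNr : 0 < (N : ℝ) := lt_trans (by positivity) hN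
  have hN1 : 1 / (N : ℝ) < ε / 4 := by
    rw [div_lt_iff₀ hNr]
    rw [div_lt_iff₀ hε] at hN
    linarith
  obtain ⟨H, hH⟩ : ∃ H : M, H = (1 / (N : ℝ)) • ∑ i ∈ Finset.range N, (h i : M) := ⟨_, rfl⟩
  have hc0 : 0 ≤ 1 / (N : ℝ) := by positivity
  have hsmulA : ∀ (r : ℝ), ∀ x ∈ A, r • x ∈ A := by
    intro r x hx
    have := hA.smul (r : ℂ) x hx
    rwa [Complex.coe_smul] at this
  have hHA : H ∈ A := by
    rw [hH]
    refine hsmulA _ _ ?_
    exact Finset.sum_induction _ (fun x => x ∈ A) (fun x y hx hy => hA.add x hx y hy) hA.zero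
      fun i _ => (h i).2.1
  have hH0 : 0 ≤ H := by
    rw [hH]
    exact smul_nonneg hc0 (Finset.sum_nonneg fun i _ => (h i).2.2.1)
  have hHs : IsSelfAdjoint H := IsSelfAdjoint.of_nonneg hH0
  have havg : ∀ (y : ℕ → M) (r : ℝ), (∀ i, ‖y i‖ ≤ r) →
      ‖(1 / (N : ℝ)) • ∑ i ∈ Finset.range N, y i‖ ≤ r := by
    intro y r hy
    rw [norm_smul, Real.norm_eq_abs, abs_of_nonneg hc0]
    have h1 : ‖∑ i ∈ Finset.range N, y i‖ ≤ N * r := by
      refine (norm_sum_le _ _).trans ((Finset.sum_le_sum fun i _ => hy i).trans (le_of_eq ?_))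
      rw [Finset.sum_const, Finset.card_range, nsmul_eq_mul]
    calc 1 / (N : ℝ) * ‖∑ i ∈ Finset.range N, y i‖ ≤ 1 / (N : ℝ) * (N * r) :=
          mul_le_mul_of_nonneg_left h1 hc0
      _ = r := by field_simp
  have hH1 : ‖H‖ ≤ 1 := by
    rw [hH]
    exact havg _ 1 fun i => (h i).2.2.2
  have hHT : ∀ a ∈ T0, ‖H * a - a‖ ≤ δ := by
    intro a ha
    have h1 : H * a - a = (1 / (N : ℝ)) • ∑ i ∈ Finset.range N, ((h i : M) * a - a) := by
      rw [Finset.sum_sub_distrib, smul_sub, ← Finset.sum_mul, Finset.sum_const, Finset.card_range,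
        hH, smul_mul_assoc, ← Nat.cast_smul_eq_nsmul ℝ N a, smul_smul]
      congr 1
      rw [one_div, inv_mul_cancel₀ hNr.ne', one_smul]
    rw [h1]
    exact havg _ δ fun i => (hT i a ha).le
  have hHT' : ∀ a, star a ∈ T0 → ‖a * H - a‖ ≤ δ := by
    intro a ha
    have h1 := hHT _ ha
    have h2 : H * star a - star a = star (a * H - a) := by
      rw [star_sub, star_mul, hHs.star_eq]
    rwa [h2, norm_star] at h1
  have hδε : δ < ε := by rw [hδ]; linarith
  refine ⟨H, hHA, CStarAlgebra.nonneg_iff_eq_star_mul_self.1 hH0, hH1, fun a ha => ⟨?_, ?_⟩,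
    fun m hm => ?_, fun g hg => ?_⟩
  · refine (hHT a ?_).trans_lt hδε
    rw [hT0]
    exact Finset.mem_union_left _ (Finset.mem_union_left _ ha)
  · refine (hHT' a ?_).trans_lt hδε
    rw [hT0]
    exact Finset.mem_union_left _ (Finset.mem_union_right _ (Finset.mem_image_of_mem _ ha))
  · obtain ⟨a, ha⟩ : ∃ a : M, a = m - cc m • (1 : M) := ⟨_, rfl⟩
    have m1 : ‖H * a - a‖ ≤ δ := by
      refine hHT a ?_
      rw [hT0, ha]
      exact Finset.mem_union_right _ (Finset.mem_union_left _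
        (Finset.mem_image.2 ⟨m, hm, rfl⟩))
    have m2 : ‖a * H - a‖ ≤ δ := by
      refine hHT' a ?_
      rw [hT0, ha]
      exact Finset.mem_union_right _ (Finset.mem_union_right _
        (Finset.mem_image.2 ⟨m, hm, rfl⟩))
    have m3 : H * m - m * H = (H * a - a) - (a * H - a) := by
      have m4 : m = a + cc m • (1 : M) := by rw [ha]; abel
      rw [m4, mul_add, add_mul, mul_smul_comm, smul_mul_assoc, mul_one, one_mul]
      abel
    rw [m3]
    calc ‖(H * a - a) - (a * H - a)‖ ≤ ‖H * a - a‖ + ‖a * H - a‖ := norm_sub_le _ _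
      _ ≤ δ + δ := add_le_add m1 m2
      _ < ε := by rw [hδ]; linarith
  · -- invariance
    have hαH : α g H = (1 / (N : ℝ)) • ∑ i ∈ Finset.range N, α g (h i) := by
      have e1 : ∀ (r : ℝ) (x : M), α g (r • x) = r • α g x := by
        intro r x
        rw [← Complex.coe_smul, map_smul, Complex.coe_smul]
      rw [hH, e1, map_sum]
    have hsa : IsSelfAdjoint (α g H - H) := by
      rw [isSelfAdjoint_iff, star_sub, ← map_star, hHs.star_eq]
    have hle1 : ∀ x : M, 0 ≤ x → ‖x‖ ≤ 1 → x ≤ algebraMap ℝ M 1 := by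
      intro x hx hx1
      rw [map_one]
      exact (CStarAlgebra.norm_le_one_iff_of_nonneg x hx).1 hx1
    have hconst : (1 / (N : ℝ)) • ∑ _i ∈ Finset.range N, algebraMap ℝ M (2 * δ) =
        algebraMap ℝ M (2 * δ) := by
      rw [Finset.sum_const, Finset.card_range, ← Nat.cast_smul_eq_nsmul ℝ N, smul_smul, one_div,
        inv_mul_cancel₀ hNr.ne', one_smul]
    have hsc : (1 / (N : ℝ)) • algebraMap ℝ M 1 = algebraMap ℝ M (1 / (N : ℝ)) := by
      rw [map_one, Algebra.algebraMap_eq_smul_one]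
    have key : ∀ y z : ℕ → M, (∀ i, y i ≤ z (i + 1) + algebraMap ℝ M (2 * δ)) → (∀ i, 0 ≤ z i) →
        (∀ i, ‖z i‖ ≤ 1) → (1 / (N : ℝ)) • ∑ i ∈ Finset.range N, y i -
          (1 / (N : ℝ)) • ∑ i ∈ Finset.range N, z i ≤ algebraMap ℝ M (1 / (N : ℝ) + 2 * δ) := by
      intro y z hyz hz0 hz1
      have h1 : ∑ i ∈ Finset.range N, y i - ∑ i ∈ Finset.range N, z i ≤
          algebraMap ℝ M 1 + ∑ _i ∈ Finset.range N, algebraMap ℝ M (2 * δ) := by
        have h2 : ∑ i ∈ Finset.range N, (z (i + 1) - z i) = z N - z 0 :=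
          Finset.sum_range_sub z N
        calc ∑ i ∈ Finset.range N, y i - ∑ i ∈ Finset.range N, z i
            ≤ ∑ i ∈ Finset.range N, (z (i + 1) + algebraMap ℝ M (2 * δ)) -
                ∑ i ∈ Finset.range N, z i :=
              sub_le_sub_right (Finset.sum_le_sum fun i _ => hyz i) _
          _ = ∑ i ∈ Finset.range N, (z (i + 1) - z i) +
                ∑ _i ∈ Finset.range N, algebraMap ℝ M (2 * δ) := by
              rw [Finset.sum_add_distrib, Finset.sum_sub_distrib]; abel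
          _ = z N - z 0 + ∑ _i ∈ Finset.range N, algebraMap ℝ M (2 * δ) := by rw [h2]
          _ ≤ algebraMap ℝ M 1 + ∑ _i ∈ Finset.range N, algebraMap ℝ M (2 * δ) := by
              refine add_le_add ?_ le_rfl
              exact (sub_le_self _ (hz0 0)).trans (hle1 _ (hz0 N) (hz1 N))
      have h3 := smul_le_smul_of_nonneg_left h1 hc0
      rw [smul_sub, smul_add, hconst, hsc, ← map_add] at h3
      exact h3
    have b1 : α g H - H ≤ algebraMap ℝ M (1 / (N : ℝ) + 2 * δ) := by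
      rw [hαH]
      nth_rw 1 [hH]
      exact key (fun i => α g (h i)) (fun i => (h i : M)) (fun i => o1 i g hg)
        (fun i => (h i).2.2.1) fun i => (h i).2.2.2
    have b2 : H - α g H ≤ algebraMap ℝ M (1 / (N : ℝ) + 2 * δ) := by
      rw [hαH]
      nth_rw 1 [hH]
      exact key (fun i => (h i : M)) (fun i => α g (h i)) (fun i => o2 i g hg)
        (fun i => hnn g _ (h i).2.2.1) fun i => by rw [hnorm]; exact (h i).2.2.2
    have b3 : -(algebraMap ℝ M (1 / (N : ℝ) + 2 * δ)) ≤ α g H - H := by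
      rw [neg_le, neg_sub]
      exact b2
    refine (norm_le_of_two_sided hsa (by positivity) b1 b3).trans_lt ?_
    rw [hδ]
    linarith

end Vale.Agent.P095.NU
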